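import Crest.Agent.R66.Basic

/-! # Row 66: conditional expectations `av` (task AV, helper24) -/

set_option autoImplicit false

namespace Crest.Agent.R66

open Finset

variable {ι Ω α : Type*} [DecidableEq α] [Fintype Ω] {π : ι → Ω → α}
  {S S' : Finset ι} {φ ψ : Ω → ℝ}

omit [DecidableEq α] [Fintype Ω] in
theorem Meas.mono (h : Meas π S φ) (hS : S ⊆ S') : Meas π S' φ :=
  fun x y e => h x y fun i hi => e i (hS hi)

omit [DecidableEq α] [Fintype Ω] in
theorem Meas.add (h : Meas π S φ) (h' : Meas π S ψ) : Meas π S (fun x => φ x + ψ x) :=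
  fun x y e => by simp only [h x y e, h' x y e]

omit [DecidableEq α] [Fintype Ω] in
theorem Meas.sub (h : Meas π S φ) (h' : Meas π S ψ) : Meas π S (fun x => φ x - ψ x) :=
  fun x y e => by simp only [h x y e, h' x y e]

omit [DecidableEq α] [Fintype Ω] in
theorem Meas.mul (h : Meas π S φ) (h' : Meas π S ψ) : Meas π S (fun x => φ x * ψ x) :=
  fun x y e => by simp only [h x y e, h' x y e]

omit [DecidableEq α] [Fintype Ω] in
theorem meas_const (c : ℝ) : Meas π S (fun _ => c) := fun _ _ _ => rfl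

omit [DecidableEq α] [Fintype Ω] in
theorem meas_sum {γ : Type*} (s : Finset γ) {f : γ → Ω → ℝ} (h : ∀ c ∈ s, Meas π S (f c)) :
    Meas π S (fun x => ∑ c ∈ s, f c x) :=
  fun x y e => sum_congr rfl fun c hc => h c hc x y e

theorem Meas.eq_of_mem (h : Meas π S φ) {x y : Ω} (hy : y ∈ cl π S x) : φ y = φ x :=
  h y x (mem_cl.1 hy)

theorem meas_av (S : Finset ι) (φ : Ω → ℝ) : Meas π S (av π S φ) := fun x y e => by
  have : cl π S x = cl π S y := cl_eq_of_mem (mem_cl.2 e)
  simp only [av, this]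

theorem card_cl_pos' (S : Finset ι) (x : Ω) : (0 : ℝ) < (cl π S x).card := by
  exact_mod_cast card_cl_pos S x

theorem av_mul_of_meas (h : Meas π S ψ) (φ : Ω → ℝ) (x : Ω) :
    av π S (fun y => ψ y * φ y) x = ψ x * av π S φ x := by
  simp only [av]
  rw [← mul_div_assoc, mul_sum]
  congr 1
  exact sum_congr rfl fun y hy => by rw [h.eq_of_mem hy]

theorem av_const (S : Finset ι) (c : ℝ) (x : Ω) : av π S (fun _ => c) x = c := by
  have := (card_cl_pos' (π := π) S x).ne'
  simp only [av, sum_const, nsmul_eq_mul]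
  field_simp

theorem av_of_meas (h : Meas π S φ) (x : Ω) : av π S φ x = φ x := by
  have := av_mul_of_meas h (fun _ => 1) x
  simpa [av_const] using this

theorem av_add (S : Finset ι) (φ ψ : Ω → ℝ) (x : Ω) :
    av π S (fun y => φ y + ψ y) x = av π S φ x + av π S ψ x := by
  simp only [av, sum_add_distrib, add_div]

theorem av_sub (S : Finset ι) (φ ψ : Ω → ℝ) (x : Ω) :
    av π S (fun y => φ y - ψ y) x = av π S φ x - av π S ψ x := by
  simp only [av, sum_sub_distrib, sub_div]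

theorem av_const_mul (S : Finset ι) (c : ℝ) (φ : Ω → ℝ) (x : Ω) :
    av π S (fun y => c * φ y) x = c * av π S φ x := av_mul_of_meas (meas_const c) φ x

theorem av_sum {γ : Type*} (s : Finset γ) (S : Finset ι) (f : γ → Ω → ℝ) (x : Ω) :
    av π S (fun y => ∑ c ∈ s, f c y) x = ∑ c ∈ s, av π S (f c) x := by
  simp only [av]
  rw [sum_comm, sum_div]

theorem av_mono (S : Finset ι) (h : ∀ x, φ x ≤ ψ x) (x : Ω) : av π S φ x ≤ av π S ψ x :=
  div_le_div_of_nonneg_right (sum_le_sum fun y _ => h y) (card_cl_pos' S x).le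

theorem av_nonneg (S : Finset ι) (h : ∀ x, 0 ≤ φ x) (x : Ω) : 0 ≤ av π S φ x := by
  simpa [av_const] using av_mono (π := π) (φ := fun _ => 0) S h x

/-- `av` is self-adjoint -/
theorem sum_mul_av (S : Finset ι) (φ ψ : Ω → ℝ) :
    ∑ x, φ x * av π S ψ x = ∑ x, av π S φ x * ψ x := by
  classical
  have h1 : ∀ φ ψ : Ω → ℝ, ∑ x, φ x * av π S ψ x =
      ∑ x, ∑ y, if y ∈ cl π S x then φ x * ψ y / (cl π S x).card else 0 := by
    intro φ ψ
    refine sum_congr rfl fun x _ => ?_
    rw [← sum_filter, filter_mem_eq_inter, univ_inter, av, sum_div, mul_sum]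
    exact sum_congr rfl fun y _ => by ring
  rw [h1, sum_comm]
  simp only [mul_comm (av π S φ _)]
  rw [h1]
  refine sum_congr rfl fun x _ => sum_congr rfl fun y _ => ?_
  by_cases h : y ∈ cl π S x
  · rw [if_pos h, if_pos (mem_cl_comm.1 h), cl_eq_of_mem h, mul_comm]
  · rw [if_neg h, if_neg (fun h' => h (mem_cl_comm.1 h'))]

theorem sum_av (S : Finset ι) (φ : Ω → ℝ) : ∑ x, av π S φ x = ∑ x, φ x := by
  simpa [av_const] using sum_mul_av (π := π) S (fun _ => 1) φ

theorem sum_mul_av_of_meas (h : Meas π S φ) (ψ : Ω → ℝ) :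
    ∑ x, φ x * av π S ψ x = ∑ x, φ x * ψ x := by
  rw [sum_mul_av]
  simp only [av_of_meas h]

theorem av_av_of_superset (h : S ⊆ S') (φ : Ω → ℝ) (x : Ω) :
    av π S' (av π S φ) x = av π S φ x := av_of_meas ((meas_av S φ).mono h) x

/-- tower property -/
theorem av_av_of_subset (h : S ⊆ S') (φ : Ω → ℝ) (x : Ω) :
    av π S (av π S' φ) x = av π S φ x := by
  classical
  have hm : Meas π S' (fun y => if y ∈ cl π S x then (1 : ℝ) else 0) := by
    intro y z e
    have : y ∈ cl π S x ↔ z ∈ cl π S x := by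
      simp only [mem_cl]
      exact forall₂_congr fun i hi => by rw [e i (h hi)]
    simp only [this]
  have := sum_mul_av_of_meas hm φ
  simp only [ite_mul, one_mul, zero_mul, ← sum_filter, filter_mem_eq_inter, univ_inter] at this
  rw [av, this, av]

/-- Pythagoras -/
theorem pyth (S : Finset ι) (φ : Ω → ℝ) :
    ∑ x, φ x ^ 2 = ∑ x, av π S φ x ^ 2 + ∑ x, (φ x - av π S φ x) ^ 2 := by
  have h := sum_mul_av_of_meas (meas_av (π := π) S φ) φ
  rw [← sum_add_distrib]
  have : ∑ x, (av π S φ x ^ 2 + (φ x - av π S φ x) ^ 2) =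
      ∑ x, φ x ^ 2 + 2 * (∑ x, av π S φ x * av π S φ x - ∑ x, av π S φ x * φ x) := by
    rw [← sum_sub_distrib, mul_sum, ← sum_add_distrib]
    exact sum_congr rfl fun x _ => by ring
  rw [this, h, sub_self, mul_zero, add_zero]

theorem sum_sq_av_le (S : Finset ι) (φ : Ω → ℝ) : ∑ x, av π S φ x ^ 2 ≤ ∑ x, φ x ^ 2 := by
  rw [pyth (π := π) S φ]
  exact le_add_of_nonneg_right (sum_nonneg fun _ _ => sq_nonneg _)

theorem sum_sq_sub_av_le (S : Finset ι) (φ : Ω → ℝ) :
    ∑ x, (φ x - av π S φ x) ^ 2 ≤ ∑ x, φ x ^ 2 := by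
  rw [pyth (π := π) S φ]
  exact le_add_of_nonneg_left (sum_nonneg fun _ _ => sq_nonneg _)

theorem av_sub_av (S : Finset ι) (φ : Ω → ℝ) (x : Ω) :
    av π S (fun y => φ y - av π S φ y) x = 0 := by
  rw [av_sub, av_of_meas (meas_av S φ), sub_self]

theorem Spec.mono [DecidableEq ι] {A B : Finset ι} {μ μ' : ℝ} (h : Spec π S A B μ) (hμ : μ ≤ μ') :
    Spec π S A B μ' := fun φ h1 h2 =>
  (h φ h1 h2).trans (mul_le_mul_of_nonneg_right hμ (sum_nonneg fun _ _ => sq_nonneg _))

end Crest.Agent.R66
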