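import Crest.Agent.R66.Good

/-! # Row 66: action of `P_I` on the link space (task BR) -/

set_option autoImplicit false

namespace Crest.Agent.R66

open Finset Module Matrix

variable {k R : Type} [Field k] [CommRing R] [Algebra k R] (τ : Trunc k R)
variable {n : Type} [Fintype n] [DecidableEq n]

theorem mem_FF_one {r : R} : r ∈ FF τ 1 ↔ r = algebraMap k R (τ.c0 r) := by
  constructor
  · intro h
    have e : FF τ 1 = k ∙ (1 : R) := by
      have : (Set.Iio 1 : Set ℕ) = {0} := by ext i; simp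
      simp [FF, this]
    rw [e, Submodule.mem_span_singleton] at h
    obtain ⟨a, rfl⟩ := h
    simp [Algebra.algebraMap_eq_smul_one]
  · intro h
    rw [h, Algebra.algebraMap_eq_smul_one]
    exact Submodule.smul_mem _ _ (by simpa using pow_mem_FF τ (i := 0) (m := 1) one_pos)

theorem mem_FF_two {r : R} :
    r ∈ FF τ 2 ↔ r = algebraMap k R (τ.c0 r) + algebraMap k R (τ.c1 r) * τ.t := by
  constructor
  · intro h
    have e : FF τ 2 = Submodule.span k {(1 : R), τ.t} := by
      have : (Set.Iio 2 : Set ℕ) = {0, 1} := by ext i; simp; omega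
      simp [FF, this, Set.image_pair]
    rw [e, Submodule.mem_span_pair] at h
    obtain ⟨a, b, rfl⟩ := h
    simp [Algebra.algebraMap_eq_smul_one, τ.c0_t, τ.c1_one, τ.c1_t]
  · intro h
    rw [h, ← Algebra.smul_def, Algebra.algebraMap_eq_smul_one]
    exact add_mem
      (Submodule.smul_mem _ _ (by simpa using pow_mem_FF τ (i := 0) (m := 2) two_pos))
      (Submodule.smul_mem _ _ (by simpa using pow_mem_FF τ (i := 1) (m := 2) one_lt_two))

theorem FF_succ (m : ℕ) : FF τ (m + 1) = FF τ m ⊔ (k ∙ τ.t ^ m) := by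
  have : (Set.Iio (m + 1) : Set ℕ) = insert m (Set.Iio m) := by
    ext i; simp only [Set.mem_Iio, Set.mem_insert_iff]; omega
  rw [FF, this, Set.image_insert_eq, Submodule.span_insert, sup_comm]
  rfl

theorem FF_top {m : ℕ} (h : τ.s ≤ m) : FF τ m = ⊤ := by
  rw [eq_top_iff]
  exact fun r _ => FF_mono τ h (τ.span_top r)

theorem c1_algebraMap_mul (a : k) (r : R) : τ.c1 (algebraMap k R a * r) = a * τ.c1 r := by
  rw [← Algebra.smul_def, map_smul, smul_eq_mul]

theorem c1_of_mem_FF_one {r : R} (h : r ∈ FF τ 1) : τ.c1 r = 0 := by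
  rw [(mem_FF_one τ).1 h, ← mul_one (algebraMap k R _), c1_algebraMap_mul, τ.c1_one, mul_zero]

theorem c1_mul_left {r r' : R} (h : r ∈ FF τ 1) : τ.c1 (r * r') = τ.c0 r * τ.c1 r' := by
  conv_lhs => rw [(mem_FF_one τ).1 h]
  exact c1_algebraMap_mul τ _ _

theorem c1_mul_right {r r' : R} (h : r' ∈ FF τ 1) : τ.c1 (r * r') = τ.c1 r * τ.c0 r' := by
  rw [mul_comm, c1_mul_left τ h, mul_comm]

theorem mem_FF_zero {r : R} : r ∈ FF τ 0 ↔ r = 0 := by
  rw [FF_zero, Submodule.mem_bot]

theorem c0_eq_zero_iff {r : R} (h : r ∈ FF τ 1) : τ.c0 r = 0 ↔ r ∈ FF τ 0 := by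
  rw [mem_FF_zero]
  constructor
  · intro e
    rw [(mem_FF_one τ).1 h, e, map_zero]
  · rintro rfl
    exact map_zero _

theorem c1_eq_zero_iff {r : R} (h : r ∈ FF τ 2) : τ.c1 r = 0 ↔ r ∈ FF τ 1 := by
  refine ⟨fun e => (mem_FF_one τ).2 ?_, c1_of_mem_FF_one τ⟩
  have := (mem_FF_two τ).1 h
  rwa [e, map_zero, zero_mul, add_zero] at this

theorem algebraMap_mem_FF_one (a : k) : algebraMap k R a ∈ FF τ 1 :=
  (mem_FF_one τ).2 (by simp)

theorem algebraMap_mul_t_mem_FF_two (a : k) : algebraMap k R a * τ.t ∈ FF τ 2 := by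
  rw [← Algebra.smul_def]
  exact Submodule.smul_mem _ _ (by simpa using pow_mem_FF τ (i := 1) (m := 2) one_lt_two)

theorem ChainOK.total {𝓘 : Finset (Finset n)} (hc : ChainOK 𝓘) {I I' : Finset n} (hI : I ∈ 𝓘)
    (hI' : I' ∈ 𝓘) : I ⊆ I' ∨ I' ⊆ I := hc.1.total (mem_coe.2 hI) (mem_coe.2 hI')

theorem LL_self (I : Finset n) : LL I I = ∅ := by
  simp [LL]

theorem LL_comp (I I' : Finset n) : LL I I' ⊆ I ∨ I ⊆ LL I I' := by
  unfold LL
  split_ifs
  · exact Or.inl sdiff_subset
  · exact Or.inr subset_union_left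

theorem LL_chain {𝓘 : Finset (Finset n)} (hc : ChainOK 𝓘) {I I' I'' : Finset n} (hI : I ∈ 𝓘)
    (hI' : I' ∈ 𝓘) (hI'' : I'' ∈ 𝓘) : LL I I' ⊆ LL I I'' ∨ LL I I'' ⊆ LL I I' := by
  unfold LL
  rcases hc.total hI' hI'' with h | h <;> split_ifs with h1 h2 h2
  · exact Or.inr (sdiff_subset_sdiff Subset.rfl h)
  · exact Or.inl (sdiff_subset.trans subset_union_left)
  · exact Or.inr (sdiff_subset.trans subset_union_left)
  · exact Or.inr (union_subset_union Subset.rfl (compl_subset_compl.2 h))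
  · exact Or.inl (sdiff_subset_sdiff Subset.rfl h)
  · exact Or.inl (sdiff_subset.trans subset_union_left)
  · exact Or.inr (sdiff_subset.trans subset_union_left)
  · exact Or.inl (union_subset_union Subset.rfl (compl_subset_compl.2 h))

theorem card_LL_inj {𝓘 : Finset (Finset n)} (hc : ChainOK 𝓘) {I I' I'' : Finset n} (hI : I ∈ 𝓘)
    (hI' : I' ∈ 𝓘) (hI'' : I'' ∈ 𝓘) (h : (LL I I').card = (LL I I'').card) : I' = I'' := by
  have e : LL I I' = LL I I'' := by
    rcases LL_chain hc hI hI' hI'' with h1 | h1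
    · exact eq_of_subset_of_card_le h1 h.ge
    · exact (eq_of_subset_of_card_le h1 h.le).symm
  have key : ∀ {J J' : Finset n}, J ∈ 𝓘 → J' ∈ 𝓘 → J ⊆ I → ¬ J' ⊆ I → I \ J ≠ I ∪ J'ᶜ := by
    intro J J' hJ hJ' h1 h2 e
    have h3 : I ⊆ J' := (hc.total hI hJ').resolve_right h2
    have a : J = ∅ := by
      rw [eq_empty_iff_forall_notMem]
      intro i hi
      have : i ∈ I \ J := e ▸ mem_union_left _ (h1 hi)
      exact (mem_sdiff.1 this).2 hi
    have b : J' = univ := by
      rw [eq_univ_iff_forall]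
      intro i
      by_contra hi
      have : i ∈ I \ J := e ▸ mem_union_right _ (mem_compl.2 hi)
      exact hi (h3 (mem_sdiff.1 this).1)
    exact hc.2 ⟨a ▸ hJ, b ▸ hJ'⟩
  unfold LL at e
  split_ifs at e with h1 h2 h2
  · ext i
    have a := Finset.ext_iff.1 e i
    have b := @h1 i
    have c := @h2 i
    simp only [mem_sdiff] at a
    tauto
  · exact absurd e (key hI' hI'' h1 h2)
  · exact absurd e.symm (key hI'' hI' h2 h1)
  · have h3 : I ⊆ I' := (hc.total hI hI').resolve_right h1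
    have h4 : I ⊆ I'' := (hc.total hI hI'').resolve_right h2
    ext i
    have a := Finset.ext_iff.1 e i
    have b := @h3 i
    have c := @h4 i
    simp only [mem_union, mem_compl] at a
    tauto

theorem card_LL_lt {𝓘 : Finset (Finset n)} (hc : ChainOK 𝓘) {I I' : Finset n} (hI : I ∈ 𝓘)
    (hI' : I' ∈ 𝓘) : (LL I I').card < Fintype.card n := by
  rw [card_lt_iff_ne_univ]
  intro e
  rw [eq_univ_iff_forall] at e
  unfold LL at e
  split_ifs at e with h1
  · have a : I' = ∅ := by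
      rw [eq_empty_iff_forall_notMem]
      exact fun i hi => (mem_sdiff.1 (e i)).2 hi
    have b : I = univ := eq_univ_iff_forall.2 fun i => (mem_sdiff.1 (e i)).1
    exact hc.2 ⟨a ▸ hI', b ▸ hI⟩
  · exact h1 fun i hi => (mem_union.1 (e i)).resolve_right (by simpa using hi)

variable [Finite R]

omit [Fintype n] [DecidableEq n] [Finite R] in
theorem coord_mono {L L' : Finset n} (h : L ⊆ L') : coord k L ≤ coord k L' :=
  fun _ hw => mem_coord.2 fun i hi => mem_coord.1 hw i fun hi' => hi (h hi')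

omit [Finite R] in
theorem bar_apply (I : Finset n) (p : SL n R) (i j : n) :
    bar τ I p i j = if i ∉ I ∧ j ∈ I then τ.c1 (mt p i j) else τ.c0 (mt p i j) := rfl

theorem bar_one (I : Finset n) : bar τ I 1 = 1 := by
  ext i j
  by_cases h : i = j
  · subst h
    simp [bar]
  · simp [bar, Matrix.one_apply_ne h]

theorem ite_sum_zero_aux {β M : Type*} [AddCommMonoid M] (s : Finset β) (P : Prop) [Decidable P]
    (f g : β → M) : ∑ l ∈ s, (if P then f l else g l) = if P then ∑ l ∈ s, f l else ∑ l ∈ s, g l := by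
  split_ifs <;> rfl

/-- entrywise, using `mem_FF_one`, `mem_FF_two`, `FF_zero` -/
theorem bar_mul {I : Finset n} {p q : SL n R} (hp : p ∈ PP τ I) (hq : q ∈ PP τ I) :
    bar τ I (p * q) = bar τ I p * bar τ I q := by
  ext i j
  rw [Matrix.mul_apply, bar_apply, mt_mul, Matrix.mul_apply, map_sum, map_sum, ← ite_sum_zero_aux]
  refine sum_congr rfl fun l _ => ?_
  have h1 := hp i l
  have h2 := hq l j
  rw [bar_apply, bar_apply]
  by_cases hi : i ∈ I <;> by_cases hj : j ∈ I <;> by_cases hl : l ∈ I <;>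
    simp only [ee, hi, hj, hl, if_true, if_false, not_true, not_false_iff, and_self, and_true,
      and_false, Nat.add_sub_cancel, add_zero, tsub_zero, tsub_self, mem_FF_zero] at h1 h2 ⊢
  · exact map_mul _ _ _
  · simp [h1]
  · exact map_mul _ _ _
  · exact map_mul _ _ _
  · exact c1_mul_right τ h2
  · exact c1_mul_left τ h1
  · simp [h2]
  · exact map_mul _ _ _

theorem bar_apply_eq_zero {I : Finset n} {p : SL n R} (hp : p ∈ PP τ I) {i j : n} (hi : i ∈ I)
    (hj : j ∉ I) : bar τ I p i j = 0 := by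
  have h := hp i j
  simp only [ee, hi, hj, if_true, if_false, add_zero, tsub_self, mem_FF_zero] at h
  simp [bar_apply, hi, h]

theorem bar_eq_zero_iff {I : Finset n} {p : SL n R} (hp : p ∈ PP τ I) (i j : n) :
    bar τ I p i j = 0 ↔ mt p i j ∈ FF τ (ee I j - ee I i) := by
  have h := hp i j
  rw [bar_apply]
  by_cases hi : i ∈ I <;> by_cases hj : j ∈ I <;>
    simp only [ee, hi, hj, if_true, if_false, not_true, not_false_iff, and_self, and_true,
      and_false, Nat.add_sub_cancel, add_zero, tsub_zero, tsub_self, zero_tsub] at h ⊢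
  · exact c0_eq_zero_iff τ h
  · exact c0_eq_zero_iff τ (FF_mono τ zero_le_one h)
  · exact c1_eq_zero_iff τ h
  · exact c0_eq_zero_iff τ h

theorem bar_inv_mul {I : Finset n} {p : SL n R} (hp : p ∈ PP τ I) :
    bar τ I p⁻¹ * bar τ I p = 1 := by
  rw [← bar_mul τ ((PP τ I).inv_mem hp) hp, inv_mul_cancel, bar_one]

theorem bar_mul_inv {I : Finset n} {p : SL n R} (hp : p ∈ PP τ I) :
    bar τ I p * bar τ I p⁻¹ = 1 := by
  rw [← bar_mul τ hp ((PP τ I).inv_mem hp), mul_inv_cancel, bar_one]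

theorem bar_injective {I : Finset n} {p : SL n R} (hp : p ∈ PP τ I) :
    Function.Injective (bar τ I p).mulVecLin := by
  refine Function.LeftInverse.injective (g := (bar τ I p⁻¹).mulVecLin) fun w => ?_
  simp [Matrix.mulVec_mulVec, bar_inv_mul τ hp]

theorem bar_surjective {I : Finset n} {p : SL n R} (hp : p ∈ PP τ I) :
    Function.Surjective (bar τ I p).mulVecLin := by
  refine Function.RightInverse.surjective (g := (bar τ I p⁻¹).mulVecLin) fun w => ?_
  simp [Matrix.mulVec_mulVec, bar_mul_inv τ hp]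

theorem Wsp_one (I L : Finset n) : Wsp τ I (1 : SL n R) L = coord k L := by
  rw [Wsp, bar_one, Matrix.mulVecLin_one, Submodule.map_id]

theorem Wsp_mul {I : Finset n} {p q : SL n R} (hp : p ∈ PP τ I) (hq : q ∈ PP τ I) (L : Finset n) :
    Wsp τ I (p * q) L = (Wsp τ I q L).map (bar τ I p).mulVecLin := by
  rw [Wsp, Wsp, bar_mul τ hp hq, Matrix.mulVecLin_mul, Submodule.map_comp]

theorem Wsp_mono (I : Finset n) (p : SL n R) {L L' : Finset n} (h : L ⊆ L') :
    Wsp τ I p L ≤ Wsp τ I p L' := by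
  exact Submodule.map_mono (coord_mono h)

theorem finrank_Wsp {I : Finset n} {p : SL n R} (hp : p ∈ PP τ I) (L : Finset n) :
    finrank k (Wsp τ I p L) = L.card := by
  rw [← finrank_coord (k := k) L]
  exact (Submodule.equivMapOfInjective _ (bar_injective τ hp) _).finrank_eq.symm

omit [Finite R] in
theorem Wsp_le_coord_iff (I : Finset n) (p : SL n R) (L : Finset n) :
    Wsp τ I p L ≤ coord k L ↔ ∀ i, i ∉ L → ∀ j ∈ L, bar τ I p i j = 0 := by
  constructor
  · intro h i hi j hj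
    have h1 : (Pi.single j (1 : k) : n → k) ∈ coord k L := mem_coord.2 fun l hl =>
      Pi.single_eq_of_ne (by rintro rfl; exact hl hj) _
    have := mem_coord.1 (h (Submodule.mem_map_of_mem h1)) i hi
    simpa using this
  · rintro h _ ⟨w, hw, rfl⟩
    refine mem_coord.2 fun i hi => ?_
    simp only [Matrix.mulVecLin_apply, Matrix.mulVec, dotProduct]
    refine sum_eq_zero fun j _ => ?_
    by_cases hj : j ∈ L
    · rw [h i hi j hj, zero_mul]
    · rw [mem_coord.1 hw j hj, mul_zero]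

theorem Wsp_eq_coord_iff {I : Finset n} {p : SL n R} (hp : p ∈ PP τ I) (L : Finset n) :
    Wsp τ I p L = coord k L ↔ ∀ i, i ∉ L → ∀ j ∈ L, bar τ I p i j = 0 := by
  rw [← Wsp_le_coord_iff]
  exact ⟨le_of_eq, fun h => Submodule.eq_of_le_of_finrank_le h
    (by rw [finrank_Wsp τ hp, finrank_coord])⟩

/-- `bar p` is invertible and preserves `T = coord Iᶜ`; `coord L ⊓ T = ⊥` or `coord L ⊔ T = ⊤`. -/
theorem Wsp_Tr {I : Finset n} {p : SL n R} (hp : p ∈ PP τ I) {L : Finset n} (h : L ⊆ I ∨ I ⊆ L) :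
    Wsp τ I p L ∈ Tr (coord k Iᶜ) := by
  have hT : Wsp τ I p Iᶜ = coord k Iᶜ :=
    (Wsp_eq_coord_iff τ hp _).2 fun i hi j hj =>
      bar_apply_eq_zero τ hp (by simpa using hi) (by simpa using hj)
  rw [← hT]
  unfold Wsp
  rcases h with h | h
  · left
    rw [← Submodule.map_inf _ (bar_injective τ hp)]
    have : coord k L ⊓ coord k Iᶜ = ⊥ := by
      rw [eq_bot_iff]
      rintro w ⟨h1, h2⟩
      rw [Submodule.mem_bot]
      funext i
      by_cases hi : i ∈ L
      · exact mem_coord.1 h2 i (by simpa using h hi)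
      · exact mem_coord.1 h1 i hi
    rw [this, Submodule.map_bot]
  · right
    rw [← Submodule.map_sup]
    have : coord k L ⊔ coord k Iᶜ = ⊤ := by
      rw [eq_top_iff]
      intro w _
      refine Submodule.mem_sup.2 ⟨fun i => if i ∈ I then w i else 0, mem_coord.2 fun i hi => ?_,
        fun i => if i ∈ I then 0 else w i, mem_coord.2 fun i hi => ?_, ?_⟩
      · exact if_neg fun hi' => hi (h hi')
      · exact if_pos (by simpa using hi)
      · funext i
        by_cases hi : i ∈ I <;> simp [hi]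
    rw [this, Submodule.map_top, LinearMap.range_eq_top.2 (bar_surjective τ hp)]

omit [Finite R] in
theorem ee_LL {I I' : Finset n} (h : I' ⊆ I ∨ I ⊆ I') (i j : n) :
    (i ∉ LL I I' ∧ j ∈ LL I I' → 1 + ee I' j - ee I' i = ee I j - ee I i) ∧
    (¬ (i ∉ LL I I' ∧ j ∈ LL I I') → 1 + ee I j - ee I i ≤ 1 + ee I' j - ee I' i) := by
  unfold LL
  split_ifs with h1
  · have a := @h1 i
    have b := @h1 j
    by_cases hi : i ∈ I <;> by_cases hj : j ∈ I <;> by_cases hi' : i ∈ I' <;>
      by_cases hj' : j ∈ I' <;> simp_all [ee]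
  · have h2 := h.resolve_left h1
    have a := @h2 i
    have b := @h2 j
    clear h h1 h2
    by_cases hi : i ∈ I <;> by_cases hj : j ∈ I <;> by_cases hi' : i ∈ I' <;>
      by_cases hj' : j ∈ I' <;> simp_all [ee]

/-- For `I' ⊆ I` the extra conditions of `P_{I'}` say `bar p i j = 0` for `j ∈ I \ I'`,
`i ∉ I \ I'`; for `I ⊆ I'` they say `bar p i j = 0` for `i ∈ I' \ I`, `j ∉ I' \ I`.  An inclusion
`Wsp ≤ coord` is an equality by `finrank_Wsp`. -/
theorem mem_PP_iff_Wsp {I I' : Finset n} {p : SL n R} (hp : p ∈ PP τ I) (h : I' ⊆ I ∨ I ⊆ I') :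
    p ∈ PP τ I' ↔ Wsp τ I p (LL I I') = coord k (LL I I') := by
  rw [Wsp_eq_coord_iff τ hp, mem_PP]
  constructor
  · intro H i hi j hj
    rw [bar_eq_zero_iff τ hp, ← (ee_LL h i j).1 ⟨hi, hj⟩]
    exact H i j
  · intro H i j
    by_cases hij : i ∉ LL I I' ∧ j ∈ LL I I'
    · rw [(ee_LL h i j).1 hij, ← bar_eq_zero_iff τ hp]
      exact H i hij.1 j hij.2
    · exact FF_mono τ ((ee_LL h i j).2 hij) (hp i j)

theorem Wsp_eq_iff {I I' : Finset n} {p p' : SL n R} (hp : p ∈ PP τ I) (hp' : p' ∈ PP τ I)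
    (h : I' ⊆ I ∨ I ⊆ I') :
    Wsp τ I p (LL I I') = Wsp τ I p' (LL I I') ↔ p⁻¹ * p' ∈ PP τ I' := by
  have hq : p⁻¹ * p' ∈ PP τ I := (PP τ I).mul_mem ((PP τ I).inv_mem hp) hp'
  rw [mem_PP_iff_Wsp τ hq h]
  have e : Wsp τ I p' (LL I I') = (Wsp τ I (p⁻¹ * p') (LL I I')).map (bar τ I p).mulVecLin := by
    rw [← Wsp_mul τ hp hq, mul_inv_cancel_left]
  rw [e, eq_comm]
  exact (Submodule.map_injective_of_injective (bar_injective τ hp)).eq_iff

theorem lam_vert {I I' : Finset n} (x : SL n R) {p : SL n R} (hp : p ∈ PP τ I)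
    (h : I' ⊆ I ∨ I ⊆ I') : lam τ I x (vert τ I' (x * p)) = Wsp τ I p (LL I I') := by
  have : {W | ∃ p' ∈ PP τ I, x * p' ∈ (vert τ I' (x * p)).cos ∧
      W = Wsp τ I p' (LL I (vert τ I' (x * p)).col)} = {Wsp τ I p (LL I I')} := by
    ext W
    simp only [Set.mem_setOf_eq, Set.mem_singleton_iff, mem_vert_cos, vert_col]
    constructor
    · rintro ⟨p', hp', h1, rfl⟩
      exact ((Wsp_eq_iff τ hp hp' h).2 (by simpa [mul_assoc] using h1)).symm
    · rintro rfl
      exact ⟨p, hp, by simp, rfl⟩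
  rw [lam, this, sSup_singleton]

theorem vert_eq_of_Wsp {𝓘 : Finset (Finset n)} (hc : ChainOK 𝓘) {I I' I'' : Finset n} (hI : I ∈ 𝓘)
    (hI' : I' ∈ 𝓘) (hI'' : I'' ∈ 𝓘) (x : SL n R) {p p' : SL n R} (hp : p ∈ PP τ I)
    (hp' : p' ∈ PP τ I) (h : Wsp τ I p (LL I I') = Wsp τ I p' (LL I I'')) :
    vert τ I' (x * p) = vert τ I'' (x * p') := by
  have e : I' = I'' := card_LL_inj hc hI hI' hI'' (by
    rw [← finrank_Wsp τ hp, ← finrank_Wsp τ hp', h])
  subst e
  rw [vert_eq_iff]
  refine ⟨rfl, ?_⟩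
  simpa [mul_assoc] using (Wsp_eq_iff τ hp hp' (hc.total hI' hI)).1 h

/-- lift: `p i j = algebraMap (M i j) * (if i ∉ I ∧ j ∈ I then t else 1)`; the determinant is
unchanged (`Matrix.twoBlockTriangular_det`). -/
theorem exists_bar_eq (I : Finset n) (M : Matrix n n k) (hM : M.det = 1)
    (h0 : ∀ i ∈ I, ∀ j, j ∉ I → M i j = 0) : ∃ p ∈ PP τ I, bar τ I p = M := by
  let P : Matrix n n R :=
    Matrix.of fun i j => algebraMap k R (M i j) * (if i ∉ I ∧ j ∈ I then τ.t else 1)
  have hP : ∀ i j, P i j = algebraMap k R (M i j) * (if i ∉ I ∧ j ∈ I then τ.t else 1) :=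
    fun _ _ => rfl
  have hdet : P.det = 1 := by
    have e1 := Matrix.twoBlockTriangular_det' P (· ∈ I) fun i hi j hj => by
      rw [hP, h0 i hi j hj, map_zero, zero_mul]
    have e2 := Matrix.twoBlockTriangular_det' (M.map (algebraMap k R)) (· ∈ I) fun i hi j hj => by
      rw [Matrix.map_apply, h0 i hi j hj, map_zero]
    have e3 : (M.map (algebraMap k R)).det = 1 := by
      have := (algebraMap k R).map_det M
      rw [hM, map_one] at this
      exact this.symm
    rw [e1, ← e3, e2]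
    congr 2
    · ext ⟨i, hi⟩ ⟨j, hj⟩
      simp [Matrix.toSquareBlockProp_def, hP, hi]
    · ext ⟨i, hi⟩ ⟨j, hj⟩
      simp [Matrix.toSquareBlockProp_def, hP, hj]
  refine ⟨mkSL P hdet, fun i j => ?_, ?_⟩
  · rw [mt_mkSL, hP]
    by_cases hi : i ∈ I <;> by_cases hj : j ∈ I <;>
      simp only [ee, hi, hj, if_true, if_false, not_true, not_false_iff, and_self, and_true,
        and_false, Nat.add_sub_cancel, add_zero, tsub_zero, tsub_self, mul_one]
    · exact algebraMap_mem_FF_one τ _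
    · rw [h0 i hi j hj, map_zero]
      exact zero_mem _
    · exact algebraMap_mul_t_mem_FF_two τ _
    · exact algebraMap_mem_FF_one τ _
  · ext i j
    rw [bar_apply, mt_mkSL, hP]
    split_ifs
    · rw [c1_algebraMap_mul, τ.c1_t, mul_one]
    · simp

end Crest.Agent.R66
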