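import Crest.Agent.R66.Defs

/-! # Row 66: basic API for cochains, faces and classes (task BA, helper24) -/

set_option autoImplicit false

namespace Crest.Agent.R66

open Finset

section Cx
variable {α β : Type*} [DecidableEq α] [DecidableEq β]

theorem z2_add_self (a : ZMod 2) : a + a = 0 := CharTwo.add_self_eq_zero a

theorem z2_add_eq_zero {a b : ZMod 2} : a + b = 0 ↔ a = b := by
  revert a b; decide

@[simp] theorem dl_empty (F : Finset α → ZMod 2) : dl F ∅ = 0 := by simp [dl]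

theorem dl_add (F G : Finset α → ZMod 2) (τ : Finset α) :
    dl (fun σ => F σ + G σ) τ = dl F τ + dl G τ := by simp [dl, sum_add_distrib]

theorem dl_sum {γ : Type*} (s : Finset γ) (F : γ → Finset α → ZMod 2) (τ : Finset α) :
    dl (fun σ => ∑ c ∈ s, F c σ) τ = ∑ c ∈ s, dl (F c) τ := by
  simp only [dl]; rw [sum_comm]

@[simp] theorem dl_zero (τ : Finset α) : dl (fun _ => (0 : ZMod 2)) τ = 0 := by simp [dl]

theorem dl_congr {F G : Finset α → ZMod 2} {τ : Finset α}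
    (h : ∀ v ∈ τ, F (τ.erase v) = G (τ.erase v)) : dl F τ = dl G τ := sum_congr rfl h

theorem dl_insert (F : Finset α → ZMod 2) {v : α} {τ : Finset α} (hv : v ∉ τ) :
    dl F (insert v τ) = F τ + dl (fun σ => F (insert v σ)) τ := by
  simp only [dl]
  rw [sum_insert hv, erase_insert hv]
  congr 1
  refine sum_congr rfl fun w hw => ?_
  rw [erase_insert_of_ne (by rintro rfl; exact hv hw)]

/-- symmetric double sums vanish in characteristic two -/
theorem sum_erase_erase {M : Type*} [AddCommGroup M] (h2 : ∀ a : M, a + a = 0)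
    (c : Finset α → M) (τ : Finset α) :
    ∑ v ∈ τ, ∑ w ∈ τ.erase v, c ((τ.erase v).erase w) = 0 := by
  rw [sum_sigma']
  refine sum_involution (fun p _ => ⟨p.2, p.1⟩) ?_ ?_ ?_ ?_
  · rintro ⟨v, w⟩ _
    simp only
    rw [erase_right_comm (a := w)]
    exact h2 _
  · rintro ⟨v, w⟩ hp _ h
    simp only [mem_sigma, mem_erase] at hp
    simp only [Sigma.mk.injEq] at h
    exact hp.2.1 h.1
  · rintro ⟨v, w⟩ hp
    simp only [mem_sigma, mem_erase] at hp ⊢
    exact ⟨hp.2.2, fun h => hp.2.1 h.symm, hp.1⟩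
  · rintro ⟨v, w⟩ _; rfl

@[simp] theorem dl_dl (G : Finset α → ZMod 2) (τ : Finset α) : dl (dl G) τ = 0 :=
  sum_erase_erase z2_add_self G τ

theorem dl_image {f : α → β} {τ : Finset α} (hf : Set.InjOn f τ) (F : Finset β → ZMod 2) :
    dl (fun σ => F (σ.image f)) τ = dl F (τ.image f) := by
  simp only [dl]
  rw [sum_image hf]
  refine sum_congr rfl fun v hv => ?_
  congr 1
  ext b
  simp only [mem_image, mem_erase]
  constructor
  · rintro ⟨a, ⟨hav, ha⟩, rfl⟩
    exact ⟨fun h => hav (hf ha hv h), a, ha, rfl⟩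
  · rintro ⟨hb, a, ha, rfl⟩
    exact ⟨a, ⟨fun h => hb (by rw [h]), ha⟩, rfl⟩

variable {K L : Set (Finset α)} {K' : Set (Finset β)} {m : ℕ} {F G : Finset α → ZMod 2}

theorem Cocyc.mono (h : Cocyc K m F) (hL : L ⊆ K) : Cocyc L m F := fun τ hτ => h τ (hL hτ)

theorem Cob.mono (h : Cob K m F) (hL : L ⊆ K) : Cob L m F :=
  h.imp fun _ hG σ hσ => hG σ (hL hσ)

theorem Cocyc.add (h : Cocyc K m F) (h' : Cocyc K m G) : Cocyc K m (fun σ => F σ + G σ) :=
  fun τ hτ hc => by rw [dl_add, h τ hτ hc, h' τ hτ hc, add_zero]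

theorem Cob.add (h : Cob K m F) (h' : Cob K m G) : Cob K m (fun σ => F σ + G σ) := by
  obtain ⟨A, hA⟩ := h
  obtain ⟨B, hB⟩ := h'
  exact ⟨fun σ => A σ + B σ, fun σ hσ hc => by
    rw [dl_add, ← hA σ hσ hc, ← hB σ hσ hc]⟩

theorem cocyc_zero : Cocyc K m (fun _ => 0) := fun _ _ _ => dl_zero _

theorem cob_zero : Cob K m (fun _ => 0) := ⟨fun _ => 0, fun _ _ _ => (dl_zero _).symm⟩

theorem cocyc_sum {γ : Type*} (s : Finset γ) {F : γ → Finset α → ZMod 2}
    (h : ∀ c ∈ s, Cocyc K m (F c)) : Cocyc K m (fun σ => ∑ c ∈ s, F c σ) :=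
  fun τ hτ hc => by rw [dl_sum]; exact sum_eq_zero fun c hcs => h c hcs τ hτ hc

theorem cob_sum {γ : Type*} (s : Finset γ) {F : γ → Finset α → ZMod 2}
    (h : ∀ c ∈ s, Cob K m (F c)) : Cob K m (fun σ => ∑ c ∈ s, F c σ) := by
  classical
  choose! A hA using h
  exact ⟨fun σ => ∑ c ∈ s, A c σ, fun σ hσ hc => by
    rw [dl_sum]; exact sum_congr rfl fun c hcs => hA c hcs σ hσ hc⟩

theorem Cob.congr (h : Cob K m F) (e : ∀ σ ∈ K, σ.card = m → G σ = F σ) : Cob K m G :=
  h.imp fun _ hA σ hσ hc => (e σ hσ hc).trans (hA σ hσ hc)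

theorem Cocyc.congr (hK : Down K) (h : Cocyc K m F) (e : ∀ σ ∈ K, σ.card = m → G σ = F σ) :
    Cocyc K m G := fun τ hτ hc => by
  rw [← h τ hτ hc]
  exact dl_congr fun v hv => e _ (hK τ hτ _ (erase_subset _ _)) (by rw [card_erase_of_mem hv, hc]; rfl)

theorem cocyc_dl (A : Finset α → ZMod 2) : Cocyc K m (dl A) := fun τ _ _ => dl_dl A τ

theorem Cob.cocyc (hK : Down K) (h : Cob K m F) : Cocyc K m F := by
  obtain ⟨A, hA⟩ := h
  exact (cocyc_dl A).congr hK hA

/-- cancel a coboundary -/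
theorem Cob.of_add (h : Cob K m (fun σ => F σ + G σ)) (h' : Cob K m G) : Cob K m F :=
  (h.add h').congr fun σ _ _ => by rw [add_assoc, z2_add_self, add_zero]

theorem Cocyc.comap {f : α → β} {F' : Finset β → ZMod 2} (h : Cocyc K' m F')
    (hf : ∀ σ ∈ K, Set.InjOn f σ) (hK : ∀ σ ∈ K, σ.image f ∈ K') :
    Cocyc K m (fun σ => F' (σ.image f)) := fun τ hτ hc => by
  rw [dl_image (hf τ hτ)]
  exact h _ (hK τ hτ) (by rw [card_image_of_injOn (hf τ hτ), hc])

theorem Cob.comap {f : α → β} {F' : Finset β → ZMod 2} (h : Cob K' m F')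
    (hf : ∀ σ ∈ K, Set.InjOn f σ) (hK : ∀ σ ∈ K, σ.image f ∈ K') :
    Cob K m (fun σ => F' (σ.image f)) := by
  obtain ⟨A, hA⟩ := h
  refine ⟨fun σ => A (σ.image f), fun σ hσ hc => ?_⟩
  rw [dl_image (hf σ hσ)]
  exact hA _ (hK σ hσ) (by rw [card_image_of_injOn (hf σ hσ), hc])

theorem racyc_zero (K : Set (Finset α)) (good : α → Prop) : RAcyc K good 0 := by
  intro F _ h
  refine ⟨fun _ => 0, fun _ _ => rfl, fun σ hσ hc => ?_⟩
  rw [dl_zero]
  refine h σ hσ hc fun v hv => ?_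
  rw [card_eq_zero.1 hc] at hv
  simp at hv

theorem RAcyc.congr {good good' : α → Prop} (hK : Down K) (h : RAcyc K good m)
    (e : ∀ σ ∈ K, ∀ v ∈ σ, (good v ↔ good' v)) : RAcyc K good' m := by
  classical
  intro F hF h0
  obtain ⟨A, hA0, hA⟩ := h F hF fun σ hσ hc hg => h0 σ hσ hc fun v hv => by
    rw [← e σ hσ v hv]; exact hg v hv
  refine ⟨fun σ => if σ ∈ K then A σ else 0, fun σ hg => ?_, fun σ hσ hc => ?_⟩
  · beta_reduce
    split_ifs with hσ
    · exact hA0 σ fun v hv => by rw [e σ hσ v hv]; exact hg v hv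
    · rfl
  · rw [hA σ hσ hc]
    exact dl_congr fun v _ => by rw [if_pos (hK σ hσ _ (erase_subset _ _))]

end Cx

section Sys
variable {ι Ω α : Type*} [DecidableEq ι] [DecidableEq α] [Fintype Ω] {π : ι → Ω → α}

omit [Fintype Ω] [DecidableEq ι] in
theorem mem_face {T : Finset ι} {x : Ω} {v : α} : v ∈ face π T x ↔ ∃ i ∈ T, π i x = v := by
  simp [face]

omit [Fintype Ω] [DecidableEq ι] in
@[simp] theorem face_empty (x : Ω) : face π ∅ x = ∅ := by simp [face]

omit [Fintype Ω] [DecidableEq ι] [DecidableEq α] in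
theorem Col.injOn (hπ : Col π) (T : Finset ι) (x : Ω) : Set.InjOn (fun i => π i x) T :=
  fun _ _ _ _ h => hπ _ _ _ _ h

omit [Fintype Ω] [DecidableEq ι] in
theorem card_face (hπ : Col π) (T : Finset ι) (x : Ω) : (face π T x).card = T.card :=
  card_image_of_injOn (hπ.injOn T x)

omit [Fintype Ω] [DecidableEq ι] in
theorem pi_mem_face (hπ : Col π) {T : Finset ι} {x y : Ω} {i : ι} :
    π i y ∈ face π T x ↔ i ∈ T ∧ π i y = π i x := by
  rw [mem_face]
  constructor
  · rintro ⟨j, hj, h⟩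
    obtain rfl := hπ _ _ _ _ h
    exact ⟨hj, h.symm⟩
  · rintro ⟨hi, h⟩
    exact ⟨i, hi, h.symm⟩

omit [Fintype Ω] in
theorem face_erase (hπ : Col π) (T : Finset ι) (x : Ω) (i : ι) :
    (face π T x).erase (π i x) = face π (T.erase i) x := by
  ext v
  simp only [mem_erase, mem_face]
  constructor
  · rintro ⟨hv, j, hj, rfl⟩
    exact ⟨j, ⟨fun h => hv (by rw [h]), hj⟩, rfl⟩
  · rintro ⟨j, ⟨hji, hj⟩, rfl⟩
    exact ⟨fun h => hji (hπ _ _ _ _ h), j, hj, rfl⟩

omit [Fintype Ω] in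
theorem face_insert (T : Finset ι) (x : Ω) (i : ι) :
    face π (insert i T) x = insert (π i x) (face π T x) := by simp [face]

omit [Fintype Ω] in
theorem face_union (S T : Finset ι) (x : Ω) :
    face π (S ∪ T) x = face π S x ∪ face π T x := by simp [face, image_union]

omit [Fintype Ω] [DecidableEq ι] in
theorem face_congr {T : Finset ι} {x y : Ω} (h : ∀ i ∈ T, π i x = π i y) :
    face π T x = face π T y := image_congr h

omit [Fintype Ω] [DecidableEq ι] in
theorem face_subset_iff (hπ : Col π) {S T : Finset ι} {x y : Ω} :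
    face π S x ⊆ face π T y ↔ S ⊆ T ∧ ∀ i ∈ S, π i x = π i y := by
  constructor
  · intro h
    have : ∀ i ∈ S, i ∈ T ∧ π i x = π i y := fun i hi =>
      (pi_mem_face hπ).1 (h (mem_face.2 ⟨i, hi, rfl⟩))
    exact ⟨fun i hi => (this i hi).1, fun i hi => (this i hi).2⟩
  · rintro ⟨h1, h2⟩ v hv
    obtain ⟨i, hi, rfl⟩ := mem_face.1 hv
    exact mem_face.2 ⟨i, h1 hi, (h2 i hi).symm⟩

omit [Fintype Ω] [DecidableEq ι] in
theorem face_eq_iff (hπ : Col π) {S T : Finset ι} {x y : Ω} :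
    face π S x = face π T y ↔ S = T ∧ ∀ i ∈ S, π i x = π i y := by
  constructor
  · intro h
    have h1 := (face_subset_iff hπ).1 h.subset
    have h2 := (face_subset_iff hπ).1 h.symm.subset
    exact ⟨Subset.antisymm h1.1 h2.1, h1.2⟩
  · rintro ⟨rfl, h⟩
    exact face_congr h

omit [Fintype Ω] in
theorem dl_face (hπ : Col π) (F : Finset α → ZMod 2) (T : Finset ι) (x : Ω) :
    dl F (face π T x) = ∑ i ∈ T, F (face π (T.erase i) x) := by
  rw [dl, face, sum_image (hπ.injOn T x)]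
  exact sum_congr rfl fun i _ => by rw [← face_erase hπ]; rfl

omit [Fintype Ω] [DecidableEq ι] in
theorem face_mem_cx {C : Finset Ω} {U T : Finset ι} {x : Ω} (hT : T ⊆ U) (hx : x ∈ C) :
    face π T x ∈ cx π C U := ⟨T, hT, x, hx, rfl⟩

omit [Fintype Ω] [DecidableEq ι] in
theorem down_cx (C : Finset Ω) (U : Finset ι) : Down (cx π C U) := by
  classical
  rintro _ ⟨T, hT, x, hx, rfl⟩ τ hτ
  refine ⟨T.filter (fun i => π i x ∈ τ), (filter_subset _ _).trans hT, x, hx, ?_⟩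
  ext v
  simp only [mem_face, mem_filter]
  constructor
  · intro hv
    obtain ⟨i, hi, rfl⟩ := mem_face.1 (hτ hv)
    exact ⟨i, ⟨hi, hv⟩, rfl⟩
  · rintro ⟨i, ⟨_, hi⟩, rfl⟩
    exact hi

omit [DecidableEq ι] in
theorem mem_cl {S : Finset ι} {x y : Ω} : y ∈ cl π S x ↔ ∀ i ∈ S, π i y = π i x := by
  simp [cl]

omit [DecidableEq ι] in
theorem self_mem_cl (S : Finset ι) (x : Ω) : x ∈ cl π S x := mem_cl.2 fun _ _ => rfl

omit [DecidableEq ι] in
theorem cl_eq_of_mem {S : Finset ι} {x y : Ω} (h : y ∈ cl π S x) : cl π S y = cl π S x := by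
  ext z
  rw [mem_cl] at h
  simp only [mem_cl]
  exact forall₂_congr fun i hi => by rw [h i hi]

omit [DecidableEq ι] in
theorem mem_cl_comm {S : Finset ι} {x y : Ω} : y ∈ cl π S x ↔ x ∈ cl π S y := by
  simp only [mem_cl]
  exact forall₂_congr fun i _ => eq_comm

omit [DecidableEq ι] in
theorem cl_anti {S T : Finset ι} (h : S ⊆ T) (x : Ω) : cl π T x ⊆ cl π S x :=
  fun _ hy => mem_cl.2 fun i hi => mem_cl.1 hy i (h hi)

omit [DecidableEq ι] in
theorem card_cl_pos (S : Finset ι) (x : Ω) : 0 < (cl π S x).card :=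
  card_pos.2 ⟨x, self_mem_cl S x⟩

omit [DecidableEq ι] in
@[simp] theorem cl_empty (x : Ω) : cl π ∅ x = univ := by simp [cl]

/-- acyclicity in size one gives connectivity -/
theorem conn_of_acyc (hπ : Col π) {J S U : Finset ι} (hU : U.Nonempty)
    (hUJ : ∀ c ∈ U, c ∈ J ∧ c ∉ S) (h : ∀ x, Acyc (cx π (cl π S x) U) 1) : Conn π J S := by
  classical
  intro φ hφ x y hxy
  obtain ⟨c₀, hc₀⟩ := hU
  let F : Finset α → ZMod 2 := fun σ =>
    if ∃ c ∈ U, ∃ z ∈ cl π S x, σ = {π c z} ∧ φ z = φ x then 1 else 0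
  have hF : ∀ c ∈ U, ∀ z ∈ cl π S x, F {π c z} = if φ z = φ x then 1 else 0 := by
    intro c hc z hz
    simp only [F]
    congr 1
    apply propext
    constructor
    · rintro ⟨c', hc', z', hz', e, hz'x⟩
      rw [singleton_inj] at e
      obtain rfl := hπ _ _ _ _ e
      rw [← hz'x]
      refine hφ c (hUJ c hc).1 (hUJ c hc).2 z z' fun i hi => ?_
      rcases mem_insert.1 hi with rfl | hi
      · exact e
      · rw [mem_cl.1 hz i hi, mem_cl.1 hz' i hi]
    · intro e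
      exact ⟨c, hc, z, hz, rfl, e⟩
  have hco : Cocyc (cx π (cl π S x) U) 1 F := by
    rintro _ ⟨T, hT, z, hz, rfl⟩ hc
    rw [card_face hπ] at hc
    obtain ⟨a, b, hab, rfl⟩ := card_eq_two.1 hc
    rw [dl_face hπ, sum_pair hab]
    have e1 : ({a, b} : Finset ι).erase a = {b} := by
      ext i; simp only [mem_erase, mem_insert, mem_singleton]
      constructor
      · rintro ⟨h1, h2 | h2⟩ <;> simp_all
      · rintro rfl; exact ⟨hab.symm, Or.inr rfl⟩
    have e2 : ({a, b} : Finset ι).erase b = {a} := by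
      ext i; simp only [mem_erase, mem_insert, mem_singleton]
      constructor
      · rintro ⟨h1, h2 | h2⟩ <;> simp_all
      · rintro rfl; exact ⟨hab, Or.inl rfl⟩
    rw [e1, e2]
    simp only [face, image_singleton]
    rw [hF b (hT (by simp)) z hz, hF a (hT (by simp)) z hz]
    exact z2_add_self _
  obtain ⟨G, hG⟩ := h x F hco
  have hy : y ∈ cl π S x := mem_cl.2 fun i hi => (hxy i hi).symm
  have key : ∀ z ∈ cl π S x, F {π c₀ z} = G ∅ := by
    intro z hz
    rw [hG {π c₀ z} ⟨{c₀}, by simpa using hc₀, z, hz, by simp [face]⟩ (by simp)]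
    simp [dl]
  have h1 := key x (self_mem_cl S x)
  have h2 := key y hy
  rw [hF c₀ hc₀ x (self_mem_cl S x), if_pos rfl] at h1
  rw [hF c₀ hc₀ y hy, ← h1] at h2
  by_contra hne
  rw [if_neg (fun e => hne e.symm)] at h2
  exact absurd h2 (by decide)

end Sys

end Crest.Agent.R66
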