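import Crest.Agent.R66.Basic

/-! # Row 66: chains, push-off, cones (task CH) -/

set_option autoImplicit false

namespace Crest.Agent.R66

open Finset

variable {α : Type*} [DecidableEq α]

omit [DecidableEq α] in
theorem chain_ext {M : Type*} [AddCommMonoid M] [Module (ZMod 2) M] {f g : Ch α →ₗ[ZMod 2] M}
    (h : ∀ σ, f (Finsupp.single σ 1) = g (Finsupp.single σ 1)) (z : Ch α) : f z = g z := by
  have : f = g := Finsupp.lhom_ext' fun σ => LinearMap.ext_ring (h σ)
  rw [this]

omit [DecidableEq α] in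
theorem chain_add_self (z : Ch α) : z + z = 0 := by
  ext σ
  exact z2_add_self _

theorem cone_single (v : α) (σ : Finset α) : cone v (Finsupp.single σ (1 : ZMod 2)) =
    if v ∈ σ then 0 else Finsupp.single (insert v σ) 1 := by
  simp [cone]

theorem lk_single (v : α) (σ : Finset α) : lk v (Finsupp.single σ (1 : ZMod 2)) =
    if v ∈ σ then Finsupp.single (σ.erase v) 1 else 0 := by
  simp [lk]

theorem chain_mem_support_sum {β : Type*} {s : Finset β} {f : β → Ch α} {σ : Finset α}
    (h : σ ∈ (∑ b ∈ s, f b).support) : ∃ b ∈ s, σ ∈ (f b).support := by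
  classical
  exact mem_biUnion.1 (Finsupp.support_finsetSum h)

theorem chain_card_support_sum {β : Type*} {s : Finset β} {f : β → Ch α} {Φ : ℕ}
    (h : ∀ b ∈ s, (f b).support.card ≤ Φ) : (∑ b ∈ s, f b).support.card ≤ s.card * Φ := by
  classical
  exact (card_le_card Finsupp.support_finsetSum).trans (card_biUnion_le_card_mul _ _ _ h)

theorem chain_card_support_add (x y : Ch α) :
    (x + y).support.card ≤ x.support.card + y.support.card :=
  (card_le_card Finsupp.support_add).trans (card_union_le _ _)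

theorem bd_single (σ : Finset α) :
    bd (Finsupp.single σ (1 : ZMod 2)) = ∑ v ∈ σ, Finsupp.single (σ.erase v) 1 := by
  simp [bd]

/-- check on `single σ a` (`Finsupp.induction_linear`); use `sum_erase_erase`. -/
theorem bd_bd (z : Ch α) : bd (bd z) = 0 := by
  have := chain_ext (f := (bd : Ch α →ₗ[ZMod 2] Ch α) ∘ₗ bd) (g := 0) (fun σ => ?_) z
  · rwa [LinearMap.comp_apply, LinearMap.zero_apply] at this
  simp only [LinearMap.comp_apply, bd_single, map_sum, LinearMap.zero_apply]
  exact sum_erase_erase chain_add_self (fun τ => Finsupp.single τ 1) σ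

theorem bd_cone (v : α) (z : Ch α) : bd (cone v z) + cone v (bd z) = z := by
  refine chain_ext (f := bd ∘ₗ cone v + cone v ∘ₗ bd) (g := LinearMap.id) (fun σ => ?_) z
  simp only [LinearMap.add_apply, LinearMap.comp_apply, bd_single, map_sum, cone_single,
    LinearMap.id_apply]
  by_cases hv : v ∈ σ
  · rw [if_pos hv, map_zero, zero_add, sum_eq_single v]
    · rw [if_neg (notMem_erase _ _), insert_erase hv]
    · intro w _ hw
      rw [if_pos (mem_erase.2 ⟨hw.symm, hv⟩)]
    · exact fun h => absurd hv h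
  · rw [if_neg hv, bd_single, sum_insert hv, erase_insert hv, add_assoc, ← sum_add_distrib,
      sum_eq_zero, add_zero]
    intro w hw
    rw [if_neg (fun h => hv (mem_of_mem_erase h)),
      erase_insert_of_ne (by rintro rfl; exact hv hw), chain_add_self]

theorem lk_bd (v : α) (z : Ch α) : lk v (bd z) = bd (lk v z) := by
  refine chain_ext (f := lk v ∘ₗ bd) (g := bd ∘ₗ lk v) (fun σ => ?_) z
  simp only [LinearMap.comp_apply, bd_single, map_sum, lk_single]
  by_cases hv : v ∈ σ
  · rw [if_pos hv, bd_single, ← add_sum_erase _ _ hv, if_neg (notMem_erase _ _), zero_add]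
    refine sum_congr rfl fun w hw => ?_
    rw [if_pos (mem_erase.2 ⟨(mem_erase.1 hw).1.symm, hv⟩), erase_right_comm]
  · rw [if_neg hv, map_zero]
    exact sum_eq_zero fun w _ => if_neg fun h => hv (mem_of_mem_erase h)

theorem cone_apply (v : α) (z : Ch α) (σ : Finset α) :
    cone v z σ = if v ∈ σ then z (σ.erase v) else 0 := by
  split_ifs with hv
  · refine chain_ext (f := Finsupp.lapply σ ∘ₗ cone v) (g := Finsupp.lapply (σ.erase v))
      (fun τ => ?_) z
    simp only [LinearMap.comp_apply, cone_single, Finsupp.lapply_apply]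
    split_ifs with hτ
    · rw [Finsupp.single_eq_of_ne]
      · rfl
      · intro e
        exact notMem_erase v σ (e ▸ hτ)
    · simp only [Finsupp.single_apply]
      congr 1
      apply propext
      constructor
      · rintro rfl
        exact (erase_insert hτ).symm
      · rintro rfl
        exact insert_erase hv
  · refine chain_ext (f := Finsupp.lapply σ ∘ₗ cone v) (g := 0) (fun τ => ?_) z
    simp only [LinearMap.comp_apply, cone_single, Finsupp.lapply_apply, LinearMap.zero_apply]
    split_ifs with hτ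
    · rfl
    · rw [Finsupp.single_eq_of_ne]
      intro e
      exact hv (e ▸ mem_insert_self _ _)

theorem lk_apply (v : α) (z : Ch α) (τ : Finset α) :
    lk v z τ = if v ∈ τ then 0 else z (insert v τ) := by
  split_ifs with hv
  · refine chain_ext (f := Finsupp.lapply τ ∘ₗ lk v) (g := 0) (fun σ => ?_) z
    simp only [LinearMap.comp_apply, lk_single, Finsupp.lapply_apply, LinearMap.zero_apply]
    split_ifs with hσ
    · rw [Finsupp.single_eq_of_ne]
      intro e
      exact notMem_erase v σ (e ▸ hv)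
    · rfl
  · refine chain_ext (f := Finsupp.lapply τ ∘ₗ lk v) (g := Finsupp.lapply (insert v τ))
      (fun σ => ?_) z
    simp only [LinearMap.comp_apply, lk_single, Finsupp.lapply_apply]
    split_ifs with hσ
    · simp only [Finsupp.single_apply]
      congr 1
      apply propext
      constructor
      · rintro rfl
        exact (insert_erase hσ).symm
      · rintro rfl
        exact erase_insert hv
    · rw [Finsupp.single_eq_of_ne]
      · rfl
      · intro e
        exact hσ (e ▸ mem_insert_self _ _)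

theorem mem_support_cone {v : α} {z : Ch α} {σ : Finset α} :
    σ ∈ (cone v z).support ↔ v ∈ σ ∧ σ.erase v ∈ z.support := by
  simp only [Finsupp.mem_support_iff, cone_apply]
  split_ifs with h <;> simp [h]

theorem mem_support_lk {v : α} {z : Ch α} {τ : Finset α} :
    τ ∈ (lk v z).support ↔ v ∉ τ ∧ insert v τ ∈ z.support := by
  simp only [Finsupp.mem_support_iff, lk_apply]
  split_ifs with h <;> simp [h]

theorem card_support_cone_le (v : α) (z : Ch α) : (cone v z).support.card ≤ z.support.card := by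
  refine card_le_card_of_injOn (fun σ => σ.erase v) (fun σ hσ => (mem_support_cone.1 hσ).2) ?_
  intro σ hσ σ' hσ' e
  rw [← insert_erase (mem_support_cone.1 hσ).1, ← insert_erase (mem_support_cone.1 hσ').1]
  exact congrArg (insert v) e

theorem card_support_lk_le (v : α) (z : Ch α) : (lk v z).support.card ≤ z.support.card := by
  refine card_le_card_of_injOn (fun σ => insert v σ) (fun σ hσ => (mem_support_lk.1 hσ).2) ?_
  intro σ hσ σ' hσ' e
  rw [← erase_insert (mem_support_lk.1 hσ).1, ← erase_insert (mem_support_lk.1 hσ').1]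
  exact congrArg (fun ρ => ρ.erase v) e

theorem mem_support_bd {z : Ch α} {τ : Finset α} (h : τ ∈ (bd z).support) :
    ∃ σ ∈ z.support, ∃ v ∈ σ, τ = σ.erase v := by
  rw [bd, Finsupp.linearCombination_apply, Finsupp.sum] at h
  obtain ⟨σ, hσ, h1⟩ := chain_mem_support_sum h
  obtain ⟨v, hv, h2⟩ := chain_mem_support_sum (Finsupp.support_smul h1)
  exact ⟨σ, hσ, v, hv, mem_singleton.1 (Finsupp.support_single_subset h2)⟩

/-- Push a chain `y` off the bad vertices.  Proof: `B` = finset of bad vertices occurring in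
`supp y` (`|B| ≤ m` since each face has at most one), `x = ∑_{v ∈ B} cone v x_v`;
`bd (cone v x_v) = x_v + cone v (lk v y)` and `y + ∑_{v∈B} cone v (lk v y)` is the part of `y`
on faces without bad vertices (`cone_apply`, `lk_apply`). -/
theorem pushOff (K : Set (Finset α)) (bad : α → Prop) (Q : Finset α → Prop) (i m Φ : ℕ)
    (y : Ch α) (hm : y.support.card ≤ m)
    (h1 : ∀ σ ∈ y.support, ∀ v ∈ σ, ∀ w ∈ σ, bad v → bad w → v = w)
    (hQ : ∀ σ ∈ y.support, (∀ v ∈ σ, ¬ bad v) → Q σ)
    (hf : ∀ v, bad v → (∃ σ ∈ y.support, v ∈ σ) → ∃ x : Ch α, bd x = lk v y ∧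
      x.support.card ≤ Φ ∧ ∀ τ ∈ x.support, v ∉ τ ∧ insert v τ ∈ K ∧ τ.card = i ∧ Q τ) :
    ∃ x : Ch α, On K (i + 1) x ∧ x.support.card ≤ m * Φ ∧
      (y + bd x).support.card ≤ m + m * Φ ∧ ∀ σ ∈ (y + bd x).support, Q σ := by
  classical
  choose! X hXb hXc hX using hf
  set B : Finset α := y.support.biUnion (fun σ => σ.filter bad) with hB
  have hmemB : ∀ v, v ∈ B ↔ bad v ∧ ∃ σ ∈ y.support, v ∈ σ := by
    intro v
    simp only [hB, mem_biUnion, mem_filter]
    exact ⟨fun ⟨σ, h1, h2, h3⟩ => ⟨h3, σ, h1, h2⟩, fun ⟨h3, σ, h1, h2⟩ => ⟨σ, h1, h2, h3⟩⟩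
  have hBc : B.card ≤ m := by
    have : B.card ≤ y.support.card * 1 := card_biUnion_le_card_mul _ _ _ fun σ hσ =>
      card_le_one.2 fun v hv w hw => h1 σ hσ v (mem_filter.1 hv).1 w (mem_filter.1 hw).1
        (mem_filter.1 hv).2 (mem_filter.1 hw).2
    omega
  have hsplit : y + bd (∑ v ∈ B, cone v (X v)) =
      (y + ∑ v ∈ B, cone v (lk v y)) + ∑ v ∈ B, X v := by
    rw [map_sum, add_assoc, ← sum_add_distrib]
    congr 1
    refine sum_congr rfl fun v hv => ?_
    obtain ⟨h2, h3⟩ := (hmemB v).1 hv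
    have := bd_cone v (X v)
    rw [hXb v h2 h3] at this
    have e : ∀ a b c : Ch α, a + b = c → a = b + c := by
      rintro a b c rfl
      rw [add_comm a, ← add_assoc, chain_add_self, zero_add]
    exact e _ _ _ this
  have hy0 : ∀ σ ∈ (y + ∑ v ∈ B, cone v (lk v y)).support,
      σ ∈ y.support ∧ ∀ v ∈ σ, ¬ bad v := by
    intro σ hσ
    have hval : ∀ v, cone v (lk v y) σ = if v ∈ σ then y σ else 0 := by
      intro v
      rw [cone_apply]
      split_ifs with hv
      · rw [lk_apply, if_neg (notMem_erase _ _), insert_erase hv]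
      · rfl
    rw [Finsupp.mem_support_iff, Finsupp.add_apply, Finsupp.finsetSum_apply] at hσ
    simp only [hval] at hσ
    have hyσ : σ ∈ y.support := by
      rw [Finsupp.mem_support_iff]
      intro h0
      simp [h0] at hσ
    refine ⟨hyσ, fun v hv hbad => hσ ?_⟩
    rw [sum_eq_single v, if_pos hv, z2_add_self]
    · intro w hw hwv
      exact if_neg fun hwσ => hwv (h1 σ hyσ w hwσ v hv ((hmemB w).1 hw).1 hbad)
    · exact fun h => absurd ((hmemB v).2 ⟨hbad, σ, hyσ, hv⟩) h
  have hsumc : (∑ v ∈ B, X v).support.card ≤ m * Φ :=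
    (chain_card_support_sum fun v hv => hXc v ((hmemB v).1 hv).1 ((hmemB v).1 hv).2).trans
      (Nat.mul_le_mul_right _ hBc)
  refine ⟨∑ v ∈ B, cone v (X v), fun σ hσ => ?_, ?_, ?_, ?_⟩
  · obtain ⟨v, hv, h2⟩ := chain_mem_support_sum hσ
    obtain ⟨h3, h4⟩ := mem_support_cone.1 h2
    obtain ⟨-, h5, h6, -⟩ := hX v ((hmemB v).1 hv).1 ((hmemB v).1 hv).2 _ h4
    rw [insert_erase h3] at h5
    rw [card_erase_of_mem h3] at h6
    have := card_pos.2 ⟨v, h3⟩
    exact ⟨h5, by omega⟩
  · exact (chain_card_support_sum fun v hv => (card_support_cone_le _ _).trans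
      (hXc v ((hmemB v).1 hv).1 ((hmemB v).1 hv).2)).trans (Nat.mul_le_mul_right _ hBc)
  · rw [hsplit]
    refine (chain_card_support_add _ _).trans (Nat.add_le_add ?_ hsumc)
    exact (card_le_card fun σ hσ => (hy0 σ hσ).1).trans hm
  · rw [hsplit]
    intro σ hσ
    rcases mem_union.1 (Finsupp.support_add hσ) with h | h
    · exact hQ σ (hy0 σ h).1 (hy0 σ h).2
    · obtain ⟨v, hv, h2⟩ := chain_mem_support_sum h
      exact (hX v ((hmemB v).1 hv).1 ((hmemB v).1 hv).2 _ h2).2.2.2

theorem Fill.mono {K : Set (Finset α)} {e m Φ e' m' Φ' : ℕ} (h : Fill K e m Φ) (he : e' ≤ e)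
    (hm : m' ≤ m) (hΦ : Φ ≤ Φ') : Fill K e' m' Φ' := by
  intro i hi z hz hb hc
  obtain ⟨y, h1, h2, h3⟩ := h i (hi.trans_le he) z hz hb (hc.trans hm)
  exact ⟨y, h1, h2, h3.trans hΦ⟩

/-- Bounded fillings give a bounded chain contraction.  Induction on `e`: define `c σ` for
`|σ| = e` as a filling of the cycle `single σ 1 + ∑_{v∈σ} c (σ.erase v)` (at most `1 + e Ψ` faces;
it is a cycle by the induction hypothesis and `sum_erase_erase`). -/
theorem cone_of_fill (Φ : ℕ → ℕ) (e : ℕ) : ∃ M Ψ : ℕ, ∀ (α : Type) [DecidableEq α]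
    (K : Set (Finset α)), Down K → ∀ e' ≤ e, (∀ m ≤ M, Fill K e' m (Φ m)) → HasCone K e' Ψ := by
  induction e with
  | zero =>
    refine ⟨0, 0, fun α _ K _ e' he' _ => ⟨fun _ => 0, fun σ _ h => ?_⟩⟩
    omega
  | succ e ih =>
    obtain ⟨M, Ψ, H⟩ := ih
    refine ⟨M + (1 + e * Ψ), Ψ + Φ (1 + e * Ψ), fun α _ K hK e' he' hF => ?_⟩
    rcases Nat.lt_or_ge e' (e + 1) with h | h
    · obtain ⟨c, hc⟩ := H α K hK e' (by omega) fun m hm => hF m (by omega)
      exact ⟨c, fun σ hσ h => ⟨(hc σ hσ h).1, (hc σ hσ h).2.1.trans (Nat.le_add_right _ _),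
        (hc σ hσ h).2.2⟩⟩
    obtain rfl : e' = e + 1 := by omega
    obtain ⟨c, hc⟩ := H α K hK e le_rfl fun m hm =>
      (hF m (by omega)).mono (Nat.le_succ _) le_rfl le_rfl
    have key : ∀ σ, σ ∈ K → σ.card = e → ∃ y : Ch α, On K (e + 1) y ∧
        bd y = Finsupp.single σ 1 + ∑ v ∈ σ, c (σ.erase v) ∧ y.support.card ≤ Φ (1 + e * Ψ) := by
      intro σ hσ hcard
      have hce : ∀ v ∈ σ, (σ.erase v).card + 1 = e := fun v hv => by
        rw [card_erase_of_mem hv, hcard]
        have := card_pos.2 ⟨v, hv⟩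
        omega
      have hc' := fun v (hv : v ∈ σ) => hc (σ.erase v) (hK σ hσ _ (erase_subset _ _))
        (by have := hce v hv; omega)
      refine hF (1 + e * Ψ) (Nat.le_add_left _ _) e (Nat.lt_succ_self _) _ (fun τ hτ => ?_) ?_ ?_
      · rcases mem_union.1 (Finsupp.support_add hτ) with h | h
        · rw [mem_singleton.1 (Finsupp.support_single_subset h)]
          exact ⟨hσ, hcard⟩
        · obtain ⟨v, hv, h2⟩ := chain_mem_support_sum h
          have := (hc' v hv).1 τ h2
          rwa [hce v hv] at this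
      · rw [map_add, bd_single, map_sum, ← sum_add_distrib,
          ← sum_erase_erase chain_add_self c σ]
        refine sum_congr rfl fun v hv => ?_
        rw [← (hc' v hv).2.2, add_comm (bd _), add_assoc, chain_add_self, add_zero]
      · refine (chain_card_support_add _ _).trans (Nat.add_le_add ?_ ?_)
        · exact (card_le_card Finsupp.support_single_subset).trans (card_singleton _).le
        · rw [← hcard]
          exact chain_card_support_sum fun v hv => (hc' v hv).2.1
    choose! Y hY using key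
    refine ⟨fun σ => if σ.card = e then Y σ else c σ, fun σ hσ hlt => ?_⟩
    have hsum : ∑ v ∈ σ, (if (σ.erase v).card = e then Y (σ.erase v) else c (σ.erase v)) =
        ∑ v ∈ σ, c (σ.erase v) := sum_congr rfl fun v hv => if_neg (by
      rw [card_erase_of_mem hv]
      have := card_pos.2 ⟨v, hv⟩
      omega)
    beta_reduce
    rw [hsum]
    split_ifs with h
    · obtain ⟨h1, h2, h3⟩ := hY σ hσ h
      refine ⟨h ▸ h1, h3.trans (Nat.le_add_left _ _), ?_⟩
      rw [h2, add_assoc, chain_add_self, add_zero]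
    · obtain ⟨h1, h2, h3⟩ := hc σ hσ (by omega)
      exact ⟨h1, h2.trans (Nat.le_add_right _ _), h3⟩

/-- pairing of a cochain with a chain -/
noncomputable def pair (F : Finset α → ZMod 2) : Ch α →ₗ[ZMod 2] ZMod 2 :=
  Finsupp.linearCombination (ZMod 2) F

theorem pair_single (F : Finset α → ZMod 2) (σ : Finset α) : pair F (Finsupp.single σ 1) = F σ := by
  simp [pair]

theorem pair_bd (F : Finset α → ZMod 2) (z : Ch α) : pair F (bd z) = pair (dl F) z := by
  refine chain_ext (f := pair F ∘ₗ bd) (g := pair (dl F)) (fun σ => ?_) z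
  simp only [LinearMap.comp_apply, bd_single, map_sum, pair_single, dl]

theorem exists_of_pair_ne_zero {F : Finset α → ZMod 2} {z : Ch α} (h : pair F z ≠ 0) :
    ∃ σ ∈ z.support, F σ ≠ 0 := by
  by_contra hcon
  push Not at hcon
  apply h
  rw [pair, Finsupp.linearCombination_apply, Finsupp.sum]
  exact sum_eq_zero fun σ hσ => by rw [hcon σ hσ, smul_zero]

/-- `G σ = pair F (c σ)`. -/
theorem acyc_of_cone {K : Set (Finset α)} {e Ψ m : ℕ} (h : HasCone K e Ψ) (hm : m < e) :
    Acyc K m := by
  obtain ⟨c, hc⟩ := h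
  intro F hF
  refine ⟨fun σ => pair F (c σ), fun σ hσ hcard => ?_⟩
  obtain ⟨h1, -, h3⟩ := hc σ hσ (by omega)
  have h4 : pair (dl F) (c σ) = 0 := by
    by_contra hne
    obtain ⟨τ, hτ, h5⟩ := exists_of_pair_ne_zero hne
    exact h5 (hF τ (h1 τ hτ).1 (by rw [(h1 τ hτ).2, hcard]))
  have := congrArg (pair F) h3
  rw [map_add, pair_bd, h4, zero_add, map_sum, pair_single] at this
  exact this.symm

end Crest.Agent.R66
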