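import Crest.Agent.R66.Link

/-! # Row 66: the χ-lemma (task CX) -/

set_option autoImplicit false

namespace Crest.Agent.R66

open Finset Module Matrix

/-- restriction of an isomorphism to full subcomplexes -/
theorem Iso.restrict {α β : Type*} [DecidableEq α] [DecidableEq β] {K : Set (Finset α)}
    {K' : Set (Finset β)} {f : α → β} (h : Iso K K' f) {P : α → Prop} {P' : β → Prop}
    (e : ∀ σ ∈ K, ∀ v ∈ σ, (P v ↔ P' (f v))) :
    Iso {σ | σ ∈ K ∧ ∀ v ∈ σ, P v} {σ | σ ∈ K' ∧ ∀ v ∈ σ, P' v} f := by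
  refine ⟨h.1.mono ?_, ?_, ?_⟩
  · rintro v ⟨σ, hσ, hv⟩
    exact ⟨σ, hσ.1, hv⟩
  · rintro σ ⟨hσ, hP⟩
    refine ⟨h.2.1 σ hσ, fun w hw => ?_⟩
    obtain ⟨v, hv, rfl⟩ := mem_image.1 hw
    exact (e σ hσ v hv).1 (hP v hv)
  · rintro σ' ⟨hσ', hP⟩
    obtain ⟨σ, hσ, rfl⟩ := h.2.2 σ' hσ'
    exact ⟨σ, ⟨hσ, fun v hv => (e σ hσ v hv).2 (hP _ (mem_image_of_mem f hv))⟩, rfl⟩

section ChiAux
variable {k R : Type} [Field k] [CommRing R] [Algebra k R] (τ : Trunc k R)
variable {n : Type} [Fintype n] [DecidableEq n]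
variable {Y : Type} [AddCommGroup Y] [Module k Y] (y : (n → R) →ₗ[k] Y)

omit [Fintype n] in
theorem chi_HH_mono (I : Finset n) {a b : ℕ} (h : a ≤ b) : HH τ I a ≤ HH τ I b := by
  intro w hw
  rw [mem_HH] at hw ⊢
  exact fun i => FF_mono τ (by omega) (hw i)

/-- the leading-term embedding `k^n → R^n` -/
def chiI (I : Finset n) (j : ℕ) : (n → k) →ₗ[k] (n → R) where
  toFun a := fun i => a i • τ.t ^ (j - ee I i)
  map_add' a b := by ext i; simp [add_smul]
  map_smul' c a := by ext i; simp [mul_smul]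

omit [Fintype n] in
theorem chiI_apply (I : Finset n) (j : ℕ) (a : n → k) (i : n) :
    chiI τ I j a i = a i • τ.t ^ (j - ee I i) := rfl

/-- the induced functional on the link space -/
def chiY (I : Finset n) (j : ℕ) (x : SL n R) : (n → k) →ₗ[k] Y :=
  y ∘ₗ (((mt x).mulVecLin).restrictScalars k) ∘ₗ chiI τ I j

theorem chiY_apply (I : Finset n) (j : ℕ) (x : SL n R) (a : n → k) :
    chiY τ y I j x a = y (mt x *ᵥ chiI τ I j a) := rfl

/-- the height of a vertex -/
noncomputable def chiM (v : Vx n R) : ℕ :=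
  sInf {j | ∃ x ∈ v.cos, ∃ w ∈ HH τ v.col j, y (mt x *ᵥ w) ≠ 0}

variable [Finite R]

theorem chi_lead {I : Finset n} {p : SL n R} (hp : p ∈ PP τ I) (j : ℕ) (a : n → k) :
    mt p *ᵥ chiI τ I (j + 1) a - chiI τ I (j + 1) (bar τ I p *ᵥ a) ∈ HH τ I j := by
  rw [mem_HH]
  intro i
  simp only [Pi.sub_apply, chiI_apply, Matrix.mulVec, dotProduct, Finset.sum_smul]
  rw [← Finset.sum_sub_distrib]
  refine Submodule.sum_mem _ fun l _ => ?_
  have hpl := (mem_PP τ).1 hp i l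
  have e : mt p i l * (a l • τ.t ^ (j + 1 - ee I l)) - (bar τ I p i l * a l) • τ.t ^ (j + 1 - ee I i)
      = a l • (mt p i l * τ.t ^ (j + 1 - ee I l) - bar τ I p i l • τ.t ^ (j + 1 - ee I i)) := by
    rw [smul_sub, mul_smul_comm, mul_comm (bar τ I p i l), mul_smul]
  rw [e]
  refine Submodule.smul_mem _ _ ?_
  by_cases hi : i ∈ I <;> by_cases hl : l ∈ I
  · have h1 : mt p i l ∈ FF τ 1 := by simpa [ee, hi, hl] using hpl
    have h2 : bar τ I p i l = τ.c0 (mt p i l) := by simp [bar, hi]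
    rw [h2, Algebra.smul_def, ← (mem_FF_one τ).1 h1]
    simp [ee, hi, hl]
  · have h1 : mt p i l ∈ FF τ 0 := by simpa [ee, hi, hl] using hpl
    rw [FF_zero, Submodule.mem_bot] at h1
    have h2 : bar τ I p i l = 0 := by simp [bar, hi, h1]
    rw [h2, h1]
    simp
  · have h1 : mt p i l ∈ FF τ 2 := by simpa [ee, hi, hl] using hpl
    have h2 : bar τ I p i l = τ.c1 (mt p i l) := by simp [bar, hi, hl]
    have h3 := (mem_FF_two τ).1 h1
    have h4 : mt p i l * τ.t ^ (j + 1 - ee I l) - bar τ I p i l • τ.t ^ (j + 1 - ee I i)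
        = τ.c0 (mt p i l) • τ.t ^ j := by
      rw [h2, Algebra.smul_def, Algebra.smul_def]
      simp only [ee, hi, hl, if_true, if_false, Nat.add_sub_cancel, Nat.sub_zero]
      conv_lhs => enter [1, 1]; rw [h3]
      ring
    rw [h4]
    refine Submodule.smul_mem _ _ (pow_mem_FF τ ?_)
    simp [ee, hi]
  · have h1 : mt p i l ∈ FF τ 1 := by simpa [ee, hi, hl] using hpl
    have h2 : bar τ I p i l = τ.c0 (mt p i l) := by simp [bar, hl]
    rw [h2, Algebra.smul_def, ← (mem_FF_one τ).1 h1]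
    simp [ee, hi, hl]

theorem chi_key {I I' L : Finset n} {x p : SL n R} (hp : p ∈ PP τ I) {j j' : ℕ}
    (h0 : ∀ w ∈ HH τ I j, y (mt x *ᵥ w) = 0)
    (hin : ∀ i ∈ L, j' + 1 - ee I' i = j + 1 - ee I i + 1)
    (hout : ∀ i, i ∉ L → j' + 1 - ee I' i ≤ j + 1 - ee I i) :
    (∀ w ∈ HH τ I' j', y (mt (x * p) *ᵥ w) = 0) ↔
      Wsp τ I p L ≤ LinearMap.ker (chiY τ y I (j + 1) x) := by
  have hlead : ∀ a : n → k, y (mt (x * p) *ᵥ chiI τ I (j + 1) a) =
      chiY τ y I (j + 1) x (bar τ I p *ᵥ a) := by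
    intro a
    have := h0 _ (chi_lead τ hp j a)
    rw [Matrix.mulVec_sub, map_sub, sub_eq_zero] at this
    rw [chiY_apply, ← this, mt_mul, Matrix.mulVec_mulVec]
  constructor
  · rintro h _ ⟨a, ha, rfl⟩
    rw [LinearMap.mem_ker, Matrix.mulVecLin_apply, ← hlead]
    apply h
    rw [mem_HH]
    intro i
    rw [chiI_apply]
    by_cases hi : i ∈ L
    · exact Submodule.smul_mem _ _ (pow_mem_FF τ (by rw [hin i hi]; omega))
    · rw [mem_coord.1 ha i hi, zero_smul]
      exact Submodule.zero_mem _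
  · intro h w hw
    rw [mem_HH] at hw
    have hex : ∀ i, ∃ c : k, (i ∉ L → c = 0) ∧
        w i - c • τ.t ^ (j + 1 - ee I i) ∈ FF τ (j + 1 - ee I i) := by
      intro i
      by_cases hi : i ∈ L
      · have h1 := hw i
        rw [hin i hi, FF_succ, Submodule.mem_sup] at h1
        obtain ⟨u, hu, z, hz, e⟩ := h1
        obtain ⟨c, rfl⟩ := Submodule.mem_span_singleton.1 hz
        exact ⟨c, fun h => absurd hi h, by rw [← e]; simpa using hu⟩
      · exact ⟨0, fun _ => rfl, by simpa using FF_mono τ (hout i hi) (hw i)⟩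
    choose a ha0 ha using hex
    have hw0 : w - chiI τ I (j + 1) a ∈ HH τ I j := by
      rw [mem_HH]
      exact fun i => ha i
    have h1 : y (mt (x * p) *ᵥ (w - chiI τ I (j + 1) a)) = 0 := by
      rw [mt_mul, ← Matrix.mulVec_mulVec]
      exact h0 _ (mulVec_mem_HH τ hp hw0)
    rw [Matrix.mulVec_sub, map_sub, sub_eq_zero, hlead] at h1
    rw [h1]
    exact h ⟨a, mem_coord.2 ha0, rfl⟩

theorem chi_good_vert {I : Finset n} {z : SL n R} {j : ℕ} :
    (∀ x ∈ (vert τ I z).cos, ∀ w ∈ HH τ (vert τ I z).col j, y (mt x *ᵥ w) = 0) ↔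
      ∀ w ∈ HH τ I j, y (mt z *ᵥ w) = 0 := by
  constructor
  · intro h w hw
    exact h z (by rw [mem_vert_cos]; simp) w hw
  · intro h x hx w hw
    rw [mem_vert_cos] at hx
    have := h _ (mulVec_mem_HH τ hx hw)
    rwa [Matrix.mulVec_mulVec, ← mt_mul, mul_inv_cancel_left] at this

theorem chi_top_mem (hy : y ≠ 0) (I : Finset n) (z : SL n R) :
    τ.s ∈ {j | ∃ x ∈ (vert τ I z).cos, ∃ w ∈ HH τ (vert τ I z).col j, y (mt x *ᵥ w) ≠ 0} := by
  obtain ⟨w, hw⟩ : ∃ w, y w ≠ 0 := by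
    by_contra h
    push Not at h
    exact hy (LinearMap.ext h)
  refine ⟨z, by rw [mem_vert_cos]; simp, mt z⁻¹ *ᵥ w, ?_, ?_⟩
  · rw [mem_HH]
    intro i
    rw [FF_top τ (by have := ee_le (vert τ I z).col i; omega)]
    trivial
  · rwa [Matrix.mulVec_mulVec, mt_mul_inv, Matrix.one_mulVec]

theorem chiM_le (hy : y ≠ 0) (I : Finset n) (z : SL n R) : chiM τ y (vert τ I z) ≤ τ.s :=
  Nat.sInf_le (chi_top_mem τ y hy I z)

theorem lt_chiM (hy : y ≠ 0) {I : Finset n} {z : SL n R} {j : ℕ} :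
    j < chiM τ y (vert τ I z) ↔ ∀ w ∈ HH τ I j, y (mt z *ᵥ w) = 0 := by
  rw [← chi_good_vert]
  constructor
  · intro h x hx w hw
    by_contra hne
    exact absurd (Nat.sInf_le (s := {j | ∃ x ∈ (vert τ I z).cos,
      ∃ w ∈ HH τ (vert τ I z).col j, y (mt x *ᵥ w) ≠ 0}) ⟨x, hx, w, hw, hne⟩) (not_le.2 h)
  · intro h
    by_contra hle
    obtain ⟨x, hx, w, hw, hne⟩ := Nat.sInf_mem ⟨_, chi_top_mem τ y hy I z⟩
    exact hne (h x hx w (chi_HH_mono τ _ (not_lt.1 hle) hw))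

omit [Finite R] in
/-- the Morse function -/
noncomputable def chiH (v : Vx n R) : ℕ :=
  chiM τ y v * (Fintype.card n + 1) + (Fintype.card n - v.col.card)

/-- the descending condition in the link -/
theorem chiH_lt_iff (hy : y ≠ 0) {I I' : Finset n} (hne : I' ≠ I) (hc : I' ⊆ I ∨ I ⊆ I')
    {x p : SL n R} (hp : p ∈ PP τ I) {j : ℕ} (hj : chiM τ y (vert τ I x) = j + 1) :
    chiH τ y (vert τ I' (x * p)) < chiH τ y (vert τ I x) ↔
      ¬ Wsp τ I p (LL I I') ≤ LinearMap.ker (chiY τ y I (j + 1) x) := by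
  have h0 : ∀ w ∈ HH τ I j, y (mt x *ᵥ w) = 0 := (lt_chiM τ y hy).1 (by omega)
  have hI : I.card ≤ Fintype.card n := card_le_univ I
  have hI' : I'.card ≤ Fintype.card n := card_le_univ I'
  simp only [chiH, vert_col, hj]
  set N := Fintype.card n
  by_cases hs : I' ⊆ I
  · have hlt : I'.card < I.card := card_lt_card ⟨hs, fun h => hne (Subset.antisymm hs h)⟩
    rw [← chi_key τ y (I' := I') (j' := j) hp h0, ← lt_chiM τ y hy]
    · set a := chiM τ y (vert τ I' (x * p))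
      constructor
      · intro h h'
        have : (j + 1) * (N + 1) ≤ a * (N + 1) := Nat.mul_le_mul_right _ h'
        omega
      · intro h
        have : a * (N + 1) ≤ j * (N + 1) := Nat.mul_le_mul_right _ (not_lt.1 h)
        rw [add_mul]
        omega
    · intro i hi
      simp only [LL, hs, if_true, mem_sdiff] at hi
      simp [ee, hi.1, hi.2]
    · intro i hi
      simp only [LL, hs, if_true, mem_sdiff, not_and, not_not] at hi
      by_cases h1 : i ∈ I
      · simp [ee, h1, hi h1]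
      · have h2 : i ∉ I' := fun h => h1 (hs h)
        simp [ee, h1, h2]
  · have hs' : I ⊆ I' := hc.resolve_left hs
    have hlt : I.card < I'.card := card_lt_card ⟨hs', hs⟩
    rw [← chi_key τ y (I' := I') (j' := j + 1) hp h0, ← lt_chiM τ y hy]
    · set a := chiM τ y (vert τ I' (x * p))
      constructor
      · intro h h'
        have : (j + 1 + 1) * (N + 1) ≤ a * (N + 1) := Nat.mul_le_mul_right _ h'
        rw [add_mul (j + 1)] at this
        omega
      · intro h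
        have : a * (N + 1) ≤ (j + 1) * (N + 1) := Nat.mul_le_mul_right _ (not_lt.1 h)
        omega
    · intro i hi
      simp only [LL, hs, if_false, mem_union, mem_compl] at hi
      rcases hi with h1 | h1
      · simp [ee, h1, hs' h1]
      · have h2 : i ∉ I := fun h => h1 (hs' h)
        simp [ee, h1, h2]
    · intro i hi
      simp only [LL, hs, if_false, mem_union, mem_compl, not_or, not_not] at hi
      simp [ee, hi.1, hi.2]

theorem chi_ker_ne_top (hy : y ≠ 0) {I : Finset n} {x : SL n R} {j : ℕ}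
    (hj : chiM τ y (vert τ I x) = j + 1) : LinearMap.ker (chiY τ y I (j + 1) x) ≠ ⊤ := by
  intro htop
  have h0 : ∀ w ∈ HH τ I j, y (mt x *ᵥ w) = 0 := (lt_chiM τ y hy).1 (by omega)
  have h1 := (chi_key τ y (I' := I) (L := univ) (j' := j + 1) (PP τ I).one_mem h0
    (fun i _ => by have := ee_le I i; omega) (fun i hi => absurd (mem_univ i) hi)).2
    (by rw [htop]; exact le_top)
  rw [mul_one, ← lt_chiM τ y hy] at h1
  omega

/-- the link of a vertex in the coset complex -/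
theorem chi_link_iff {𝓘 : Finset (Finset n)} {I : Finset n} (hI : I ∈ 𝓘) (x : SL n R)
    (σ : Finset (Vx n R)) :
    (vert τ I x ∉ σ ∧ insert (vert τ I x) σ ∈ Zc τ 𝓘) ↔
      σ ∈ cx (vert τ) (cl (vert τ) {I} x) (𝓘.erase I) := by
  constructor
  · rintro ⟨hv, T, hT, z, -, e⟩
    have h1 : vert τ I x ∈ face (vert τ) T z := by rw [← e]; exact mem_insert_self _ _
    obtain ⟨-, h2⟩ := (pi_mem_face (col_vert τ)).1 h1
    refine ⟨T.erase I, erase_subset_erase I hT, z, ?_, ?_⟩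
    · rw [mem_cl]
      intro i hi
      rw [mem_singleton.1 hi, h2]
    · rw [← face_erase (col_vert τ), ← e, ← h2, erase_insert hv]
  · rintro ⟨T, hT, z, hz, rfl⟩
    have h2 : vert τ I z = vert τ I x := mem_cl.1 hz I (mem_singleton_self I)
    refine ⟨fun h => ?_, ?_⟩
    · have := hT ((pi_mem_face (col_vert τ)).1 h).1
      simp at this
    · rw [← h2, ← face_insert]
      exact face_mem_cx (insert_subset hI (hT.trans (erase_subset _ _))) (mem_univ _)

end ChiAux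

/-- Morse function: `mm v = sInf {j | ∃ x ∈ v.cos, ∃ w ∈ HH τ v.col j, y (mt x *ᵥ w) ≠ 0}`
(nonempty for genuine vertices: `FF_top`), `h v = mm v * (|n|+1) + (|n| - |v.col|)`,
`h₀ = (m₀+1)(|n|+1)`; use `racyc_zero` / `morse` and `RAcyc.congr`.
Descending link of `v = vert I x`, `j = mm v ≥ 1`: let `ι w i = t^(j - ee I i) * algebraMap (w i)`,
`ybar w = y (mt x *ᵥ ι w)` (`k`-linear, nonzero as `HH I j = HH I (j-1) + ι(k^n)`), `K = ker ybar`.
For `p ∈ P_I`: `mt p *ᵥ ι w - ι (bar p *ᵥ w) ∈ HH I (j-1)`.  For `I' ⊂ I`: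
`HH I' (j-2) ≤ HH I (j-1)`-type inclusions and `HH I' (j-1) = HH I (j-1) + ι (coord (I \ I'))`;
for `I ⊂ I'`: `HH I' (j-1) ≤ HH I (j-1)`, `HH I' j = HH I (j-1) + ι (coord (I ∪ I'ᶜ))`.  Hence
`h (vert I' (x p)) < h v ↔ ¬ Wsp I p (LL I I') ≤ K`, and `lam τ I x` is an `Iso` from the descending
link to `FlagCx (TrK (coord Iᶜ) K) {⊥, ⊤} (lev I (𝓘.erase I))` (`link_surj`, `lam_vert`,
`vert_eq_of_Wsp`), acyclic in sizes `< |𝓘| - 1` by `flag_cone`, `goodFam_TrK`, `acyc_of_cone`. -/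
theorem chi (N : ℕ) : ∃ q₀ : ℕ, ∀ (k R n : Type) [Field k] [Fintype k] [CommRing R] [Algebra k R] [Finite R]
    [Fintype n] [DecidableEq n] (τ : Trunc k R) (𝓘 : Finset (Finset n)),
    q₀ ≤ Fintype.card k → Fintype.card n ≤ N → ChainOK 𝓘 →
    ∀ (Y : Type) [AddCommGroup Y] [Module k Y] (y : (n → R) →ₗ[k] Y), y ≠ 0 →
    ∀ m₀ m : ℕ, m < 𝓘.card → RAcyc (Zc τ 𝓘)
      (fun v => ∀ x ∈ v.cos, ∀ w ∈ HH τ v.col m₀, y (mt x *ᵥ w) = 0) m := by
  obtain ⟨Ψ, q₁, hcone⟩ := flag_cone N 3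
  refine ⟨max q₁ 4, ?_⟩
  intro k R n _ _ _ _ _ _ _ τ 𝓘 hq hN hc Y _ _ y hy m₀ m hm
  have hq₁ : q₁ ≤ Fintype.card k := (le_max_left _ _).trans hq
  have hq3 : 3 < Fintype.card k := (le_max_right _ _).trans hq
  rcases m with _ | m
  · exact racyc_zero _ _
  have hdown : Down (Zc τ 𝓘) := down_cx _ _
  have hcomp : ∀ {I I' : Finset n}, I ∈ 𝓘 → I' ∈ 𝓘 → I' ⊆ I ∨ I ⊆ I' := by
    intro I I' hI hI'
    by_cases e : I' = I
    · exact Or.inl e.subset
    · exact hc.1 hI' hI e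
  refine RAcyc.congr hdown (morse (Zc τ 𝓘) hdown (chiH τ y) ((m₀ + 1) * (Fintype.card n + 1))
    ((τ.s + 1) * (Fintype.card n + 1)) ?_ ?_ m ?_) ?_
  · rintro _ ⟨T, -, z, -, rfl⟩ v hv
    obtain ⟨I, -, rfl⟩ := mem_face.1 hv
    have := Nat.mul_le_mul_right (Fintype.card n + 1) (chiM_le τ y hy I z)
    rw [chiH, add_mul]
    omega
  · rintro _ ⟨T, hT, z, -, rfl⟩ v hv w hw e
    obtain ⟨I, hI, rfl⟩ := mem_face.1 (mem_coe.1 hv)
    obtain ⟨I', hI', rfl⟩ := mem_face.1 (mem_coe.1 hw)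
    have h1 : I.card ≤ Fintype.card n := card_le_univ I
    have h2 : I'.card ≤ Fintype.card n := card_le_univ I'
    have h3 := congrArg (· % (Fintype.card n + 1)) e
    simp only [chiH, vert_col, Nat.mul_add_mod_self_right] at h3
    rw [Nat.mod_eq_of_lt (by omega), Nat.mod_eq_of_lt (by omega)] at h3
    have h4 : I.card = I'.card := by omega
    have h5 : I = I' := by
      rcases hcomp (hT hI) (hT hI') with h | h
      · exact (eq_of_subset_of_card_le h h4.le).symm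
      · exact eq_of_subset_of_card_le h h4.ge
    rw [h5]
  · rintro v ⟨T, hT, x, -, e⟩ hv
    obtain ⟨I, hIT, rfl⟩ := mem_face.1 (e ▸ mem_singleton_self v : v ∈ face (vert τ) T x)
    have hI : I ∈ 𝓘 := hT hIT
    obtain ⟨j, hj⟩ : ∃ j, chiM τ y (vert τ I x) = j + 1 := by
      refine ⟨chiM τ y (vert τ I x) - 1, ?_⟩
      by_contra h
      have h0 : chiM τ y (vert τ I x) = 0 := by omega
      rw [chiH, h0, add_mul] at hv
      omega
    set K := LinearMap.ker (chiY τ y I (j + 1) x) with hK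
    have hKtop : K ≠ ⊤ := chi_ker_ne_top τ y hy hj
    have hS : ({I} : Finset (Finset n)) ⊆ 𝓘 := singleton_subset_iff.2 hI
    have hU : 𝓘.erase I ⊆ 𝓘 := erase_subset _ _
    have hd : Disjoint ({I} : Finset (Finset n)) (𝓘.erase I) := by simp
    have hiso := (link_iso τ hq3 hc hS hU hd (mem_singleton_self I) x).restrict
      (P := fun w => chiH τ y w < chiH τ y (vert τ I x)) (P' := fun W => ¬ W ≤ K) (by
        rintro _ ⟨T', hT', z, hz, rfl⟩ w hw
        obtain ⟨I', hI', rfl⟩ := mem_face.1 hw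
        have hp : x⁻¹ * z ∈ PP τ I := (mem_cl_vert τ).1 hz I (mem_singleton_self I)
        have hI'' := mem_erase.1 (hT' hI')
        have hz' : z = x * (x⁻¹ * z) := by simp
        rw [hz', lam_vert τ x hp (hcomp hI hI''.2)]
        exact chiH_lt_iff τ y hy hI''.1 (hcomp hI hI''.2) hp hj)
    have hOK := link_flagOK (k := k) hc hS hU hd (mem_singleton_self I)
    have hOK' : FlagOK (TrK (coord k Iᶜ) K) (phiS k I {I}) (lev I (𝓘.erase I)) := by
      refine ⟨hOK.1, hOK.2.1, fun W hW => ⟨?_, (hOK.2.2.1 W hW).2⟩, hOK.2.2.2⟩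
      simp only [phiS, image_singleton, mem_insert, mem_singleton, LL_self] at hW
      rcases hW with rfl | rfl
      · exact Or.inr ⟨Or.inr (top_sup_eq _), fun h => hKtop (top_le_iff.1 h)⟩
      · left
        rw [eq_bot_iff]
        intro w hw
        rw [Submodule.mem_bot]
        ext i
        exact mem_coord.1 hw i (notMem_empty i)
    have hC := hcone k (n → k) hq₁ (by simpa using hN) _ _ _ (goodFam_TrK (coord k Iᶜ) K hKtop) hOK'
    have hA : Acyc (FlagCx (TrK (coord k Iᶜ) K) (phiS k I {I}) (lev I (𝓘.erase I))) m := by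
      refine acyc_of_cone hC ?_
      rw [card_lev hc hI hU, card_erase_of_mem hI]
      omega
    have e1 : FlagCx (TrK (coord k Iᶜ) K) (phiS k I {I}) (lev I (𝓘.erase I)) =
        {σ | σ ∈ FlagCx (Tr (coord k Iᶜ)) (phiS k I {I}) (lev I (𝓘.erase I)) ∧
          ∀ W ∈ σ, ¬ W ≤ K} := by
      ext σ
      constructor
      · rintro ⟨h1, h2⟩
        have h3 : ∀ W ∈ σ, W ∈ Tr (coord k Iᶜ) ∧ ¬ W ≤ K := by
          intro W hW
          rcases (h1 W hW).1 with h | h
          · exact absurd (h ▸ (h1 W hW).2) (hOK.2.2.1 ⊥ hOK.1).2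
          · exact h
        exact ⟨⟨fun W hW => ⟨(h3 W hW).1, (h1 W hW).2⟩, h2⟩, fun W hW => (h3 W hW).2⟩
      · rintro ⟨⟨h1, h2⟩, h3⟩
        exact ⟨fun W hW => ⟨Or.inr ⟨(h1 W hW).1, h3 W hW⟩, (h1 W hW).2⟩, h2⟩
    have e2 : {σ | vert τ I x ∉ σ ∧ insert (vert τ I x) σ ∈ Zc τ 𝓘 ∧
        ∀ w ∈ σ, chiH τ y w < chiH τ y (vert τ I x)} =
        {σ | σ ∈ cx (vert τ) (cl (vert τ) {I} x) (𝓘.erase I) ∧
          ∀ w ∈ σ, chiH τ y w < chiH τ y (vert τ I x)} := by
      ext σ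
      simp only [Set.mem_ofPred_eq]
      rw [← chi_link_iff τ hI x σ, and_assoc]
    rw [e2, hiso.acyc_iff m, ← e1]
    exact hA
  · rintro _ ⟨T, -, z, -, rfl⟩ v hv
    obtain ⟨I, -, rfl⟩ := mem_face.1 hv
    rw [chi_good_vert, ← lt_chiM τ y hy, chiH]
    set a := chiM τ y (vert τ I z)
    constructor
    · intro h
      by_contra h'
      have : a * (Fintype.card n + 1) ≤ m₀ * (Fintype.card n + 1) :=
        Nat.mul_le_mul_right _ (not_lt.1 h')
      rw [add_mul] at h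
      omega
    · intro h
      have : (m₀ + 1) * (Fintype.card n + 1) ≤ a * (Fintype.card n + 1) :=
        Nat.mul_le_mul_right _ h
      omega

end Crest.Agent.R66
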