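import Crest.Agent.R66.Chain

/-! # Row 66: cones + transitive symmetry give coboundary expansion (task CE) -/

set_option autoImplicit false

namespace Crest.Agent.R66

open Finset

namespace CEAux

theorem card_filter_smul {Ω Γ : Type*} [Group Γ] [MulAction Γ Ω] (C : Finset Ω)
    (hC : ∀ g : Γ, ∀ x ∈ C, g • x ∈ C) (f : Ω → ℕ) (g : Γ) :
    ∑ x ∈ C, f (g • x) = ∑ x ∈ C, f x :=
  sum_nbij' (fun x => g • x) (fun x => g⁻¹ • x) (hC g) (hC g⁻¹) (fun _ _ => inv_smul_smul _ _)
    (fun _ _ => smul_inv_smul _ _) fun _ _ => rfl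

theorem fiber {Ω Γ : Type*} [Group Γ] [Fintype Γ] [MulAction Γ Ω] (C : Finset Ω)
    (hC : ∀ g : Γ, ∀ x ∈ C, g • x ∈ C) (htr : ∀ x ∈ C, ∀ y ∈ C, ∃ g : Γ, g • x = y)
    (f : Ω → ℕ) {z : Ω} (hz : z ∈ C) :
    C.card * ∑ g : Γ, f (g • z) = Fintype.card Γ * ∑ x ∈ C, f x := by
  have h1 : ∀ x ∈ C, ∑ g : Γ, f (g • z) = ∑ g : Γ, f (g • x) := fun x hx => by
    obtain ⟨h, rfl⟩ := htr z hz x hx
    simp only [← mul_smul]
    exact (Equiv.sum_comp (Equiv.mulRight h) fun g => f (g • z)).symm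
  rw [← smul_eq_mul, ← sum_const, sum_congr rfl h1, sum_comm]
  simp only [card_filter_smul C hC f, sum_const, card_univ, smul_eq_mul]

end CEAux

/-- For `g ∈ Γ` put `G_g σ = pair (fun τ => F (g τ)) (c (g⁻¹ σ))` (`g τ = τ.image (g • ·)`).
Then `F σ + dl G_g σ = pair (fun τ => dl F (g τ)) (c (g⁻¹ σ))` for faces `σ` of size `m < |U|`
(`pair_bd`, `dl_image`).  Sum `cnt (F + dl G_g)` over `g`: substituting `y = g y'`, each of the
`≤ 2^|U| · |C| · Ψ` triples `(T, y', τ ∈ supp c (face T y'))`, `τ = face T' z`, contributes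
`#{g | dl F (face T' (g z)) ≠ 0} ≤ |Γ| / |C| · cnt (m+1) (dl F)` (all fibres of `g ↦ g • z`,
`Γ → C`, have the same size).  Take `g` below the average. -/
theorem cobExp_of_cone {ι Ω α Γ : Type*} [DecidableEq ι] [DecidableEq α] [Fintype Ω]
    [Group Γ] [Finite Γ] [MulAction Γ Ω] [MulAction Γ α] (π : ι → Ω → α) (hπ : Col π)
    (C : Finset Ω) (U : Finset ι) (heq : ∀ (g : Γ) i x, π i (g • x) = g • π i x)
    (hC : ∀ g : Γ, ∀ x ∈ C, g • x ∈ C) (htr : ∀ x ∈ C, ∀ y ∈ C, ∃ g : Γ, g • x = y) {Ψ : ℕ}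
    (h : HasCone (cx π C U) U.card Ψ) : CobExp π C U (2 ^ U.card * Ψ) := by
  classical
  have := Fintype.ofFinite Γ
  intro m hm F
  obtain ⟨c, hc⟩ := h
  rcases C.eq_empty_or_nonempty with rfl | hne
  · exact ⟨fun _ => 0, by simp [cnt]⟩
  have himg : ∀ (g : Γ) T x, (face π T x).image (fun v => g • v) = face π T (g • x) := by
    intro g T x
    simp only [face, image_image, heq]
    rfl
  have hinj : ∀ (g : Γ) (σ : Finset α), Set.InjOn (fun v => g • v) (σ : Set α) :=
    fun g σ => (MulAction.injective g).injOn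
  let G : Γ → Finset α → ZMod 2 := fun g σ =>
    pair (fun τ => F (τ.image fun v => g • v)) (c (σ.image fun v => g⁻¹ • v))
  let ind : Finset α → ℕ := fun τ => if dl F τ ≠ 0 then 1 else 0
  have key : ∀ (g : Γ), ∀ T ∈ U.powersetCard m, ∀ y ∈ C,
      (if F (face π T (g • y)) + dl (G g) (face π T (g • y)) ≠ 0 then 1 else 0) ≤
        ∑ τ ∈ (c (face π T y)).support, ind (τ.image fun v => g • v) := by
    intro g T hT y hy
    obtain ⟨hTU, hTm⟩ := mem_powersetCard.1 hT
    split_ifs with h0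
    swap
    · exact Nat.zero_le _
    have h1 := (hc _ (face_mem_cx hTU hy) (by rw [card_face hπ, hTm]; exact hm)).2.2
    have h2 := congrArg (pair fun τ => F (τ.image fun v => g • v)) h1
    rw [map_add, pair_bd, pair_single, himg, map_sum] at h2
    have h3 : dl (G g) (face π T (g • y)) = ∑ v ∈ face π T y,
        pair (fun τ => F (τ.image fun v => g • v)) (c ((face π T y).erase v)) := by
      have := dl_image (hinj g⁻¹ (face π T (g • y)))
        fun ρ => pair (fun τ => F (τ.image fun v => g • v)) (c ρ)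
      rw [himg, inv_smul_smul] at this
      exact this
    rw [h3, ← h2, add_assoc, z2_add_self, add_zero] at h0
    obtain ⟨τ, hτ, h4⟩ := exists_of_pair_ne_zero h0
    rw [dl_image (hinj g τ)] at h4
    refine le_trans ?_ (single_le_sum (f := fun τ : Finset α => ind (τ.image fun v => g • v))
      (fun _ _ => Nat.zero_le _) hτ)
    simp [ind, h4]
  set N := cnt π C U (m + 1) (dl F) with hN
  have h5 : ∀ T ∈ U.powersetCard m, ∀ y ∈ C, ∀ τ ∈ (c (face π T y)).support,
      C.card * ∑ g : Γ, ind (τ.image fun v => g • v) ≤ Fintype.card Γ * N := by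
    intro T hT y hy τ hτ
    obtain ⟨hTU, hTm⟩ := mem_powersetCard.1 hT
    obtain ⟨⟨T', hT', z, hz, rfl⟩, hcard⟩ :=
      (hc _ (face_mem_cx hTU hy) (by rw [card_face hπ, hTm]; exact hm)).1 τ hτ
    rw [card_face hπ, card_face hπ, hTm] at hcard
    simp only [himg]
    rw [CEAux.fiber C hC htr (fun x => ind (face π T' x)) hz]
    refine Nat.mul_le_mul_left _ ?_
    rw [hN, cnt]
    refine le_trans (le_of_eq ?_) (single_le_sum
      (f := fun T => (C.filter (fun x => dl F (face π T x) ≠ 0)).card) (fun _ _ => Nat.zero_le _)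
      (mem_powersetCard.2 ⟨hT', hcard⟩))
    rw [card_filter]
  have h6 : ∑ g : Γ, cnt π C U m (fun σ => F σ + dl (G g) σ) ≤
      ∑ T ∈ U.powersetCard m, ∑ y ∈ C, ∑ τ ∈ (c (face π T y)).support,
        ∑ g : Γ, ind (τ.image fun v => g • v) := by
    simp only [cnt]
    rw [sum_comm]
    refine sum_le_sum fun T hT => ?_
    calc _ ≤ ∑ g : Γ, ∑ y ∈ C, ∑ τ ∈ (c (face π T y)).support, ind (τ.image fun v => g • v) := by
          refine sum_le_sum fun g _ => ?_
          rw [card_filter, ← CEAux.card_filter_smul C hC _ g]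
          exact sum_le_sum fun y hy => key g T hT y hy
      _ = _ := by
          rw [sum_comm]
          exact sum_congr rfl fun y _ => sum_comm
  have h7 : C.card * ∑ T ∈ U.powersetCard m, ∑ y ∈ C, ∑ τ ∈ (c (face π T y)).support,
      ∑ g : Γ, ind (τ.image fun v => g • v) ≤
      C.card * ∑ _g : Γ, 2 ^ U.card * Ψ * N := by
    calc _ ≤ ∑ _T ∈ U.powersetCard m, ∑ _y ∈ C, Ψ * (Fintype.card Γ * N) := by
          rw [mul_sum]
          refine sum_le_sum fun T hT => ?_
          rw [mul_sum]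
          refine sum_le_sum fun y hy => ?_
          rw [mul_sum]
          refine (sum_le_card_nsmul _ _ _ (h5 T hT y hy)).trans ?_
          obtain ⟨hTU, hTm⟩ := mem_powersetCard.1 hT
          exact Nat.mul_le_mul_right _
            (hc _ (face_mem_cx hTU hy) (by rw [card_face hπ, hTm]; exact hm)).2.1
      _ ≤ _ := by
          simp only [sum_const, smul_eq_mul, card_univ, card_powersetCard]
          have := Nat.choose_le_two_pow U.card m
          calc U.card.choose m * (C.card * (Ψ * (Fintype.card Γ * N)))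
              ≤ 2 ^ U.card * (C.card * (Ψ * (Fintype.card Γ * N))) := Nat.mul_le_mul_right _ this
            _ = _ := by ring
  obtain ⟨g, -, hg⟩ := exists_le_of_sum_le (s := (univ : Finset Γ)) univ_nonempty
    (h6.trans (Nat.le_of_mul_le_mul_left h7 hne.card_pos))
  exact ⟨G g, hg⟩

end Crest.Agent.R66
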