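import Crest.Agent.R66.Gen
import Crest.Agent.R66.Bar

/-! # Row 66: trivial action implies vanishing (task CT) -/

set_option autoImplicit false

namespace Crest.Agent.R66

open Finset Module Matrix

variable {k R : Type} [Field k] [CommRing R] [Algebra k R] (τ : Trunc k R)
variable {n : Type} [Fintype n] [DecidableEq n]

/-- reduction mod `t`, as a ring endomorphism of `R` -/
def ctRho : R →+* R := (algebraMap k R).comp (τ.c0 : R →+* k)

theorem ctRho_apply (r : R) : ctRho τ r = algebraMap k R (τ.c0 r) := rfl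

theorem ctRho_rho (r : R) : ctRho τ (ctRho τ r) = ctRho τ r := by
  simp [ctRho_apply]

/-- reduction mod `t` on `SL n R` -/
def ctRed : SL n R →* SL n R where
  toFun g := mkSL ((ctRho τ).mapMatrix (mt g)) (by rw [← RingHom.map_det, det_mt, map_one])
  map_one' := by apply mt_ext; simp only [mt_mkSL, mt_one, map_one]
  map_mul' x y := by apply mt_ext; simp only [mt_mkSL, mt_mul, map_mul]

theorem mt_ctRed (g : SL n R) (i j : n) : mt (ctRed τ g) i j = ctRho τ (mt g i j) := rfl

theorem ctRed_red (g : SL n R) : ctRed τ (ctRed τ g) = ctRed τ g := by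
  apply mt_ext
  ext i j
  rw [mt_ctRed, mt_ctRed, ctRho_rho]

theorem ct_two_ne_zero [Fintype k] (hk : Odd (Fintype.card k)) : (2 : k) ≠ 0 := by
  intro h2
  have h1 : ((Fintype.card k : ℕ) : k) = 0 := FiniteField.cast_card_eq_zero k
  obtain ⟨a, ha⟩ := hk
  rw [ha] at h1
  push_cast at h1
  rw [h2, zero_mul, zero_add] at h1
  exact one_ne_zero h1

/-- the congruence kernel has no involutions -/
theorem ct_no_invol [Fintype k] (hk : Odd (Fintype.card k)) {g : SL n R} (hg : ctRed τ g = 1)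
    (h2 : g * g = 1) : g = 1 := by
  have hc : ∀ i j, τ.c0 (mt g i j) = (1 : Matrix n n k) i j := by
    intro i j
    have h1 : mt (ctRed τ g) i j = (1 : Matrix n n R) i j := by rw [hg, mt_one]
    rw [mt_ctRed, ctRho_apply] at h1
    have h3 := congrArg τ.c0 h1
    rw [AlgHom.commutes] at h3
    change τ.c0 (mt g i j) = _ at h3
    rw [h3]
    by_cases hij : i = j
    · subst hij; simp
    · simp [Matrix.one_apply_ne hij]
  have hu : IsUnit (mt g + 1).det := by
    apply isUnit_of_c0 τ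
    have e : τ.c0 (mt g + 1).det = ((τ.c0 : R →+* k).mapMatrix (mt g + 1)).det :=
      RingHom.map_det (τ.c0 : R →+* k) _
    have e2 : (τ.c0 : R →+* k).mapMatrix (mt g + 1) = (2 : k) • (1 : Matrix n n k) := by
      rw [map_add, map_one, two_smul]
      congr 1
      ext i j
      exact hc i j
    rw [e, e2, det_smul, det_one, mul_one]
    exact pow_ne_zero _ (ct_two_ne_zero hk)
  have hu' : IsUnit (mt g + 1) := (Matrix.isUnit_iff_isUnit_det _).2 hu
  have h3 : mt g * mt g = 1 := by rw [← mt_mul, h2, mt_one]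
  have h4 : (mt g - 1) * (mt g + 1) = 0 := by
    rw [sub_mul, mul_add, h3, mul_one, one_mul, add_comm, sub_self]
  apply mt_ext
  rw [mt_one, ← sub_eq_zero]
  exact (hu'.mul_left_eq_zero).1 h4

variable [Finite R]

theorem ctRed_mem_empty (g : SL n R) : ctRed τ g ∈ PP τ (∅ : Finset n) := by
  intro i j
  rw [mt_ctRed, ctRho_apply]
  simpa [ee] using algebraMap_mem_FF_one τ _

theorem ctRed_mem {I : Finset n} {g : SL n R} (hg : g ∈ PP τ I) : ctRed τ g ∈ PP τ I := by
  intro i j
  have h := hg i j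
  rw [mt_ctRed, ctRho_apply]
  by_cases h0 : 1 + ee I j - ee I i = 0
  · rw [h0] at h ⊢
    rw [(mem_FF_zero τ).1 h]
    simp
  · exact FF_mono τ (by omega) (algebraMap_mem_FF_one τ _)

theorem ct_odd [Fintype k] (hk : Odd (Fintype.card k)) : Odd (Nat.card (ctRed τ (n := n)).ker) := by
  rw [← Nat.not_even_iff_odd, even_iff_two_dvd]
  intro h
  have : Fact (Nat.Prime 2) := ⟨Nat.prime_two⟩
  obtain ⟨g, hg⟩ := exists_prime_orderOf_dvd_card' 2 h
  have h1 : g * g = 1 := by rw [← pow_two, ← hg, pow_orderOf_eq_one]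
  have h2 : (g : SL n R) = 1 :=
    ct_no_invol τ hk (MonoidHom.mem_ker.1 g.2) (by rw [← Subgroup.coe_mul, h1, Subgroup.coe_one])
  have h3 : g = 1 := Subtype.ext h2
  rw [h3, orderOf_one] at hg
  exact absurd hg (by decide)

theorem smul_face (g : SL n R) (T : Finset (Finset n)) (x : SL n R) :
    (face (vert τ) T x).image (g • ·) = face (vert τ) T (g * x) := by
  simp only [face, image_image]
  exact image_congr fun I _ => smul_vert τ g I x

theorem smul_mem_Zc {𝓘 : Finset (Finset n)} (g : SL n R) {σ : Finset (Vx n R)}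
    (h : σ ∈ Zc τ 𝓘) : σ.image (g • ·) ∈ Zc τ 𝓘 := by
  obtain ⟨T, hT, x, _, rfl⟩ := h
  exact ⟨T, hT, g * x, mem_univ _, smul_face τ g T x⟩

/-- an invariant cocycle under the congruence kernel is a coboundary -/
theorem ct_cob_of_inv {𝓘 : Finset (Finset n)} (h0 : ∅ ∈ 𝓘)
    {m : ℕ} {F : Finset (Vx n R) → ZMod 2} (hF : Cocyc (Zc τ 𝓘) m F)
    (hinv : ∀ h : SL n R, ctRed τ h = 1 → ∀ σ, F (σ.image (h • ·)) = F σ) :
    Cob (Zc τ 𝓘) m F := by
  classical
  have hcol : Col (vert τ (n := n)) := col_vert τ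
  let P : Finset (Vx n R) → Finset (Finset n) × SL n R → Prop := fun σ p =>
    ∅ ∉ p.1 ∧ σ = face (vert τ) p.1 p.2
  let G : Finset (Vx n R) → ZMod 2 := fun σ =>
    if h : ∃ p, P σ p then F (face (vert τ) (insert ∅ h.choose.1) h.choose.2) else 0
  have hG1 : ∀ T x, ∅ ∉ T → G (face (vert τ) T x) = F (face (vert τ) (insert ∅ T) x) := by
    intro T x hT
    have hex : ∃ p, P (face (vert τ) T x) p := ⟨(T, x), hT, rfl⟩
    simp only [G, dif_pos hex]
    obtain ⟨_, he⟩ := hex.choose_spec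
    generalize hex.choose = p at he
    obtain ⟨T', x'⟩ := p
    simp only at he ⊢
    obtain ⟨rfl, hv⟩ := (face_eq_iff hcol).1 he
    have hp : ∀ I ∈ T, x⁻¹ * x' ∈ PP τ I := fun I hI => ((vert_eq_iff τ).1 (hv I hI)).2
    set p := x⁻¹ * x' with hpdef
    have hx' : x' = (x * (p * (ctRed τ p)⁻¹) * x⁻¹) * (x * ctRed τ p) := by
      rw [hpdef]; group
    have hker : ctRed τ (x * (p * (ctRed τ p)⁻¹) * x⁻¹) = 1 := by
      rw [map_mul, map_mul, map_mul, map_inv, map_inv, ctRed_red]
      group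
    have e1 : face (vert τ) (insert ∅ T) (x * ctRed τ p) = face (vert τ) (insert ∅ T) x := by
      refine face_congr fun I hI => vert_mul_of_mem τ x ?_
      rcases mem_insert.1 hI with rfl | hI
      · exact ctRed_mem_empty τ p
      · exact ctRed_mem τ (hp I hI)
    rw [hx', ← smul_face, hinv _ hker, e1]
  have hG0 : ∀ T x, ∅ ∈ T → G (face (vert τ) T x) = 0 := by
    intro T x hT
    have hex : ¬ ∃ p, P (face (vert τ) T x) p := by
      rintro ⟨⟨T', x'⟩, h1, h2⟩
      obtain ⟨rfl, _⟩ := (face_eq_iff hcol).1 h2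
      exact h1 hT
    simp only [G, dif_neg hex]
  refine ⟨G, ?_⟩
  rintro _ ⟨T, hT, x, _, rfl⟩ hc
  rw [card_face hcol] at hc
  rw [dl_face hcol]
  by_cases h : ∅ ∈ T
  · rw [← add_sum_erase T _ h, hG1 _ x (notMem_erase _ _), insert_erase h,
      sum_eq_zero, add_zero]
    intro I hI
    exact hG0 _ x (mem_erase.2 ⟨(mem_erase.1 hI).1.symm, h⟩)
  · have h1 := hF (face (vert τ) (insert ∅ T) x)
      (face_mem_cx (insert_subset h0 hT) (mem_univ x))
      (by rw [card_face hcol, card_insert_of_notMem h, hc])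
    rw [dl_face hcol, sum_insert h, erase_insert h, z2_add_eq_zero] at h1
    rw [h1]
    refine sum_congr rfl fun I hI => ?_
    rw [hG1 _ x (fun h' => h (mem_of_mem_erase h')),
      erase_insert_of_ne (by rintro rfl; exact h hI)]

/-- `G₁ = ker (SL n R → SL n k)` has odd order (an involution `g` has `(g - 1)(g + 1) = 0` and
`det (g + 1)` has `c0 = 2^|n| ≠ 0`, a unit by `isUnit_of_c0`; Cauchy).  `F̄ = ∑_{g ∈ G₁} F (g ·)`
differs from `F` by a coboundary (`cob_sum`) and is `G₁`-invariant.  Put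
`G (face T x) = F̄ (face (insert ∅ T) x)` for `∅ ∉ T`, `0` otherwise.  Well defined: if
`x' = x p` with `p ∈ P_I` for all `I ∈ T`, then `p₀ = algebraMap ∘ c0` of `p` lies in all these
`P_I` and in `P_∅`, and `p p₀⁻¹ ∈ G₁` (normal).  `dl G = F̄` by `dl_face`/`dl_insert`. -/
theorem contr [Fintype k] (hk : Odd (Fintype.card k)) {𝓘 : Finset (Finset n)} (h0 : ∅ ∈ 𝓘)
    {m : ℕ} {F : Finset (Vx n R) → ZMod 2} (hF : Cocyc (Zc τ 𝓘) m F)
    (hg : ∀ g : SL n R, Cob (Zc τ 𝓘) m (fun σ => F (σ.image (g • ·)) + F σ)) :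
    Cob (Zc τ 𝓘) m F := by
  classical
  let K := (ctRed τ (n := n)).ker
  have : Fintype K := Fintype.ofFinite _
  let Fb : Finset (Vx n R) → ZMod 2 := fun σ => ∑ g : K, F (σ.image ((g : SL n R) • ·))
  have hodd : Odd (Fintype.card K) := by
    rw [← Nat.card_eq_fintype_card]; exact ct_odd τ hk
  have hcard : ((Fintype.card K : ℕ) : ZMod 2) = 1 := (ZMod.natCast_eq_one_iff_odd).2 hodd
  have h1 : Cob (Zc τ 𝓘) m (fun σ => F σ + Fb σ) := by
    refine (cob_sum (univ : Finset K) fun g _ => hg (g : SL n R)).congr fun σ _ _ => ?_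
    rw [sum_add_distrib, sum_const, card_univ, nsmul_eq_mul, hcard, one_mul, add_comm]
  refine h1.of_add (ct_cob_of_inv τ h0 ?_ ?_)
  · refine cocyc_sum univ fun g _ => hF.comap (fun σ _ => ?_) fun σ hσ => smul_mem_Zc τ _ hσ
    exact (MulAction.injective (g : SL n R)).injOn
  · intro h hh σ
    let h' : K := ⟨h, MonoidHom.mem_ker.2 hh⟩
    refine Fintype.sum_equiv (Equiv.mulRight h') _ _ fun g => ?_
    congr 1
    rw [image_image]
    refine image_congr fun v _ => ?_
    simp only [Function.comp, Equiv.coe_mulRight, Subgroup.coe_mul, h', mul_smul]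

end Crest.Agent.R66
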