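import Crest.Agent.R66.Unip
import Crest.Agent.R66.Contr

/-! # Row 66: reindexing, rows and columns of the staircase (task CO) -/

set_option autoImplicit false

namespace Crest.Agent.R66

open Finset Module Matrix

variable {k R : Type} [Field k] [CommRing R] [Algebra k R] (τ : Trunc k R)
variable {n : Type} [Fintype n] [DecidableEq n]
variable [Finite R] [DecidableEq R] {n' : Type} [Fintype n'] [DecidableEq n']

open Up

theorem KS_empty (𝓘 : Finset (Finset n)) : KS τ 𝓘 ∅ = Zc τ 𝓘 := by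
  ext σ
  simp [KS]

omit [DecidableEq R] in

theorem Asec_vert (I : Finset n) (x : SL n R) :
    Asec τ (vert τ I x) = (fun w => mt x *ᵥ w) '' (HH τ I 0 : Set (n → R)) := by
  ext w
  constructor
  · rintro ⟨y, hy, w₀, hw₀, rfl⟩
    exact ⟨_, inv_mulVec_mem τ hy hw₀, mulVec_inv_mulVec x _⟩
  · rintro ⟨w₀, hw₀, rfl⟩
    exact ⟨x, self_mem_cos τ I x, w₀, hw₀, rfl⟩

namespace Co

omit [DecidableEq R] in
theorem mem_Asec {I : Finset n} {x : SL n R} {w : n → R} :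
    w ∈ Asec τ (vert τ I x) ↔ mt x⁻¹ *ᵥ w ∈ HH τ I 0 := by
  rw [Asec_vert]
  constructor
  · rintro ⟨w₀, hw₀, rfl⟩
    rw [inv_mulVec_mulVec]
    exact hw₀
  · intro h
    exact ⟨_, h, mulVec_inv_mulVec x w⟩

omit [Fintype n] [Fintype n'] in
theorem ee_map (e : n ≃ n') (I : Finset n) (i : n) : ee (I.map e.toEmbedding) (e i) = ee I i := by
  simp [ee]

omit [DecidableEq R] in
theorem reG_mem_PP_iff (e : n ≃ n') {I : Finset n} {g : SL n R} :
    reG e g ∈ PP τ (I.map e.toEmbedding) ↔ g ∈ PP τ I := by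
  rw [mem_PP, mem_PP, e.forall_congr_left]
  refine forall_congr' fun i => ?_
  rw [e.forall_congr_left]
  refine forall_congr' fun j => ?_
  obtain ⟨i, rfl⟩ := e.surjective i
  obtain ⟨j, rfl⟩ := e.surjective j
  simp [ee_map]

omit [DecidableEq R] in
theorem re_vert (e : n ≃ n') (I : Finset n) (x : SL n R) :
    vmap τ (reG e) (fun I => I.map e.toEmbedding) (vert τ I x) =
      vert τ (I.map e.toEmbedding) (reG e x) :=
  vmap_vert τ (reG e) (fun I => I.map e.toEmbedding) (fun _ hg => (reG_mem_PP_iff τ e).2 hg) x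

omit [DecidableEq R] in
theorem re_face (e : n ≃ n') (T : Finset (Finset n)) (x : SL n R) :
    (face (vert τ) T x).image (vmap τ (reG e) (fun I => I.map e.toEmbedding)) =
      face (vert τ) (T.image (fun I => I.map e.toEmbedding)) (reG e x) := by
  simp only [face, image_image]
  refine image_congr fun I _ => ?_
  simp only [Function.comp, re_vert]

omit [DecidableEq R] [Finite R] in
theorem reG_surj (e : n ≃ n') (y : SL n' R) : ∃ x : SL n R, reG e x = y :=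
  ⟨reG e.symm y, by apply mt_ext; simp⟩

omit [DecidableEq R] in
theorem re_mem_Asec (e : n ≃ n') {I : Finset n} {x : SL n R} {w : n → R} :
    w ∘ e.symm ∈ Asec τ (vert τ (I.map e.toEmbedding) (reG e x)) ↔ w ∈ Asec τ (vert τ I x) := by
  rw [mem_Asec, mem_Asec, ← map_inv, mt_reG, mem_HH, mem_HH, e.forall_congr_left]
  refine forall_congr' fun i => ?_
  obtain ⟨i, rfl⟩ := e.surjective i
  have : (reindex e e (mt x⁻¹) *ᵥ (w ∘ e.symm)) (e i) = (mt x⁻¹ *ᵥ w) i := by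
    rw [reindex_apply, submatrix_mulVec_equiv]
    simp [Function.comp_def]
  rw [this, ee_map, Equiv.symm_apply_apply]

omit [DecidableEq R] in
theorem smul_mem_Asec (g : SL n R) {I : Finset n} {x : SL n R} {w : n → R} :
    mt g *ᵥ w ∈ Asec τ (vert τ I (g * x)) ↔ w ∈ Asec τ (vert τ I x) := by
  rw [mem_Asec, mem_Asec, _root_.mul_inv_rev, mt_mul, ← mulVec_mulVec, inv_mulVec_mulVec]

end Co

theorem iso_reindex (e : n ≃ n') (𝓘 : Finset (Finset n)) (S : Finset (n → R)) :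
    Iso (KS τ 𝓘 S) (KS τ (𝓘.image (fun I => I.map e.toEmbedding)) (S.image (fun w => w ∘ e.symm)))
      (vmap τ (reG e) (fun I => I.map e.toEmbedding)) := by
  refine ⟨?_, ?_, ?_⟩
  · rintro v ⟨σ, hσ, hv⟩ v' ⟨σ', hσ', hv'⟩ h
    obtain ⟨I, -, x, rfl⟩ := vert_of_mem τ hσ.1 hv
    obtain ⟨I', -, x', rfl⟩ := vert_of_mem τ hσ'.1 hv'
    rw [Co.re_vert, Co.re_vert, vert_eq_iff, ← map_inv, ← map_mul, Co.reG_mem_PP_iff] at h
    exact (vert_eq_iff τ).2 ⟨map_injective _ h.1, h.2⟩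
  · rintro σ ⟨hσ, hS⟩
    obtain ⟨T, hT, x, rfl⟩ := (mem_Zc τ).1 hσ
    rw [Co.re_face]
    refine ⟨(mem_Zc τ).2 ⟨_, image_subset_image hT, _, rfl⟩, fun v hv w hw => ?_⟩
    obtain ⟨J, hJ, rfl⟩ := mem_face.1 hv
    obtain ⟨I, hI, rfl⟩ := mem_image.1 hJ
    obtain ⟨w', hw', rfl⟩ := mem_image.1 hw
    exact (Co.re_mem_Asec τ e).2 (hS _ (mem_face.2 ⟨I, hI, rfl⟩) w' hw')
  · rintro σ ⟨hσ, hS⟩
    obtain ⟨T', hT', y, rfl⟩ := (mem_Zc τ).1 hσ
    obtain ⟨T, hT, rfl⟩ := subset_image_iff.1 hT'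
    obtain ⟨x, rfl⟩ := Co.reG_surj e y
    refine ⟨face (vert τ) T x, ⟨(mem_Zc τ).2 ⟨T, hT, _, rfl⟩, fun v hv w hw => ?_⟩,
      Co.re_face τ e T x⟩
    obtain ⟨I, hI, rfl⟩ := mem_face.1 hv
    exact (Co.re_mem_Asec τ e).1
      (hS _ (mem_face.2 ⟨_, mem_image_of_mem _ hI, rfl⟩) _ (mem_image_of_mem _ hw))

theorem iso_smul (g : SL n R) (𝓘 : Finset (Finset n)) (S : Finset (n → R)) :
    Iso (KS τ 𝓘 S) (KS τ 𝓘 (S.image (fun w => mt g *ᵥ w))) (g • ·) := by
  refine ⟨(MulAction.injective g).injOn, ?_, ?_⟩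
  · rintro σ ⟨hσ, hS⟩
    obtain ⟨T, hT, x, rfl⟩ := (mem_Zc τ).1 hσ
    rw [smul_face]
    refine ⟨(mem_Zc τ).2 ⟨_, hT, _, rfl⟩, fun v hv w hw => ?_⟩
    obtain ⟨I, hI, rfl⟩ := mem_face.1 hv
    obtain ⟨w', hw', rfl⟩ := mem_image.1 hw
    exact (Co.smul_mem_Asec τ g).2 (hS _ (mem_face.2 ⟨I, hI, rfl⟩) w' hw')
  · rintro σ ⟨hσ, hS⟩
    obtain ⟨T, hT, y, rfl⟩ := (mem_Zc τ).1 hσ
    obtain ⟨x, rfl⟩ : ∃ x, y = g * x := ⟨g⁻¹ * y, by simp⟩
    refine ⟨face (vert τ) T x, ⟨(mem_Zc τ).2 ⟨T, hT, _, rfl⟩, fun v hv w hw => ?_⟩,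
      smul_face τ g T x⟩
    obtain ⟨I, hI, rfl⟩ := mem_face.1 hv
    exact (Co.smul_mem_Asec τ g).1 (hS _ (mem_face.2 ⟨_, hI, rfl⟩) _ (mem_image_of_mem _ hw))

/-- A chain avoiding the finset `A` comes from the complement of `A`:
`e = Equiv.sumCompl (· ∈ A)`, `𝓘' = 𝓘.image (subtype)`. -/
theorem exists_restrict (𝓘 : Finset (Finset n)) (A : Finset n) (hA : ∀ I ∈ 𝓘, Disjoint I A) :
    ∃ 𝓘' : Finset (Finset {i // i ∉ A}),
      (𝓘'.image (extc {i // i ∈ A})).image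
        (fun I => I.map (Equiv.sumCompl (· ∈ A)).toEmbedding) = 𝓘 ∧
      𝓘'.card = 𝓘.card ∧ (∅ ∈ 𝓘 → ∅ ∈ 𝓘') ∧ (∀ I' ∈ 𝓘', ∃ I ∈ 𝓘, I'.card = I.card) ∧
      (IsChain (· ⊆ ·) (𝓘 : Set (Finset n)) → IsChain (· ⊆ ·) (𝓘' : Set (Finset {i // i ∉ A}))) := by
  have key : ∀ I ∈ 𝓘, (I.subtype (· ∉ A)).map (Function.Embedding.subtype _) = I := by
    intro I hI
    rw [subtype_map]
    exact filter_true_of_mem fun i hi => disjoint_left.1 (hA I hI) hi
  have hinj : Set.InjOn (fun I : Finset n => I.subtype (· ∉ A)) 𝓘 := by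
    intro I hI I' hI' h
    rw [← key I hI, ← key I' hI']
    exact congrArg _ h
  refine ⟨𝓘.image (fun I => I.subtype (· ∉ A)), ?_, card_image_of_injOn hinj, fun h => ?_,
    fun I' hI' => ?_, fun hc => ?_⟩
  · rw [image_image, image_image]
    conv_rhs => rw [← image_id (s := 𝓘)]
    refine image_congr fun I hI => ?_
    simp only [Function.comp, extc, Finset.map_map, id]
    conv_rhs => rw [← key I hI]
    rfl
  · exact mem_image.2 ⟨∅, h, rfl⟩
  · obtain ⟨I, hI, rfl⟩ := mem_image.1 hI'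
    refine ⟨I, hI, ?_⟩
    conv_rhs => rw [← key I hI]
    rw [card_map]
  · intro J hJ J' hJ' hne
    obtain ⟨I, hI, rfl⟩ := mem_image.1 (mem_coe.1 hJ)
    obtain ⟨I', hI', rfl⟩ := mem_image.1 (mem_coe.1 hJ')
    rcases hc hI hI' (fun e => hne (by rw [e])) with h1 | h1
    · exact Or.inl (subtype_mono h1)
    · exact Or.inr (subtype_mono h1)

/-- Columns.  Choose `A` disjoint from the largest colour with `|A| = |S|`, `g` from `ext_R` whose
columns in `A` are the elements of `S`; `iso_smul`, `iso_reindex`, `exists_restrict`, `KS_eq_UK`,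
`fdata_up`, `FData.cob_of_comap` (the pull-back along `sV` of a cocycle is a cocycle:
`Cocyc.comap`). -/
theorem ks_acyc (N : ℕ) : ∃ q₀ : ℕ, ∀ (k R n : Type) [Field k] [Fintype k] [CommRing R] [Algebra k R] [Finite R] [DecidableEq R]
    [Fintype n] [DecidableEq n] (τ : Trunc k R) (𝓘 : Finset (Finset n)),
    Odd (Fintype.card k) → q₀ ≤ Fintype.card k → Fintype.card n ≤ N →
    IsChain (· ⊆ ·) (𝓘 : Set (Finset n)) → ∅ ∈ 𝓘 → ∀ S : Finset (n → R), Unimod τ S →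
    (∀ I ∈ 𝓘, I.card + S.card < Fintype.card n) → ∀ i < 𝓘.card,
    (∀ (n' : Type) [Fintype n'] [DecidableEq n'] (𝓘' : Finset (Finset n')),
      Fintype.card n' + S.card = Fintype.card n → IsChain (· ⊆ ·) (𝓘' : Set (Finset n')) →
      ∅ ∈ 𝓘' → 𝓘'.card = 𝓘.card → (∀ I' ∈ 𝓘', ∃ I ∈ 𝓘, I'.card = I.card) → Acyc (Zc τ 𝓘') i) →
    Acyc (KS τ 𝓘 S) i := by
  obtain ⟨q₀, hq₀⟩ := fdata_up N
  refine ⟨q₀, ?_⟩
  intro k R n _ _ _ _ _ _ _ _ τ 𝓘 hk hq hN hc h0 S hS hcard i hi hac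
  obtain ⟨I₀, hI₀, hmax⟩ := exists_max hc (Subset.refl 𝓘) ⟨∅, h0⟩
  have hlt := hcard I₀ hI₀
  obtain ⟨A, hA, hAc⟩ : ∃ A ⊆ I₀ᶜ, A.card = S.card :=
    exists_subset_card_eq (by rw [card_compl]; omega)
  have hdisj : ∀ I ∈ 𝓘, Disjoint I A := fun I hI =>
    disjoint_left.2 fun j hj hjA => mem_compl.1 (hA hjA) (hmax I hI hj)
  have hAne : A ≠ univ := by
    rintro rfl
    rw [card_univ] at hAc
    omega
  let φ : {j // j ∈ A} ≃ {w // w ∈ S} := equivOfCardEq hAc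
  let v : n → n → R := fun a => if h : a ∈ A then (φ ⟨a, h⟩).1 else 0
  have hv : ∀ a : {j // j ∈ A}, v a.1 = (φ a).1 := fun a => dif_pos a.2
  have hind : LinearIndepOn k (fun a => fun j => τ.c0 (v a j)) (A : Set n) := by
    have h1 : LinearIndependent k (fun w : {w // w ∈ S} => fun j => τ.c0 (w.1 j)) := hS
    have h2 := h1.comp φ φ.injective
    change LinearIndependent k (fun a : {j // j ∈ A} => fun j => τ.c0 (v a.1 j))
    simp only [hv]
    exact h2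
  obtain ⟨g, hg⟩ := ext_R τ A hAne v hind
  obtain ⟨𝓘', h1, h2, h3, h4, h5⟩ := exists_restrict 𝓘 A hdisj
  let e := Equiv.sumCompl (· ∈ A)
  have hcn : Fintype.card {j // j ∉ A} + S.card = Fintype.card n := by
    rw [← Fintype.card_congr e, Fintype.card_sum, Fintype.card_coe, hAc, add_comm]
  have hne : ∀ I ∈ 𝓘', I ≠ univ := by
    rintro I hI rfl
    obtain ⟨J, hJ, hIJ⟩ := h4 _ hI
    have := hcard J hJ
    rw [card_univ] at hIJ
    omega
  have hSe : ((stdS {j // j ∈ A} {j // j ∉ A} R).image (fun w => w ∘ e.symm)).image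
      (fun w => mt g *ᵥ w) = S := by
    have h6 : ∀ a : {j // j ∈ A},
        mt g *ᵥ ((Pi.single (Sum.inl a) (1 : R) : {j // j ∈ A} ⊕ {j // j ∉ A} → R) ∘ e.symm) =
          (φ a).1 := by
      intro a
      have : ((Pi.single (Sum.inl a) (1 : R) : {j // j ∈ A} ⊕ {j // j ∉ A} → R) ∘ e.symm) =
          Pi.single a.1 1 := by
        funext j
        obtain ⟨j, rfl⟩ := e.surjective j
        have h7 : a.1 = e (Sum.inl a) := rfl
        simp only [Function.comp, Equiv.symm_apply_apply, h7, Pi.single_apply,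
          EmbeddingLike.apply_eq_iff_eq]
      rw [this, mulVec_single_one, ← hv]
      funext j
      exact hg a.1 a.2 j
    rw [stdS, image_image, image_image]
    ext w
    simp only [mem_image, mem_univ, true_and, Function.comp, h6]
    constructor
    · rintro ⟨a, rfl⟩
      exact (φ a).2
    · intro hw
      exact ⟨φ.symm ⟨w, hw⟩, by simp⟩
  rw [← hSe, ← (iso_smul τ g 𝓘 _).acyc_iff, ← h1, ← (iso_reindex τ e _ _).acyc_iff,
    KS_eq_UK τ (h5 hc) hne]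
  have hF := hq₀ k R {j // j ∉ A} τ 𝓘' hq (by omega) ⟨h5 hc, fun h => hne _ h.2 rfl⟩
    {j // j ∈ A} i (by omega)
  let : Fintype R := Fintype.ofFinite R
  intro F hFc
  refine hF.cob_of_comap hk hFc (hac _ 𝓘' hcn (h5 hc) (h3 h0) h2 h4 _ ?_)
  have h8 := hFc.comap (hF.injOn' 0) (hF.img_mem' 0)
  simpa only [hF.img_zero] using h8

/-- Rows: `ind_acyc` with `p = c0 ∘ ·`; for `σ = ∅`: `X = univ`, `Y = ⊤`; for `σ = face T x` with
largest colour `I`: `X = Asec (vert I x)` (contained in the other `Asec`), `Y` = image of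
`coord Iᶜ` under the invertible matrix `(mt x).map c0`. -/
theorem row_acyc (e : ℕ) : ∃ q₀ : ℕ, ∀ (k R n : Type) [Field k] [Fintype k] [CommRing R] [Algebra k R] [Finite R] [DecidableEq R]
    [Fintype n] [DecidableEq n] (τ : Trunc k R) (𝓘 : Finset (Finset n)),
    q₀ ≤ Fintype.card k → IsChain (· ⊆ ·) (𝓘 : Set (Finset n)) → ∅ ∈ 𝓘 →
    (∀ I ∈ 𝓘, I.card + e ≤ Fintype.card n) → ∀ σ ∈ Zc τ 𝓘, ∀ r < e,
    Acyc {S : Finset (n → R) | σ ∈ KS τ 𝓘 S ∧ Unimod τ S} r := by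
  obtain ⟨q₀, hq₀⟩ := ind_acyc e
  refine ⟨q₀, ?_⟩
  intro k R n _ _ _ _ _ _ _ _ τ 𝓘 hq hc h0 hcard σ hσ r hr
  obtain ⟨T, hT, x, rfl⟩ := (mem_Zc τ).1 hσ
  rcases T.eq_empty_or_nonempty with rfl | hne
  · have := hq₀ k (n → k) (n → R) (fun w i => τ.c0 (w i)) Set.univ ⊤ hq
      (by simpa using hcard ∅ h0)
      (fun y _ => ⟨fun i => algebraMap k R (y i), trivial, by funext i; simp⟩) r hr
    convert this using 2
    ext S
    simp only [KS, Unimod, Set.mem_ofPred_eq, Set.subset_univ, true_and, face_empty]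
    exact and_iff_right ⟨by simpa using hσ, by simp⟩
  obtain ⟨I, hI, hmax⟩ := exists_max hc hT hne
  let M : Matrix n n k := (mt x).map τ.c0
  have hM : M.det = 1 := by
    have : M = τ.c0.toRingHom.mapMatrix (mt x) := rfl
    rw [this, ← RingHom.map_det, det_mt, map_one]
  have hMi : Function.Injective M.mulVecLin := by
    rw [Matrix.coe_mulVecLin, Matrix.mulVec_injective_iff_isUnit, Matrix.isUnit_iff_isUnit_det, hM]
    exact isUnit_one
  have := hq₀ k (n → k) (n → R) (fun w i => τ.c0 (w i)) (Asec τ (vert τ I x))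
    ((coord k Iᶜ).map M.mulVecLin) hq ?_ ?_ r hr
  · convert this using 2
    ext S
    simp only [KS, Unimod, Set.mem_ofPred_eq]
    refine and_congr_left fun _ => ⟨fun h w hw => h.2 _ (mem_face.2 ⟨I, hI, rfl⟩) w hw,
      fun h => ⟨hσ, fun v hv w hw => ?_⟩⟩
    obtain ⟨I', hI', rfl⟩ := mem_face.1 hv
    exact (Co.mem_Asec τ).2 (HH_anti τ (hmax I' hI') 0 ((Co.mem_Asec τ).1 (h hw)))
  · rw [← (Submodule.equivMapOfInjective _ hMi _).finrank_eq, finrank_coord, card_compl]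
    have := hcard I (hT hI)
    omega
  · rintro _ ⟨y, hy, rfl⟩
    refine ⟨mt x *ᵥ (fun i => algebraMap k R (y i)), ?_, ?_⟩
    · rw [Asec_vert]
      refine ⟨_, ?_, rfl⟩
      rw [SetLike.mem_coe, mem_HH]
      intro i
      by_cases hi : i ∈ I
      · rw [mem_coord.1 hy i (by simpa using hi), map_zero]
        exact zero_mem _
      · simpa [ee, hi] using algebraMap_mem_FF_one τ (y i)
    · funext i
      simp [M, mulVec, dotProduct]

end Crest.Agent.R66
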