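import Mathlib

/-!
# Row 66 (S0088): bounded-degree `F₂`-coboundary expanders.  Definitions.

Overview of the proof (owner: helper24).
* `k` finite field of odd order `q` (large), `R = k[t]/t^s` (`Trunc`), `G = SL_n(R)`.
  For `I ⊆ n` the subgroup `PP τ I` = matrices with `deg g_{ij} ≤ [j ∈ I] - [i ∈ I]`.
  For a chain `𝓘` of subsets, `Zc τ 𝓘` is the coset complex (vertices `x P_I`, `I ∈ 𝓘`).
* links of `Zc` are complexes of flags of subspaces of `k^n` transversal to a fixed subspace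
  (`FlagCx`); they have chain contractions of bounded size (`HasCone`), hence are
  coboundary expanders (`CobExp`), and trickling down gives spectral gaps (`Spec`);
* local-to-global gives cocycle expansion, and `Zc` is `F₂`-acyclic in low degrees
  (Fourier + Morse + staircase arguments).
All cochains are functions `Finset α → ZMod 2`; "size `m`" = degree `m - 1` (augmented complex).
-/

set_option autoImplicit false

namespace Crest.Agent.R66

open Finset Module

/-! ## 1. Abstract complexes, cochains and chains over `F₂` -/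
section Cx
variable {α β : Type*} [DecidableEq α] [DecidableEq β]

/-- coboundary in the augmented cochain complex -/
def dl (F : Finset α → ZMod 2) (τ : Finset α) : ZMod 2 := ∑ v ∈ τ, F (τ.erase v)

def Down (K : Set (Finset α)) : Prop := ∀ σ ∈ K, ∀ τ, τ ⊆ σ → τ ∈ K

/-- `F` is a cocycle of size `m` on `K` -/
def Cocyc (K : Set (Finset α)) (m : ℕ) (F : Finset α → ZMod 2) : Prop :=
  ∀ τ ∈ K, τ.card = m + 1 → dl F τ = 0

/-- `F` is a coboundary of size `m` on `K` -/
def Cob (K : Set (Finset α)) (m : ℕ) (F : Finset α → ZMod 2) : Prop :=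
  ∃ G : Finset α → ZMod 2, ∀ σ ∈ K, σ.card = m → F σ = dl G σ

def Acyc (K : Set (Finset α)) (m : ℕ) : Prop := ∀ F, Cocyc K m F → Cob K m F

/-- relative acyclicity: cochains vanishing on the faces without a good vertex are exact -/
def RAcyc (K : Set (Finset α)) (good : α → Prop) (m : ℕ) : Prop :=
  ∀ F, Cocyc K m F → (∀ σ ∈ K, σ.card = m → (∀ v ∈ σ, ¬ good v) → F σ = 0) →
    ∃ G : Finset α → ZMod 2, (∀ σ, (∀ v ∈ σ, ¬ good v) → G σ = 0) ∧
      ∀ σ ∈ K, σ.card = m → F σ = dl G σ

/-- `f` induces an isomorphism of complexes `K ≃ K'` -/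
def Iso (K : Set (Finset α)) (K' : Set (Finset β)) (f : α → β) : Prop :=
  Set.InjOn f {v | ∃ σ ∈ K, v ∈ σ} ∧ (∀ σ ∈ K, σ.image f ∈ K') ∧
    ∀ σ' ∈ K', ∃ σ ∈ K, σ.image f = σ'

/-- chains -/
abbrev Ch (α : Type*) := Finset α →₀ ZMod 2

/-- boundary -/
noncomputable def bd : Ch α →ₗ[ZMod 2] Ch α :=
  Finsupp.linearCombination (ZMod 2) (fun σ => ∑ v ∈ σ, Finsupp.single (σ.erase v) 1)

/-- join with the vertex `v` (zero on faces containing `v`) -/
noncomputable def cone (v : α) : Ch α →ₗ[ZMod 2] Ch α :=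
  Finsupp.linearCombination (ZMod 2)
    (fun σ => if v ∈ σ then 0 else Finsupp.single (insert v σ) 1)

/-- link of the vertex `v` in a chain -/
noncomputable def lk (v : α) : Ch α →ₗ[ZMod 2] Ch α :=
  Finsupp.linearCombination (ZMod 2)
    (fun σ => if v ∈ σ then Finsupp.single (σ.erase v) 1 else 0)

/-- the chain `z` lives on faces of `K` with `i` vertices -/
def On (K : Set (Finset α)) (i : ℕ) (z : Ch α) : Prop := ∀ σ ∈ z.support, σ ∈ K ∧ σ.card = i

/-- cycles of size `< e` with at most `m` faces have fillings with at most `Φ` faces -/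
def Fill (K : Set (Finset α)) (e m Φ : ℕ) : Prop :=
  ∀ i < e, ∀ z : Ch α, On K i z → bd z = 0 → z.support.card ≤ m →
    ∃ y : Ch α, On K (i + 1) y ∧ bd y = z ∧ y.support.card ≤ Φ

/-- a chain contraction of radius `Ψ` on the faces of size `< e` -/
def HasCone (K : Set (Finset α)) (e Ψ : ℕ) : Prop :=
  ∃ c : Finset α → Ch α, ∀ σ ∈ K, σ.card < e →
    On K (σ.card + 1) (c σ) ∧ (c σ).support.card ≤ Ψ ∧
      bd (c σ) + ∑ v ∈ σ, c (σ.erase v) = Finsupp.single σ 1

/-- data of the Fourier argument: the finite `k`-space `U` acts on `α` via `a`, and `K` is the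
union of the translates of the copy `s K'` of `K'` -/
structure FData (k U : Type*) [Field k] [AddCommGroup U] [Module k U]
    (K : Set (Finset α)) (K' : Set (Finset β)) (a : U → α → α) (s : β → α) (m : ℕ) : Prop where
  zero : ∀ v, a 0 v = v
  add : ∀ u u' v, a (u + u') v = a u (a u' v)
  down : Down K'
  mem : ∀ σ, σ ∈ K ↔ ∃ u, ∃ σ' ∈ K', σ = σ'.image (fun v => a u (s v))
  inj : ∀ σ ∈ K', ∀ σ' ∈ K', ∀ v ∈ σ, ∀ w ∈ σ', ∀ u, a u (s v) = s w → v = w
  smul : ∀ σ ∈ K', ∀ v ∈ σ, ∀ (c : k) (u : U), a u (s v) = s v → a (c • u) (s v) = s v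
  nest : ∀ σ ∈ K', σ.Nonempty → ∃ v ∈ σ, ∀ w ∈ σ, ∀ u, a u (s v) = s v → a u (s w) = s w
  racyc : ∀ y : Module.Dual k U, y ≠ 0 → RAcyc K' (fun v => ∀ u, a u (s v) = s v → y u = 0) m

end Cx

/-! ## 2. Partite systems: a finite set `Ω` of chambers with vertex maps `π i` -/
section Sys
variable {ι Ω α : Type*} [DecidableEq ι] [DecidableEq α] [Fintype Ω]

/-- the face of colour set `T` of the chamber `x` -/
def face (π : ι → Ω → α) (T : Finset ι) (x : Ω) : Finset α := T.image (fun i => π i x)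

/-- vertices determine their colour -/
def Col (π : ι → Ω → α) : Prop := ∀ i j x y, π i x = π j y → i = j

/-- chambers sharing the `S`-face of `x` -/
def cl (π : ι → Ω → α) (S : Finset ι) (x : Ω) : Finset Ω :=
  univ.filter (fun y => ∀ i ∈ S, π i y = π i x)

/-- complex of the faces with colours in `U` of chambers in `C` -/
def cx (π : ι → Ω → α) (C : Finset Ω) (U : Finset ι) : Set (Finset α) :=
  {σ | ∃ T ⊆ U, ∃ x ∈ C, σ = face π T x}

/-- unnormalised weight of the size `m` cochain `F` -/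
def cnt (π : ι → Ω → α) (C : Finset Ω) (U : Finset ι) (m : ℕ) (F : Finset α → ZMod 2) : ℕ :=
  ∑ T ∈ U.powersetCard m, (C.filter (fun x => F (face π T x) ≠ 0)).card

/-- coboundary expansion (in all sizes below the top) -/
def CobExp (π : ι → Ω → α) (C : Finset Ω) (U : Finset ι) (K : ℕ) : Prop :=
  ∀ m < U.card, ∀ F : Finset α → ZMod 2, ∃ G : Finset α → ZMod 2,
    cnt π C U m (fun σ => F σ + dl G σ) ≤ K * cnt π C U (m + 1) (dl F)

/-- conditional expectation given the `S`-face -/
noncomputable def av (π : ι → Ω → α) (S : Finset ι) (φ : Ω → ℝ) (x : Ω) : ℝ :=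
  (∑ y ∈ cl π S x, φ y) / (cl π S x).card

/-- `φ` depends only on the `S`-face -/
def Meas (π : ι → Ω → α) (S : Finset ι) (φ : Ω → ℝ) : Prop :=
  ∀ x y, (∀ i ∈ S, π i x = π i y) → φ x = φ y

/-- spectral gap (squared) between the colour sets `A` and `B` in all links of type `S` -/
def Spec (π : ι → Ω → α) (S A B : Finset ι) (μ : ℝ) : Prop :=
  ∀ φ : Ω → ℝ, Meas π (S ∪ A) φ → (∀ x, av π S φ x = 0) →
    ∑ x, (av π (S ∪ B) φ x) ^ 2 ≤ μ * ∑ x, (φ x) ^ 2

/-- connectivity of all links of type `S` (colours `J`) -/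
def Conn (π : ι → Ω → α) (J S : Finset ι) : Prop :=
  ∀ φ : Ω → ℝ, (∀ c ∈ J, c ∉ S → Meas π (insert c S) φ) → Meas π S φ

end Sys

/-! ## 3. Flags -/
section Flags
variable {k V : Type*} [Field k] [AddCommGroup V] [Module k V]

noncomputable instance decSub : DecidableEq (Submodule k V) := Classical.decEq _

/-- a generic vector of a good `W₂` extends a good `W < W₂` to a good subspace -/
def GoodFam (𝒢 : Set (Submodule k V)) (κ : ℕ) : Prop :=
  ⊥ ∈ 𝒢 ∧ ⊤ ∈ 𝒢 ∧ ∀ W ∈ 𝒢, ∀ W₂ ∈ 𝒢, W < W₂ →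
    ∃ B : Finset (Submodule k V), B.card ≤ κ ∧ (∀ X ∈ B, ¬ W₂ ≤ X) ∧
      ∀ v ∈ W₂, (∀ X ∈ B, v ∉ X) → v ∉ W ∧ W ⊔ (k ∙ v) ∈ 𝒢

/-- good flags with dimensions in `U`, compatible with the fixed flag `φ` -/
def FlagCx (𝒢 : Set (Submodule k V)) (φ : Finset (Submodule k V)) (U : Finset ℕ) :
    Set (Finset (Submodule k V)) :=
  {σ | (∀ W ∈ σ, W ∈ 𝒢 ∧ finrank k W ∈ U) ∧
    IsChain (· ≤ ·) ((σ : Set (Submodule k V)) ∪ (φ : Set (Submodule k V)))}

def FlagOK (𝒢 : Set (Submodule k V)) (φ : Finset (Submodule k V)) (U : Finset ℕ) : Prop :=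
  ⊥ ∈ φ ∧ ⊤ ∈ φ ∧ (∀ W ∈ φ, W ∈ 𝒢 ∧ finrank k W ∉ U) ∧
    IsChain (· ≤ ·) (φ : Set (Submodule k V)) ∧ ∀ r ∈ U, r ≤ finrank k V

/-- subspaces transversal to `T` -/
def Tr (T : Submodule k V) : Set (Submodule k V) := {W | W ⊓ T = ⊥ ∨ W ⊔ T = ⊤}

/-- subspaces transversal to `T` and (unless zero) not contained in `K` -/
def TrK (T K : Submodule k V) : Set (Submodule k V) := {W | W = ⊥ ∨ (W ∈ Tr T ∧ ¬ W ≤ K)}

/-- coordinate subspace -/
def coord (k : Type*) [Field k] {n : Type*} (L : Finset n) : Submodule k (n → k) :=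
  Submodule.pi {i | i ∉ L} (fun _ => ⊥)

theorem mem_coord {n : Type*} {L : Finset n} {w : n → k} :
    w ∈ coord k L ↔ ∀ i, i ∉ L → w i = 0 := by
  simp [coord, Submodule.mem_pi]

end Flags

/-! ## 4. The group side -/

/-- abstract `k[t]/t^s`, `s ≥ 2` -/
structure Trunc (k R : Type) [Field k] [CommRing R] [Algebra k R] where
  t : R
  s : ℕ
  c0 : R →ₐ[k] k
  c1 : R →ₗ[k] k
  c0_t : c0 t = 0
  c1_one : c1 1 = 0
  c1_t : c1 t = 1
  pow_s : t ^ s = 0
  span_top : ∀ r : R, r ∈ Submodule.span k ((fun i : ℕ => t ^ i) '' Set.Iio s)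

section Grp
open Matrix
variable {k R : Type} [Field k] [CommRing R] [Algebra k R] (τ : Trunc k R)
variable {n n' ρ : Type} [Fintype n] [DecidableEq n] [Fintype n'] [DecidableEq n']
  [Fintype ρ] [DecidableEq ρ]

/-- polynomials of degree `< m` -/
def FF (m : ℕ) : Submodule k R := Submodule.span k ((fun i : ℕ => τ.t ^ i) '' Set.Iio m)

def ee (I : Finset n) (i : n) : ℕ := if i ∈ I then 1 else 0

abbrev SL (n R : Type) [Fintype n] [DecidableEq n] [CommRing R] := SpecialLinearGroup n R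

/-- underlying matrix (use this instead of `.1` / coercions: simp works better) -/
def mt (g : SL n R) : Matrix n n R := g.1

/-- constructor -/
def mkSL (M : Matrix n n R) (h : M.det = 1) : SL n R := ⟨M, h⟩

@[simp] theorem mt_mkSL (M : Matrix n n R) (h : M.det = 1) : mt (mkSL M h) = M := rfl
@[simp] theorem mt_mul (g h : SL n R) : mt (g * h) = mt g * mt h := rfl
@[simp] theorem mt_one : mt (1 : SL n R) = 1 := rfl
@[simp] theorem det_mt (g : SL n R) : (mt g).det = 1 := g.2
theorem mt_ext {g h : SL n R} (e : mt g = mt h) : g = h := Subtype.ext e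
@[simp] theorem mt_inv_mul (g : SL n R) : mt g⁻¹ * mt g = 1 := by
  rw [← mt_mul, inv_mul_cancel, mt_one]
@[simp] theorem mt_mul_inv (g : SL n R) : mt g * mt g⁻¹ = 1 := by
  rw [← mt_mul, mul_inv_cancel, mt_one]

theorem FF_mono {a b : ℕ} (h : a ≤ b) : FF τ a ≤ FF τ b :=
  Submodule.span_mono (Set.image_mono (Set.Iio_subset_Iio h))

theorem pow_mem_FF {i m : ℕ} (h : i < m) : τ.t ^ i ∈ FF τ m :=
  Submodule.subset_span ⟨i, h, rfl⟩

theorem FF_zero : FF τ 0 = ⊥ := by
  simp [FF]

theorem FF_mul {a b : ℕ} {x y : R} (hx : x ∈ FF τ a) (hy : y ∈ FF τ b) :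
    x * y ∈ FF τ (a + b - 1) := by
  induction hx using Submodule.span_induction with
  | mem x hx =>
    obtain ⟨i, hi, rfl⟩ := hx
    induction hy using Submodule.span_induction with
    | mem y hy =>
      obtain ⟨j, hj, rfl⟩ := hy
      simp only [Set.mem_Iio] at hi hj
      simp only [← pow_add]
      exact pow_mem_FF τ (by omega)
    | zero => simp
    | add y z _ _ hy hz => rw [mul_add]; exact add_mem hy hz
    | smul c y _ hy => rw [mul_smul_comm]; exact Submodule.smul_mem _ _ hy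
  | zero => simp
  | add x z _ _ hx hz => rw [add_mul]; exact add_mem hx hz
  | smul c x _ hx => rw [smul_mul_assoc]; exact Submodule.smul_mem _ _ hx

/-- the basic product rule for the degree pattern -/
theorem FF_mul_pat {a b c m : ℕ} (hb : b ≤ 1) (hc : c ≤ 1) {x y : R}
    (hx : x ∈ FF τ (1 + b - c)) (hy : y ∈ FF τ (m + a - b)) : x * y ∈ FF τ (m + a - c) := by
  by_cases h1 : 1 + b - c = 0
  · rw [h1, FF_zero] at hx; simp [(Submodule.mem_bot k).1 hx]
  by_cases h2 : m + a - b = 0
  · rw [h2, FF_zero] at hy; simp [(Submodule.mem_bot k).1 hy]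
  exact FF_mono τ (by omega) (FF_mul τ hx hy)

omit [Fintype n] in
theorem ee_le (I : Finset n) (i : n) : ee I i ≤ 1 := by unfold ee; split_ifs <;> simp

/-- the stabiliser of the standard vertex of colour `I` -/
def PP [Finite R] (I : Finset n) : Subgroup (SL n R) where
  carrier := {g | ∀ i j, mt g i j ∈ FF τ (1 + ee I j - ee I i)}
  mul_mem' := by
    intro g h hg hh i j
    simp only [mt_mul, Matrix.mul_apply]
    exact Submodule.sum_mem _ fun l _ => FF_mul_pat τ (ee_le I l) (ee_le I i) (hg i l) (hh l j)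
  one_mem' := by
    intro i j
    by_cases hij : i = j
    · subst hij
      simp only [mt_one, Matrix.one_apply_eq, Nat.add_sub_cancel]
      simpa using pow_mem_FF τ (i := 0) (m := 1) one_pos
    · simp [Matrix.one_apply_ne hij]
  inv_mem' := by
    intro g hg
    have key : ∀ m : ℕ, ∀ i j, mt (g ^ m) i j ∈ FF τ (1 + ee I j - ee I i) := by
      intro m
      induction m with
      | zero =>
        intro i j
        by_cases hij : i = j
        · subst hij
          simp only [pow_zero, mt_one, Matrix.one_apply_eq, Nat.add_sub_cancel]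
          simpa using pow_mem_FF τ (i := 0) (m := 1) one_pos
        · simp [Matrix.one_apply_ne hij]
      | succ m ih =>
        intro i j
        rw [pow_succ]
        simp only [mt_mul, Matrix.mul_apply]
        exact Submodule.sum_mem _ fun l _ => FF_mul_pat τ (ee_le I l) (ee_le I i) (ih i l) (hg l j)
    have h1 : g⁻¹ = g ^ (orderOf g - 1) := by
      have hpos : 0 < orderOf g := orderOf_pos g
      apply inv_eq_of_mul_eq_one_right
      rw [← pow_succ', Nat.sub_add_cancel hpos, pow_orderOf_eq_one]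
    rw [h1]
    exact key _

theorem mem_PP [Finite R] {I : Finset n} {g : SL n R} :
    g ∈ PP τ I ↔ ∀ i j, mt g i j ∈ FF τ (1 + ee I j - ee I i) := Iff.rfl

/-- sections of the `m`-th twist of the standard vertex of colour `I` -/
def HH (I : Finset n) (m : ℕ) : Submodule k (n → R) :=
  Submodule.pi Set.univ (fun i => FF τ (m + 1 - ee I i))

omit [Fintype n] in
theorem mem_HH {I : Finset n} {m : ℕ} {w : n → R} :
    w ∈ HH τ I m ↔ ∀ i, w i ∈ FF τ (m + 1 - ee I i) := by
  simp [HH, Submodule.mem_pi]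

theorem mulVec_mem_HH [Finite R] {I : Finset n} {m : ℕ} {g : SL n R} (hg : g ∈ PP τ I)
    {w : n → R} (hw : w ∈ HH τ I m) : mt g *ᵥ w ∈ HH τ I m := by
  rw [mem_HH] at hw ⊢
  intro i
  simp only [Matrix.mulVec, dotProduct]
  exact Submodule.sum_mem _ fun l _ => FF_mul_pat τ (ee_le I l) (ee_le I i) (hg i l) (hw l)

/-- ambient vertex type: a colour and a set of group elements (a coset for genuine vertices) -/
@[ext] structure Vx (n R : Type) [Fintype n] [DecidableEq n] [CommRing R] where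
  col : Finset n
  cos : Set (SL n R)

noncomputable instance decVx : DecidableEq (Vx n R) := Classical.decEq _

noncomputable instance finSL [Finite R] : Fintype (SL n R) := Fintype.ofFinite _

instance : MulAction (SL n R) (Vx n R) where
  smul g v := ⟨v.col, {y | g⁻¹ * y ∈ v.cos}⟩
  one_smul v := by
    apply Vx.ext
    · rfl
    · ext y; show (1 : SL n R)⁻¹ * y ∈ v.cos ↔ _; simp
  mul_smul g h v := by
    apply Vx.ext
    · rfl
    · ext y; show (g * h)⁻¹ * y ∈ v.cos ↔ h⁻¹ * (g⁻¹ * y) ∈ v.cos; simp [mul_assoc]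

@[simp] theorem smul_col (g : SL n R) (v : Vx n R) : (g • v).col = v.col := rfl
theorem mem_smul_cos {g y : SL n R} {v : Vx n R} : y ∈ (g • v).cos ↔ g⁻¹ * y ∈ v.cos := Iff.rfl

variable [Finite R]

/-- the vertex `x P_I` -/
def vert (I : Finset n) (x : SL n R) : Vx n R := ⟨I, {y | x⁻¹ * y ∈ PP τ I}⟩

@[simp] theorem vert_col (I : Finset n) (x : SL n R) : (vert τ I x).col = I := rfl
theorem mem_vert_cos {I : Finset n} {x y : SL n R} :
    y ∈ (vert τ I x).cos ↔ x⁻¹ * y ∈ PP τ I := Iff.rfl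

theorem smul_vert (g : SL n R) (I : Finset n) (x : SL n R) :
    g • vert τ I x = vert τ I (g * x) := by
  apply Vx.ext
  · rfl
  · ext y; simp [mem_smul_cos, mem_vert_cos, mul_assoc]

theorem vert_eq_iff {I I' : Finset n} {x x' : SL n R} :
    vert τ I x = vert τ I' x' ↔ I = I' ∧ x⁻¹ * x' ∈ PP τ I := by
  constructor
  · intro h
    have h1 : I = I' := congrArg Vx.col h
    subst h1
    refine ⟨rfl, ?_⟩
    rw [← mem_vert_cos, h, mem_vert_cos]; simp
  · rintro ⟨rfl, h⟩
    apply Vx.ext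
    · rfl
    · ext y
      simp only [mem_vert_cos]
      constructor
      · intro hy
        have := (PP τ I).mul_mem ((PP τ I).inv_mem h) hy
        simpa [mul_assoc] using this
      · intro hy
        have := (PP τ I).mul_mem h hy
        simpa [mul_assoc] using this

theorem vert_mul_of_mem {I : Finset n} (x : SL n R) {p : SL n R} (hp : p ∈ PP τ I) :
    vert τ I (x * p) = vert τ I x := by
  symm; rw [vert_eq_iff]; simpa using hp

theorem col_vert : Col (vert τ (n := n)) := fun _ _ _ _ h => ((vert_eq_iff τ).1 h).1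

theorem mem_cl_vert {S : Finset (Finset n)} {x y : SL n R} :
    y ∈ cl (vert τ) S x ↔ ∀ I ∈ S, x⁻¹ * y ∈ PP τ I := by
  simp only [cl, mem_filter, mem_univ, true_and]
  refine forall₂_congr fun I _ => ?_
  rw [eq_comm, vert_eq_iff]; simp

/-- the coset complex with colours `𝓘` -/
def Zc (𝓘 : Finset (Finset n)) : Set (Finset (Vx n R)) := cx (vert τ) univ 𝓘

/-- admissible colour sets -/
def ChainOK (𝓘 : Finset (Finset n)) : Prop :=
  IsChain (· ⊆ ·) (𝓘 : Set (Finset n)) ∧ ¬ (∅ ∈ 𝓘 ∧ univ ∈ 𝓘)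

/-- index set of the standard subspace of `k^n` attached to the colour `I'` in the link of `I` -/
def LL (I I' : Finset n) : Finset n := if I' ⊆ I then I \ I' else I ∪ I'ᶜ

/-- the action of `P_I` on the link space `k^n` -/
def bar (I : Finset n) (p : SL n R) : Matrix n n k :=
  Matrix.of fun i j => if i ∉ I ∧ j ∈ I then τ.c1 (mt p i j) else τ.c0 (mt p i j)

def Wsp (I : Finset n) (p : SL n R) (L : Finset n) : Submodule k (n → k) :=
  (coord k L).map (bar τ I p).mulVecLin

/-- subspace attached to a vertex `v` in the link of `vert I x` -/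
noncomputable def lam (I : Finset n) (x : SL n R) (v : Vx n R) : Submodule k (n → k) :=
  sSup {W | ∃ p ∈ PP τ I, x * p ∈ v.cos ∧ W = Wsp τ I p (LL I v.col)}

/-- the sections `A(v)` of a vertex -/
def Asec (v : Vx n R) : Set (n → R) := {w | ∃ x ∈ v.cos, ∃ w₀ ∈ HH τ v.col 0, w = mt x *ᵥ w₀}

/-- faces all of whose vertices have all elements of `S` as sections -/
def KS (𝓘 : Finset (Finset n)) (S : Finset (n → R)) : Set (Finset (Vx n R)) :=
  {σ | σ ∈ Zc τ 𝓘 ∧ ∀ v ∈ σ, ∀ w ∈ S, w ∈ Asec τ v}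

/-- linear independence mod `t` -/
def Unimod (S : Finset (n → R)) : Prop :=
  LinearIndepOn k (fun w : n → R => fun i => τ.c0 (w i)) (S : Set (n → R))

/-- vertex map induced by a group homomorphism `Θ` and a colour map `c` -/
def vmap (Θ : SL n R →* SL n' R) (c : Finset n → Finset n') (v : Vx n R) : Vx n' R :=
  ⟨c v.col, {y | ∃ x ∈ v.cos, (Θ x)⁻¹ * y ∈ PP τ (c v.col)}⟩

theorem vmap_vert (Θ : SL n R →* SL n' R) (c : Finset n → Finset n') {I : Finset n}
    (h : ∀ g ∈ PP τ I, Θ g ∈ PP τ (c I)) (x : SL n R) :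
    vmap τ Θ c (vert τ I x) = vert τ (c I) (Θ x) := by
  apply Vx.ext
  · rfl
  · ext y
    simp only [vmap, vert_col, Set.mem_ofPred_eq, mem_vert_cos]
    constructor
    · rintro ⟨x', hx', hy⟩
      have := (PP τ (c I)).mul_mem (h _ hx') hy
      simpa [mul_assoc] using this
    · intro hy
      exact ⟨x, by simp, hy⟩

omit [Finite R] in
/-- block embedding `x ↦ diag(1, x)` -/
def sG (ρ : Type) [Fintype ρ] [DecidableEq ρ] : SL n R →* SL (ρ ⊕ n) R where
  toFun x := mkSL (fromBlocks 1 0 0 (mt x)) (by simp [det_fromBlocks_zero₂₁])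
  map_one' := by apply mt_ext; simp
  map_mul' x y := by apply mt_ext; simp [fromBlocks_multiply]

omit [Finite R] in
@[simp] theorem mt_sG (x : SL n R) : mt (sG ρ x) = fromBlocks 1 0 0 (mt x) := rfl

omit [Finite R] in
/-- upper unipotent block -/
def uG (u : Matrix ρ n R) : SL (ρ ⊕ n) R := mkSL (fromBlocks 1 u 0 1) (by simp)

omit [Finite R] in
@[simp] theorem mt_uG (u : Matrix ρ n R) : mt (uG u) = fromBlocks 1 u 0 1 := rfl

omit [Finite R] in
/-- lower unipotent block -/
def lG (u : Matrix n ρ R) : SL (ρ ⊕ n) R := mkSL (fromBlocks 1 0 u 1) (by simp)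

omit [Finite R] in
@[simp] theorem mt_lG (u : Matrix n ρ R) : mt (lG u) = fromBlocks 1 0 u 1 := rfl

/-- colours of `ρ ⊕ n` avoiding `ρ` -/
def extc (ρ : Type) (I : Finset n) : Finset (ρ ⊕ n) := I.map Function.Embedding.inr

/-- the section `Zc 𝓘 → Zc (𝓘.image (extc ρ))` -/
def sV (ρ : Type) [Fintype ρ] [DecidableEq ρ] : Vx n R → Vx (ρ ⊕ n) R :=
  vmap τ (sG ρ) (extc ρ)

/-- the standard basis vectors indexed by `ρ` -/
def stdS (ρ n R : Type) [Fintype ρ] [DecidableEq ρ] [Fintype n] [DecidableEq n] [CommRing R]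
    [DecidableEq R] : Finset (ρ ⊕ n → R) :=
  univ.image (fun a : ρ => Pi.single (Sum.inl a) (1 : R))

omit [Finite R] in
/-- inverse transpose -/
def thG : SL n R →* SL n R where
  toFun x := mkSL (mt x⁻¹)ᵀ (by simp)
  map_one' := by apply mt_ext; simp
  map_mul' x y := by apply mt_ext; simp [transpose_mul]

omit [Finite R] in
@[simp] theorem mt_thG (x : SL n R) : mt (thG x) = (mt x⁻¹)ᵀ := rfl

omit [Finite R] in
/-- reindexing -/
def reG (e : n ≃ n') : SL n R →* SL n' R where
  toFun x := mkSL (reindex e e (mt x)) (by simp)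
  map_one' := by apply mt_ext; simp
  map_mul' x y := by apply mt_ext; simp

omit [Finite R] in
@[simp] theorem mt_reG (e : n ≃ n') (x : SL n R) : mt (reG e x) = reindex e e (mt x) := rfl

end Grp

end Crest.Agent.R66
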