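import Crest.Agent.R66.Basic
import Crest.Prelude.Def_Cochain

/-! # Row 66: from partite systems to the statement (task FI) -/

set_option autoImplicit false

namespace Crest.Agent.R66

open Finset Crest.CombinatoricsR

theorem sum_powersetCard_eq_dl {β : Type*} [DecidableEq β] (f : Finset β → ZMod 2) {τ : Finset β}
    {j : ℕ} (h : τ.card = j + 1) : ∑ σ ∈ τ.powersetCard j, f σ = dl f τ := by
  symm
  refine sum_bij (fun v _ => τ.erase v) (fun v hv => ?_) (fun v hv w hw e => ?_) (fun σ hσ => ?_)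
    (fun _ _ => rfl)
  · exact mem_powersetCard.2 ⟨erase_subset _ _, by rw [card_erase_of_mem hv, h]; rfl⟩
  · exact erase_injOn τ hv hw e
  · obtain ⟨h1, h2⟩ := mem_powersetCard.1 hσ
    obtain ⟨v, hv, hv'⟩ := exists_mem_notMem_of_card_lt_card (by omega : σ.card < τ.card)
    refine ⟨v, hv, (eq_of_subset_of_card_le (fun w hw => mem_erase.2 ⟨?_, h1 hw⟩) ?_).symm⟩
    · rintro rfl; exact hv' hw
    · rw [card_erase_of_mem hv]; omega

section
variable {ι Ω α : Type*} [DecidableEq ι] [DecidableEq α] [Fintype Ω] {π : ι → Ω → α}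

omit [DecidableEq ι] in
theorem cnt_congr {C : Finset Ω} {U : Finset ι} {m : ℕ} {F G : Finset α → ZMod 2}
    (h : ∀ T ⊆ U, T.card = m → ∀ x, F (face π T x) = G (face π T x)) :
    cnt π C U m F = cnt π C U m G :=
  sum_congr rfl fun T hT => by
    obtain ⟨h1, h2⟩ := mem_powersetCard.1 hT
    simp only [h T h1 h2]

omit [DecidableEq ι] in
theorem cnt_eq_card (U : Finset ι) (m : ℕ) (F : Finset α → ZMod 2) : cnt π univ U m F =
    ((U.powersetCard m ×ˢ (univ : Finset Ω)).filter (fun p => F (face π p.1 p.2) ≠ 0)).card := by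
  rw [cnt, card_filter, sum_product]
  simp only [card_filter]

omit [DecidableEq ι] in
theorem eq_zero_of_cnt {U : Finset ι} {m : ℕ} {F : Finset α → ZMod 2} (h : cnt π univ U m F = 0)
    {T : Finset ι} (hT : T ⊆ U) (hm : T.card = m) (x : Ω) : F (face π T x) = 0 := by
  rw [cnt_eq_card, card_eq_zero, filter_eq_empty_iff] at h
  by_contra hne
  exact h (x := (T, x)) (mem_product.2 ⟨mem_powersetCard.2 ⟨hT, hm⟩, mem_univ _⟩) hne

variable {n : ℕ}

/-- the top faces -/
def topF (π : ι → Ω → α) (J : Finset ι) (d : ℕ) (idx : α → Fin n) : Finset (Finset (Fin n)) :=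
  (J.powersetCard (d + 1) ×ˢ (univ : Finset Ω)).image (fun p => (face π p.1 p.2).image idx)

/-- support of a cochain on the faces -/
def suppF (T : Finset (Finset (Fin n))) (m : ℕ) (f : Finset (Fin n) → ZMod 2) :
    Finset (Finset (Fin n)) :=
  (univ.powersetCard m).filter (fun σ => f σ ≠ 0 ∧ ∃ τ ∈ T, σ ⊆ τ)

theorem norm_ge (d : ℕ) (T : Finset (Finset (Fin n))) (i : ℕ) (f : Finset (Fin n) → ZMod 2) :
    ((suppF T (i + 1) f).card : ℝ) / ((Nat.choose (d + 1) (i + 1) : ℝ) * T.card) ≤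
      Cochain.cochainNorm d T i f := by
  unfold Cochain.cochainNorm Cochain.faceWeight
  rw [← sum_div]
  gcongr
  rw [card_eq_sum_ones]
  push_cast
  refine (sum_le_sum fun σ hσ => ?_).trans (sum_le_sum_of_subset_of_nonneg
    (s := suppF T (i + 1) f) (fun σ hσ => ?_) (fun _ _ _ => by positivity))
  · obtain ⟨τ, h1, h2⟩ := (mem_filter.1 hσ).2.2
    exact_mod_cast card_pos.2 ⟨τ, mem_filter.2 ⟨h1, h2⟩⟩
  · exact mem_filter.2 ⟨(mem_filter.1 hσ).1, (mem_filter.1 hσ).2.1⟩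

theorem norm_le (d : ℕ) (T : Finset (Finset (Fin n))) {D : ℕ}
    (hD : ∀ v, Cochain.vertexDegree T v ≤ D) (i : ℕ) (f : Finset (Fin n) → ZMod 2) :
    Cochain.cochainNorm d T i f ≤
      (D * (suppF T (i + 1) f).card : ℝ) / ((Nat.choose (d + 1) (i + 1) : ℝ) * T.card) := by
  unfold Cochain.cochainNorm Cochain.faceWeight
  rw [← sum_div]
  gcongr
  rw [← sum_subset (s₁ := suppF T (i + 1) f)
    (fun σ hσ => mem_filter.2 ⟨(mem_filter.1 hσ).1, (mem_filter.1 hσ).2.1⟩)]
  · rw [mul_comm, ← nsmul_eq_mul]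
    refine sum_le_card_nsmul _ _ _ fun σ hσ => ?_
    have hc := (mem_powersetCard.1 (mem_filter.1 hσ).1).2
    obtain ⟨v, hv⟩ : σ.Nonempty := card_pos.1 (by omega)
    have : (T.filter (fun τ => σ ⊆ τ)).card ≤ Cochain.vertexDegree T v :=
      card_le_card fun τ hτ => mem_filter.2 ⟨(mem_filter.1 hτ).1, (mem_filter.1 hτ).2 hv⟩
    exact_mod_cast this.trans (hD v)
  · intro σ hσ hσ'
    rw [Nat.cast_eq_zero, card_eq_zero, filter_eq_empty_iff]
    intro τ hτ h
    exact hσ' (mem_filter.2 ⟨(mem_filter.1 hσ).1, (mem_filter.1 hσ).2, τ, hτ, h⟩)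

variable {J : Finset ι} {idx : α → Fin n} {d : ℕ}

omit [DecidableEq ι] [Fintype Ω] in
theorem injOn_face (hidx : Set.InjOn idx {v | ∃ i ∈ J, ∃ x, π i x = v}) {T : Finset ι}
    (hT : T ⊆ J) (x : Ω) : Set.InjOn idx (face π T x) := by
  refine hidx.mono fun v hv => ?_
  obtain ⟨i, hi, rfl⟩ := mem_face.1 hv
  exact ⟨i, hT hi, x, rfl⟩

omit [DecidableEq ι] [Fintype Ω] in
theorem card_fc (hπ : Col π) (hidx : Set.InjOn idx {v | ∃ i ∈ J, ∃ x, π i x = v}) {T : Finset ι}
    (hT : T ⊆ J) (x : Ω) : ((face π T x).image idx).card = T.card := by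
  rw [card_image_of_injOn (injOn_face hidx hT x), card_face hπ]

omit [DecidableEq ι] [Fintype Ω] in
theorem mem_fc (hπ : Col π) (hidx : Set.InjOn idx {v | ∃ i ∈ J, ∃ x, π i x = v}) {T : Finset ι}
    (hT : T ⊆ J) {i : ι} (hi : i ∈ J) {x y : Ω} :
    idx (π i y) ∈ (face π T x).image idx ↔ i ∈ T ∧ π i y = π i x := by
  rw [← pi_mem_face hπ]
  refine ⟨fun h => ?_, mem_image_of_mem _⟩
  obtain ⟨v, hv, e⟩ := mem_image.1 h
  obtain ⟨j, hj, rfl⟩ := mem_face.1 hv
  rwa [← hidx ⟨j, hT hj, x, rfl⟩ ⟨i, hi, y, rfl⟩ e]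

theorem fc_sub_top (hJ : J.card = d + 2) {T : Finset ι} (hT : T ⊆ J) (hc : T.card ≤ d + 1)
    (x : Ω) : ∃ τ ∈ topF π J d idx, (face π T x).image idx ⊆ τ := by
  obtain ⟨T', h1, h2, h3⟩ := exists_subsuperset_card_eq hT hc (by omega)
  exact ⟨_, mem_image.2 ⟨(T', x), mem_product.2 ⟨mem_powersetCard.2 ⟨h2, h3⟩, mem_univ _⟩, rfl⟩,
    image_subset_image (image_subset_image h1)⟩

theorem supp_le_cnt (hπ : Col π) (hidx : Set.InjOn idx {v | ∃ i ∈ J, ∃ x, π i x = v}) (m : ℕ)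
    (f : Finset (Fin n) → ZMod 2) :
    (suppF (topF π J d idx) m f).card ≤ cnt π univ J m (fun σ => f (σ.image idx)) := by
  rw [cnt_eq_card]
  refine card_le_card_of_surjOn (fun p => (face π p.1 p.2).image idx) fun σ hσ => ?_
  obtain ⟨h1, h2, τ, h3, h4⟩ := mem_filter.1 (mem_coe.1 hσ)
  obtain ⟨⟨T, x⟩, hp, rfl⟩ := mem_image.1 h3
  have hT : T ⊆ J := (mem_powersetCard.1 (mem_product.1 hp).1).1
  have e : (face π (T.filter fun i => idx (π i x) ∈ σ) x).image idx = σ := by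
    ext v
    simp only [face, image_image, mem_image, mem_filter, Function.comp]
    constructor
    · rintro ⟨i, ⟨_, hi⟩, rfl⟩; exact hi
    · intro hv
      have := h4 hv
      simp only [face, image_image, mem_image, Function.comp] at this
      obtain ⟨i, hi, rfl⟩ := this
      exact ⟨i, ⟨hi, hv⟩, rfl⟩
  have hT' : (T.filter fun i => idx (π i x) ∈ σ) ⊆ J := (filter_subset _ _).trans hT
  refine ⟨(T.filter fun i => idx (π i x) ∈ σ, x), mem_coe.2 (mem_filter.2 ⟨mem_product.2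
    ⟨mem_powersetCard.2 ⟨hT', ?_⟩, mem_univ _⟩, ?_⟩), e⟩
  · rw [← card_fc hπ hidx hT' x, e]; exact (mem_powersetCard.1 h1).2
  · simpa only [e] using h2

theorem cnt_le_supp (hπ : Col π) (hidx : Set.InjOn idx {v | ∃ i ∈ J, ∃ x, π i x = v})
    (hJ : J.card = d + 2) {Q : ℕ} (hQ : ∀ i ∈ J, ∀ x, (cl π {i} x).card ≤ Q) {m : ℕ} (hm : 1 ≤ m)
    (hm' : m ≤ d + 1) (f : Finset (Fin n) → ZMod 2) :
    cnt π univ J m (fun σ => f (σ.image idx)) ≤ Q * (suppF (topF π J d idx) m f).card := by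
  classical
  rw [cnt_eq_card]
  refine card_le_mul_card_image_of_maps_to (f := fun p => (face π p.1 p.2).image idx)
    (fun p hp => ?_) Q fun σ _ => ?_
  · obtain ⟨h1, h2⟩ := mem_filter.1 hp
    obtain ⟨h3, h4⟩ := mem_powersetCard.1 (mem_product.1 h1).1
    exact mem_filter.2 ⟨mem_powersetCard.2 ⟨subset_univ _, by rw [card_fc hπ hidx h3, h4]⟩, h2,
      fc_sub_top hJ h3 (by omega) _⟩
  · rcases eq_empty_or_nonempty (((J.powersetCard m ×ˢ (univ : Finset Ω)).filter
      (fun p => f ((face π p.1 p.2).image idx) ≠ 0)).filter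
        (fun p => (face π p.1 p.2).image idx = σ)) with h | ⟨p₀, hp₀⟩
    · rw [h]; simp
    have hsub : ∀ p ∈ ((J.powersetCard m ×ˢ (univ : Finset Ω)).filter
      (fun p => f ((face π p.1 p.2).image idx) ≠ 0)).filter
        (fun p => (face π p.1 p.2).image idx = σ), p.1 ⊆ J ∧ p.1.card = m ∧
          (face π p.1 p.2).image idx = σ := fun p hp => by
      obtain ⟨h1, h2⟩ := mem_filter.1 hp
      obtain ⟨h3, h4⟩ := mem_powersetCard.1 (mem_product.1 (mem_filter.1 h1).1).1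
      exact ⟨h3, h4, h2⟩
    obtain ⟨a1, a2, a3⟩ := hsub p₀ hp₀
    obtain ⟨i, hi⟩ : p₀.1.Nonempty := card_pos.1 (by omega)
    refine le_trans (card_le_card_of_injOn Prod.snd (fun p hp => ?_) fun p hp p' hp' e => ?_)
      (hQ i (a1 hi) p₀.2)
    · obtain ⟨b1, _, b3⟩ := hsub p hp
      have : idx (π i p₀.2) ∈ (face π p.1 p.2).image idx := by
        rw [b3, ← a3]; exact (mem_fc hπ hidx a1 (a1 hi)).2 ⟨hi, rfl⟩
      exact mem_coe.2 (mem_cl.2 fun j hj => by
        rw [mem_singleton.1 hj]; exact ((mem_fc hπ hidx b1 (a1 hi)).1 this).2.symm)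
    · obtain ⟨b1, b2, b3⟩ := hsub p hp
      obtain ⟨c1, c2, c3⟩ := hsub p' hp'
      refine Prod.ext (eq_of_subset_of_card_le (fun j hj => ?_) (by omega)) e
      have : idx (π j p.2) ∈ (face π p'.1 p'.2).image idx := by
        rw [c3, ← b3]; exact (mem_fc hπ hidx b1 (b1 hj)).2 ⟨hj, rfl⟩
      exact ((mem_fc hπ hidx c1 (b1 hj)).1 this).1

theorem deg_le (hπ : Col π) (hidx : Set.InjOn idx {v | ∃ i ∈ J, ∃ x, π i x = v})
    (hJ : J.card = d + 2) {Q : ℕ} (hQ : ∀ i ∈ J, ∀ x, (cl π {i} x).card ≤ Q) {i : ι} (hi : i ∈ J)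
    (x : Ω) : Cochain.vertexDegree (topF π J d idx) (idx (π i x)) ≤ 2 ^ (d + 2) * Q := by
  have hsub : (topF π J d idx).filter (fun τ => idx (π i x) ∈ τ) ⊆
      (J.powerset ×ˢ cl π {i} x).image (fun p => (face π p.1 p.2).image idx) := by
    intro τ hτ
    obtain ⟨h1, h2⟩ := mem_filter.1 hτ
    obtain ⟨p, hp, rfl⟩ := mem_image.1 h1
    have hT := (mem_powersetCard.1 (mem_product.1 hp).1).1
    refine mem_image.2 ⟨p, mem_product.2 ⟨mem_powerset.2 hT, mem_cl.2 fun j hj => ?_⟩, rfl⟩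
    rw [mem_singleton.1 hj]
    exact ((mem_fc hπ hidx hT hi).1 h2).2.symm
  refine (card_le_card hsub).trans (card_image_le.trans ?_)
  rw [card_product, card_powerset, hJ]
  exact Nat.mul_le_mul_left _ (hQ i hi x)

end

/-- Vertices: `Vt = J.biUnion (fun i => univ.image (π i))`, `n = |Vt|`, `idx : α → Fin n` injective
on `Vt`; `T` = images of the faces `face π T' x`, `T' ⊆ J`, `|T'| = d + 1`; `D = 2^(d+2) Q`.
For a face `σ` of size `1 ≤ m ≤ d+1` the number of top faces containing it is in `[1, D]` and the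
number of pairs `(T', x)` with `face T' x = σ` is in `[1, Q]`; non-faces have weight `0`.  With
`F σ = f (σ.image idx)`: `‖f - b‖ ≤ D cnt/(C_i |T|) ≤ D K' cnt'/(C_i |T|) ≤ D K' Q 2^(d+1) ‖δ f‖`.
`coboundary i f = dl f` on sets of size `i + 2`; `b` = constant `G ∅` for `i = 0`,
`coboundary (i-1) (G ∘ image idx⁻¹)` otherwise.  Connectivity: apply size `m = 1` to the indicator
of the vertices reachable from a fixed one. -/
theorem fin_abs (d Q K' : ℕ) (hd : 1 ≤ d) : ∃ D : ℕ, ∃ ε : ℝ, 0 < ε ∧ ∀ (ι Ω α : Type)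
    [DecidableEq ι] [DecidableEq α] [Fintype Ω] [Nonempty Ω] (π : ι → Ω → α) (J : Finset ι),
    Col π → J.card = d + 2 → (∀ i ∈ J, ∀ x, (cl π {i} x).card ≤ Q) →
    (∀ m, 1 ≤ m → m ≤ d → ∀ F : Finset α → ZMod 2, ∃ G : Finset α → ZMod 2,
      cnt π univ J m (fun σ => F σ + dl G σ) ≤ K' * cnt π univ J (m + 1) (dl F)) →
    ∀ N : ℕ, N * Q ≤ Fintype.card Ω → ∃ n : ℕ, ∃ T : Finset (Finset (Fin n)), N ≤ n ∧
      (∀ τ ∈ T, τ.card = d + 1) ∧
      (∀ v : Fin n, 1 ≤ Cochain.vertexDegree T v ∧ Cochain.vertexDegree T v ≤ D) ∧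
      (Cochain.skeleton T).Connected ∧
      ∀ i : ℕ, i < d → ∀ f : Finset (Fin n) → ZMod 2,
        ∃ b : Finset (Fin n) → ZMod 2, Cochain.IsCoboundaryClass i b ∧
          ε * Cochain.cochainNorm d T i (f - b) ≤
            Cochain.cochainNorm d T (i + 1) (Cochain.coboundary i f) := by
  refine ⟨2 ^ (d + 2) * Q, 1 / ((2 ^ (d + 2) * Q * K' * Q * 2 ^ (d + 1) : ℕ) + 1), by positivity, ?_⟩
  intro ι Ω α _ _ _ _ π J hπ hJ hQ hexp N hN
  classical
  set Vt : Finset α := J.biUnion (fun i => univ.image (π i)) with hVt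
  have hmemV : ∀ v, v ∈ Vt ↔ ∃ i ∈ J, ∃ x, π i x = v := by simp [hVt]
  obtain ⟨i₀, hi₀⟩ : J.Nonempty := card_pos.1 (by omega)
  obtain ⟨x₀⟩ : Nonempty Ω := inferInstance
  have hv₀ : π i₀ x₀ ∈ Vt := (hmemV _).2 ⟨i₀, hi₀, x₀, rfl⟩
  let e := Vt.equivFin
  let idx : α → Fin Vt.card := fun v => if h : v ∈ Vt then e ⟨v, h⟩ else e ⟨_, hv₀⟩
  let g : Fin Vt.card → α := fun j => (e.symm j).1
  have hg : ∀ v ∈ Vt, g (idx v) = v := fun v hv => by simp [g, idx, hv]
  have hidx : Set.InjOn idx {v | ∃ i ∈ J, ∃ x, π i x = v} := fun v hv w hw h => by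
    rw [← hg v ((hmemV v).2 hv), h, hg w ((hmemV w).2 hw)]
  have hsurj : ∀ j, ∃ i ∈ J, ∃ x, idx (π i x) = j := fun j => by
    obtain ⟨i, hi, x, hx⟩ := (hmemV _).1 (e.symm j).2
    exact ⟨i, hi, x, by rw [hx]; simp [idx]⟩
  have hdeg : ∀ v, Cochain.vertexDegree (topF π J d idx) v ≤ 2 ^ (d + 2) * Q := fun v => by
    obtain ⟨i, hi, x, rfl⟩ := hsurj v
    exact deg_le hπ hidx hJ hQ hi x
  have hQ1 : 0 < Q := (card_cl_pos {i₀} x₀).trans_le (hQ i₀ hi₀ x₀)
  refine ⟨Vt.card, topF π J d idx, ?_, ?_, fun v => ⟨?_, hdeg v⟩, ?_, ?_⟩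
  · have h1 : (univ : Finset Ω).card ≤ Q * Vt.card :=
      card_le_mul_card_image_of_maps_to (f := π i₀) (fun x _ => (hmemV _).2 ⟨i₀, hi₀, x, rfl⟩) Q
        fun v _ => by
          rcases (univ.filter (fun x => π i₀ x = v)).eq_empty_or_nonempty with h | ⟨x, hx⟩
          · rw [h]; simp
          · refine le_trans (card_le_card fun y hy => mem_cl.2 fun j hj => ?_) (hQ i₀ hi₀ x)
            rw [mem_singleton.1 hj, (mem_filter.1 hy).2, (mem_filter.1 hx).2]
    rw [card_univ] at h1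
    exact Nat.le_of_mul_le_mul_right (hN.trans (h1.trans (mul_comm _ _).le)) hQ1
  · intro τ hτ
    obtain ⟨p, hp, rfl⟩ := mem_image.1 hτ
    obtain ⟨h1, h2⟩ := mem_powersetCard.1 (mem_product.1 hp).1
    rw [card_fc hπ hidx h1, h2]
  · obtain ⟨i, hi, x, rfl⟩ := hsurj v
    obtain ⟨τ, h1, h2⟩ := fc_sub_top (π := π) (idx := idx) hJ (singleton_subset_iff.2 hi)
      (by simp) x
    exact card_pos.2 ⟨τ, mem_filter.2 ⟨h1, h2 (by simp [face])⟩⟩
  · have : Nonempty (Fin Vt.card) := ⟨idx (π i₀ x₀)⟩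
    refine ⟨fun u v => ?_⟩
    let F : Finset α → ZMod 2 := fun σ =>
      if ∃ w ∈ σ, (Cochain.skeleton (topF π J d idx)).Reachable u (idx w) then 1 else 0
    obtain ⟨G, hG⟩ := hexp 1 le_rfl hd F
    have h0 : cnt π univ J (1 + 1) (dl F) = 0 := by
      rw [cnt_eq_card, card_eq_zero, filter_eq_empty_iff]
      rintro ⟨T, x⟩ hp
      obtain ⟨h1, h2⟩ := mem_powersetCard.1 (mem_product.1 hp).1
      obtain ⟨a, b, hab, rfl⟩ := card_eq_two.1 h2
      simp only [ne_eq, not_not]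
      rw [dl_face hπ, sum_pair hab, erase_insert (by simpa using hab), pair_comm a b,
        erase_insert (by simpa using hab.symm), z2_add_eq_zero]
      have hadj : (Cochain.skeleton (topF π J d idx)).Adj (idx (π a x)) (idx (π b x)) := by
        obtain ⟨τ, h3, h4⟩ := fc_sub_top (π := π) (idx := idx) hJ h1 (by omega) x
        refine ⟨fun e => hab (hπ _ _ _ _ (hidx ⟨a, h1 (by simp), x, rfl⟩
          ⟨b, h1 (by simp), x, rfl⟩ e)), τ, h3, h4 (by simp [face]), h4 (by simp [face])⟩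
      simp only [F, face, image_singleton, mem_singleton, exists_eq_left]
      congr 1
      exact propext ⟨fun h => h.trans hadj.symm.reachable, fun h => h.trans hadj.reachable⟩
    rw [h0, mul_zero, Nat.le_zero] at hG
    have key : ∀ w, (if (Cochain.skeleton (topF π J d idx)).Reachable u w then (1 : ZMod 2) else 0)
        = G ∅ := by
      intro w
      obtain ⟨i, hi, x, rfl⟩ := hsurj w
      have := eq_zero_of_cnt hG (singleton_subset_iff.2 hi) (card_singleton i) x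
      rw [z2_add_eq_zero] at this
      simpa [F, face, dl] using this
    have h1 := key u
    rw [if_pos (SimpleGraph.Reachable.refl u), ← key v] at h1
    by_contra hne
    rw [if_neg hne] at h1
    exact absurd h1 (by decide)
  · intro i hi f
    obtain ⟨G, hG⟩ := hexp (i + 1) (by omega) (by omega) (fun σ => f (σ.image idx))
    let b : Finset (Fin Vt.card) → ZMod 2 := fun τ => ∑ σ ∈ τ.powersetCard i, G (σ.image g)
    refine ⟨b, ?_, ?_⟩
    · rcases Nat.eq_zero_or_pos i with rfl | hpos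
      · exact Or.inl ⟨rfl, G ∅, fun σ => by simp [b]⟩
      · refine Or.inr ⟨hpos, fun σ => G (σ.image g), ?_⟩
        funext τ
        simp only [b, Cochain.coboundary, Nat.sub_add_cancel hpos]
    have e1 : cnt π univ J (i + 1) (fun σ => (f - b) (σ.image idx)) =
        cnt π univ J (i + 1) (fun σ => f (σ.image idx) + dl G σ) := by
      refine cnt_congr fun T hT hc x => ?_
      rw [Pi.sub_apply, CharTwo.sub_eq_add]
      congr 1
      simp only [b]
      rw [sum_powersetCard_eq_dl (fun σ => G (σ.image g)) (by rw [card_fc hπ hidx hT, hc]),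
        ← dl_image (injOn_face hidx hT x)]
      refine dl_congr fun v _ => ?_
      rw [image_image]
      congr 1
      refine (image_congr fun w hw => ?_).trans image_id
      obtain ⟨j, hj, rfl⟩ := mem_face.1 (mem_of_mem_erase (mem_coe.1 hw))
      exact hg _ ((hmemV _).2 ⟨j, hT hj, x, rfl⟩)
    have e2 : cnt π univ J (i + 1 + 1) (fun σ => Cochain.coboundary i f (σ.image idx)) =
        cnt π univ J (i + 1 + 1) (dl fun σ => f (σ.image idx)) := by
      refine cnt_congr fun T hT hc x => ?_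
      rw [Cochain.coboundary, sum_powersetCard_eq_dl f (by rw [card_fc hπ hidx hT, hc]),
        dl_image (injOn_face hidx hT x)]
    have h1 := supp_le_cnt (d := d) hπ hidx (i + 1) (f - b)
    have h2 := cnt_le_supp hπ hidx hJ hQ (m := i + 1 + 1) (by omega) (by omega)
      (Cochain.coboundary i f)
    rw [e1] at h1
    rw [e2] at h2
    have h3 : (suppF (topF π J d idx) (i + 1) (f - b)).card ≤
        K' * (Q * (suppF (topF π J d idx) (i + 1 + 1) (Cochain.coboundary i f)).card) :=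
      h1.trans (hG.trans (Nat.mul_le_mul_left _ h2))
    refine le_trans ?_ (norm_ge d _ (i + 1) _)
    refine le_trans (mul_le_mul_of_nonneg_left (norm_le d _ hdeg i _) (by positivity)) ?_
    set s := (suppF (topF π J d idx) (i + 1) (f - b)).card
    set s' := (suppF (topF π J d idx) (i + 1 + 1) (Cochain.coboundary i f)).card
    have hT : (0 : ℝ) < (topF π J d idx).card := by
      obtain ⟨τ, h1, -⟩ := fc_sub_top (π := π) (idx := idx) hJ (empty_subset J) (by simp) x₀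
      exact_mod_cast card_pos.2 ⟨τ, h1⟩
    have c1 : (1 : ℝ) ≤ Nat.choose (d + 1) (i + 1) := by
      exact_mod_cast Nat.choose_pos (by omega)
    have c2 : (0 : ℝ) < Nat.choose (d + 1) (i + 1 + 1) := by
      exact_mod_cast Nat.choose_pos (by omega)
    have c3 : Nat.choose (d + 1) (i + 1 + 1) ≤ 2 ^ (d + 1) := Nat.choose_le_two_pow _ _
    set D := 2 ^ (d + 2) * Q
    have h4 : D * s * Nat.choose (d + 1) (i + 1 + 1) ≤ (D * K' * Q * 2 ^ (d + 1) + 1) * s' := by
      calc _ ≤ D * (K' * (Q * s')) * 2 ^ (d + 1) := by gcongr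
        _ = (D * K' * Q * 2 ^ (d + 1)) * s' := by ring
        _ ≤ _ := by gcongr; omega
    have h5 : (D : ℝ) * s * Nat.choose (d + 1) (i + 1 + 1) ≤
        (((D * K' * Q * 2 ^ (d + 1) : ℕ) : ℝ) + 1) * s' := by exact_mod_cast h4
    rw [one_div_mul_eq_div, div_div, div_le_div_iff₀ (by positivity) (by positivity)]
    calc _ = ((D : ℝ) * s * Nat.choose (d + 1) (i + 1 + 1)) * (topF π J d idx).card * 1 := by ring
      _ ≤ ((((D * K' * Q * 2 ^ (d + 1) : ℕ) : ℝ) + 1) * s') * (topF π J d idx).card *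
          Nat.choose (d + 1) (i + 1) := by gcongr
      _ = _ := by ring

end Crest.Agent.R66
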