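import Crest.Agent.R66.Chain

/-! # Row 66: bounded fillings in complexes of good flags (task FL) -/

set_option autoImplicit false

namespace Crest.Agent.R66

open Finset Module

section
variable {k V : Type*} [Field k] [AddCommGroup V] [Module k V]

/-- `Submodule.iUnion_ssubset_of_forall_ne_top_of_card_lt` applied to `X.comap W.subtype`. -/
theorem exists_avoid [Fintype k] (W : Submodule k V) (B : Finset (Submodule k V))
    (hB : ∀ X ∈ B, ¬ W ≤ X) (hc : B.card < Fintype.card k) : ∃ v ∈ W, ∀ X ∈ B, v ∉ X := by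
  classical
  have h := Submodule.iUnion_ssubset_of_forall_ne_top_of_card_lt (K := k) (M := W) B.attach
    (fun X => X.1.comap W.subtype) (fun X hX => hB X.1 X.2 (by
      rwa [Submodule.comap_subtype_eq_top] at hX)) (by
      rw [card_attach, ENat.card_eq_coe_fintype_card]; exact_mod_cast hc)
  obtain ⟨v, -, hv⟩ := Set.exists_of_ssubset h
  refine ⟨v.1, v.2, fun X hX hvX => hv ?_⟩
  simp only [Set.mem_iUnion]
  exact ⟨⟨X, hX⟩, mem_attach _ _, hvX⟩

theorem down_flagCx (𝒢 : Set (Submodule k V)) (φ : Finset (Submodule k V)) (U : Finset ℕ) :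
    Down (FlagCx 𝒢 φ U) := by
  rintro σ ⟨h1, h2⟩ τ hτ
  exact ⟨fun W hW => h1 W (hτ hW), h2.mono (Set.union_subset_union_left _ (coe_subset.2 hτ))⟩

section Aux
variable {𝒢 : Set (Submodule k V)} {φ : Finset (Submodule k V)} {U : Finset ℕ}

theorem chain_le_of_finrank_le [FiniteDimensional k V] {S : Set (Submodule k V)}
    (h : IsChain (· ≤ ·) S) {X Y : Submodule k V} (hX : X ∈ S) (hY : Y ∈ S)
    (e : finrank k X ≤ finrank k Y) : X ≤ Y := by
  rcases h.total hX hY with h1 | h1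
  · exact h1
  · exact (Submodule.eq_of_le_of_finrank_le h1 e).ge

theorem chain_eq_of_finrank_eq [FiniteDimensional k V] {S : Set (Submodule k V)}
    (h : IsChain (· ≤ ·) S) {X Y : Submodule k V} (hX : X ∈ S) (hY : Y ∈ S)
    (e : finrank k X = finrank k Y) : X = Y :=
  le_antisymm (chain_le_of_finrank_le h hX hY e.le) (chain_le_of_finrank_le h hY hX e.ge)

theorem chain_lt_of_finrank_lt [FiniteDimensional k V] {S : Set (Submodule k V)}
    (h : IsChain (· ≤ ·) S) {X Y : Submodule k V} (hX : X ∈ S) (hY : Y ∈ S)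
    (e : finrank k X < finrank k Y) : X < Y :=
  lt_of_le_of_ne (chain_le_of_finrank_le h hX hY e.le) (by rintro rfl; exact lt_irrefl _ e)

theorem flagCx_eq_of_finrank [FiniteDimensional k V] {σ : Finset (Submodule k V)}
    (hσ : σ ∈ FlagCx 𝒢 φ U) {X Y : Submodule k V} (hX : X ∈ σ) (hY : Y ∈ σ)
    (e : finrank k X = finrank k Y) : X = Y :=
  chain_eq_of_finrank_eq hσ.2 (Or.inl (mem_coe.2 hX)) (Or.inl (mem_coe.2 hY)) e

theorem flagCx_mono_U {U' : Finset ℕ} {σ : Finset (Submodule k V)} (hσ : σ ∈ FlagCx 𝒢 φ U)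
    (h : ∀ W ∈ σ, finrank k W ∈ U') : σ ∈ FlagCx 𝒢 φ U' :=
  ⟨fun W hW => ⟨(hσ.1 W hW).1, h W hW⟩, hσ.2⟩

theorem flagCx_of_insert {W : Submodule k V} {σ : Finset (Submodule k V)}
    (hσ : σ ∈ FlagCx 𝒢 (insert W φ) U) : σ ∈ FlagCx 𝒢 φ U :=
  ⟨hσ.1, hσ.2.mono (Set.union_subset_union_right _ (coe_subset.2 (subset_insert _ _)))⟩

theorem coe_insert_union (W : Submodule k V) (σ φ : Finset (Submodule k V)) :
    ((insert W σ : Finset (Submodule k V)) : Set (Submodule k V)) ∪ (φ : Set (Submodule k V)) =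
      (σ : Set (Submodule k V)) ∪ ((insert W φ : Finset (Submodule k V)) : Set (Submodule k V)) := by
  simp only [coe_insert, Set.insert_union, Set.union_insert]

theorem insert_mem_flagCx {U' : Finset ℕ} {W : Submodule k V} {σ : Finset (Submodule k V)}
    (hσ : σ ∈ FlagCx 𝒢 (insert W φ) U') (hU : U' ⊆ U) (hW : W ∈ 𝒢) (hr : finrank k W ∈ U) :
    insert W σ ∈ FlagCx 𝒢 φ U := by
  refine ⟨fun X hX => ?_, by rw [coe_insert_union]; exact hσ.2⟩
  rcases mem_insert.1 hX with rfl | hX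
  · exact ⟨hW, hr⟩
  · exact ⟨(hσ.1 X hX).1, hU (hσ.1 X hX).2⟩

/-- the link of a vertex of dimension `r` -/
theorem lk_on [FiniteDimensional k V] {U₁ U₂ : Finset ℕ} {r i : ℕ} {y : Ch (Submodule k V)}
    (hy : On (FlagCx 𝒢 φ U₁) (i + 1) y) (hU : ∀ s ∈ U₁, s ≠ r → s ∈ U₂) {W : Submodule k V}
    (hW : finrank k W = r) : On (FlagCx 𝒢 (insert W φ) U₂) i (lk W y) := by
  intro τ hτ
  obtain ⟨h1, h2⟩ := mem_support_lk.1 hτ
  obtain ⟨h3, h4⟩ := hy _ h2
  refine ⟨⟨fun X hX => ⟨(h3.1 X (mem_insert_of_mem hX)).1, hU _ (h3.1 X (mem_insert_of_mem hX)).2 ?_⟩,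
    by rw [← coe_insert_union]; exact h3.2⟩, ?_⟩
  · intro e
    have := flagCx_eq_of_finrank h3 (mem_insert_of_mem hX) (mem_insert_self W τ) (e.trans hW.symm)
    exact h1 (this ▸ hX)
  · rw [card_insert_of_notMem h1] at h4
    omega

theorem flagOK_insert {U₁ U₂ : Finset ℕ} (hφ : FlagOK 𝒢 φ U₁) {σ : Finset (Submodule k V)}
    (hσ : σ ∈ FlagCx 𝒢 φ U) {W : Submodule k V} (hW : W ∈ σ) (hU : U₂ ⊆ U₁)
    (hr : finrank k W ∉ U₂) : FlagOK 𝒢 (insert W φ) U₂ := by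
  obtain ⟨h1, h2, h3, -, h5⟩ := hφ
  refine ⟨mem_insert_of_mem h1, mem_insert_of_mem h2, fun X hX => ?_, hσ.2.mono ?_,
    fun r hr => h5 r (hU hr)⟩
  · rcases mem_insert.1 hX with rfl | hX
    · exact ⟨(hσ.1 _ hW).1, hr⟩
    · exact ⟨(h3 X hX).1, fun h => (h3 X hX).2 (hU h)⟩
  · rw [coe_insert]
    exact Set.insert_subset (Or.inl (mem_coe.2 hW)) Set.subset_union_right

/-- adding the vertex `W ⊔ k∙v` to a face -/
theorem ext_mem_flagCx {σ : Finset (Submodule k V)} (hσ : σ ∈ FlagCx 𝒢 φ U) {W : Submodule k V}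
    (hW : W ∈ (σ : Set (Submodule k V)) ∪ (φ : Set (Submodule k V))) {v : V}
    (hv : ∀ X ∈ (σ : Set (Submodule k V)) ∪ (φ : Set (Submodule k V)), W < X → v ∈ X)
    (hG : W ⊔ (k ∙ v) ∈ 𝒢) (hr : finrank k (W ⊔ (k ∙ v) : Submodule k V) ∈ U) :
    insert (W ⊔ (k ∙ v)) σ ∈ FlagCx 𝒢 φ U := by
  refine ⟨fun X hX => ?_, ?_⟩
  · rcases mem_insert.1 hX with rfl | hX
    · exact ⟨hG, hr⟩
    · exact hσ.1 X hX
  · rw [coe_insert, Set.insert_union]
    refine hσ.2.insert fun X hX _ => ?_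
    rcases hσ.2.total hX hW with h | h
    · exact Or.inr (h.trans le_sup_left)
    · rcases h.eq_or_lt with rfl | h
      · exact Or.inr le_sup_left
      · exact Or.inl (sup_le h.le ((Submodule.span_singleton_le_iff_mem _ _).2 (hv X hX h)))

theorem ch_add_self {α : Type*} (z : Ch α) : z + z = 0 := by
  ext σ
  exact z2_add_self _

theorem On.add {α : Type*} [DecidableEq α] {K : Set (Finset α)} {i : ℕ} {x y : Ch α}
    (hx : On K i x) (hy : On K i y) : On K i (x + y) := fun σ hσ => by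
  rcases mem_union.1 (Finsupp.support_add hσ) with h | h
  · exact hx σ h
  · exact hy σ h

theorem card_support_add_le {α : Type*} [DecidableEq α] (x y : Ch α) :
    (x + y).support.card ≤ x.support.card + y.support.card :=
  (card_le_card Finsupp.support_add).trans (card_union_le _ _)

/-- the invariant of the sweeping argument -/
def FInv (𝒢 : Set (Submodule k V)) (φ : Finset (Submodule k V)) (U : Finset ℕ) (v : V)
    (lo i j : ℕ) (σ : Finset (Submodule k V)) : Prop :=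
  σ ∈ FlagCx 𝒢 φ U ∧ σ.card = i ∧ ∀ X ∈ σ, lo < finrank k X →
    (finrank k X ≤ j ∧ v ∉ X ∧ X ⊔ (k ∙ v) ∈ 𝒢) ∨ (j + 2 ≤ finrank k X ∧ v ∈ X)

/-- one sweeping step -/
theorem sweep_step [FiniteDimensional k V] {v : V} {lo r i j m : ℕ}
    (hU : ∀ s, lo < s → s ≤ r → s ∈ U) (hφv : ∀ X ∈ φ, lo < finrank k X → v ∈ X)
    (hj : lo ≤ j) (hjr : j + 1 < r) {z : Ch (Submodule k V)}
    (hz : ∀ σ ∈ z.support, FInv 𝒢 φ U v lo i (j + 1) σ) (hb : bd z = 0)
    (hm : z.support.card ≤ m) :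
    ∃ x : Ch (Submodule k V), On (FlagCx 𝒢 φ U) (i + 1) x ∧ x.support.card ≤ m * m ∧
      (z + bd x).support.card ≤ m + m * m ∧
      ∀ σ ∈ (z + bd x).support, FInv 𝒢 φ U v lo i j σ := by
  refine pushOff (FlagCx 𝒢 φ U) (fun W => finrank k W = j + 1) (FInv 𝒢 φ U v lo i j) i m m z hm
    (fun σ hσ X hX Y hY e1 e2 => flagCx_eq_of_finrank (hz σ hσ).1 hX hY (e1.trans e2.symm)) ?_ ?_
  · intro σ hσ hbad
    obtain ⟨h1, h2, h3⟩ := hz σ hσ
    refine ⟨h1, h2, fun X hX hlo => ?_⟩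
    have := hbad X hX
    rcases h3 X hX hlo with ⟨a, b, c⟩ | ⟨a, b⟩
    · exact Or.inl ⟨by omega, b, c⟩
    · exact Or.inr ⟨by omega, b⟩
  · rintro W hW ⟨σ₀, hσ₀, hWσ₀⟩
    obtain ⟨hvW, hG⟩ : v ∉ W ∧ W ⊔ (k ∙ v) ∈ 𝒢 := by
      rcases (hz σ₀ hσ₀).2.2 W hWσ₀ (by omega) with ⟨_, b, c⟩ | ⟨a, _⟩
      · exact ⟨b, c⟩
      · omega
    have hr' : finrank k (W ⊔ (k ∙ v) : Submodule k V) = j + 2 := by
      rw [Submodule.finrank_sup_span_singleton hvW, hW]
    have hvW' : v ∈ W ⊔ (k ∙ v) := Submodule.mem_sup_right (Submodule.mem_span_singleton_self v)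
    refine ⟨cone (W ⊔ (k ∙ v)) (lk W z), ?_,
      (card_support_cone_le _ _).trans ((card_support_lk_le _ _).trans hm), ?_⟩
    · have := bd_cone (W ⊔ (k ∙ v)) (lk W z)
      rwa [← lk_bd, hb, map_zero, map_zero, add_zero] at this
    · intro τ hτ
      obtain ⟨h1, h2⟩ := mem_support_cone.1 hτ
      obtain ⟨h3, h4⟩ := mem_support_lk.1 h2
      obtain ⟨h5, h6, h7⟩ := hz _ h4
      have hne : W ≠ W ⊔ (k ∙ v) := fun e => hvW (e ▸ hvW')
      have hWτ : W ∉ τ := fun h => h3 (mem_erase.2 ⟨hne, h⟩)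
      have hmem : insert W τ ∈ FlagCx 𝒢 φ U := by
        have := ext_mem_flagCx h5 (W := W) (Or.inl (mem_coe.2 (mem_insert_self _ _))) (v := v) ?_ hG
          (hU _ (by omega) (by omega))
        · rwa [insert_comm, insert_erase h1] at this
        · intro X hX hlt
          have hlt' := Submodule.finrank_lt_finrank_of_lt hlt
          rcases hX with hX | hX
          · rcases h7 X (mem_coe.1 hX) (by omega) with ⟨a, _⟩ | ⟨_, b⟩
            · omega
            · exact b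
          · exact hφv X (mem_coe.1 hX) (by omega)
      have hcard : τ.card = i := by
        rw [card_insert_of_notMem h3, card_erase_of_mem h1] at h6
        have := card_pos.2 ⟨_, h1⟩
        omega
      refine ⟨hWτ, hmem, hcard, down_flagCx _ _ _ _ hmem _ (subset_insert _ _), hcard,
        fun X hX hlo => ?_⟩
      by_cases e : X = W ⊔ (k ∙ v)
      · subst e
        exact Or.inr ⟨hr'.ge, hvW'⟩
      · have hX' : X ∈ insert W (τ.erase (W ⊔ (k ∙ v))) := mem_insert_of_mem (mem_erase.2 ⟨e, hX⟩)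
        have hne' : finrank k X ≠ j + 1 := fun e' =>
          hWτ ((flagCx_eq_of_finrank h5 hX' (mem_insert_self _ _) (e'.trans hW.symm)) ▸ hX)
        rcases h7 X hX' hlo with ⟨a, b, c⟩ | ⟨a, b⟩
        · exact Or.inl ⟨by omega, b, c⟩
        · exact Or.inr ⟨by omega, b⟩

/-- the last step: a cone -/
theorem sweep_end [FiniteDimensional k V] {v : V} {lo i : ℕ} {Wlo : Submodule k V}
    (hWlo : Wlo ∈ φ) (hlo : finrank k Wlo = lo) (hvW : v ∉ Wlo) (hG : Wlo ⊔ (k ∙ v) ∈ 𝒢)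
    (hU : lo + 1 ∈ U) (hφv : ∀ X ∈ φ, lo < finrank k X → v ∈ X) {z : Ch (Submodule k V)}
    (hz : ∀ σ ∈ z.support, FInv 𝒢 φ U v lo i lo σ) (hb : bd z = 0) :
    ∃ y : Ch (Submodule k V), On (FlagCx 𝒢 φ U) (i + 1) y ∧ bd y = z ∧
      y.support.card ≤ z.support.card := by
  refine ⟨cone (Wlo ⊔ (k ∙ v)) z, fun τ hτ => ?_, ?_, card_support_cone_le _ _⟩
  · obtain ⟨h1, h2⟩ := mem_support_cone.1 hτ
    obtain ⟨h5, h6, h7⟩ := hz _ h2
    constructor
    · have := ext_mem_flagCx h5 (W := Wlo) (Or.inr (mem_coe.2 hWlo)) (v := v) ?_ hG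
        (by rw [Submodule.finrank_sup_span_singleton hvW, hlo]; exact hU)
      · rwa [insert_erase h1] at this
      · intro X hX hlt
        have hlt' := Submodule.finrank_lt_finrank_of_lt hlt
        rcases hX with hX | hX
        · rcases h7 X (mem_coe.1 hX) (by omega) with ⟨a, _⟩ | ⟨_, b⟩
          · omega
          · exact b
        · exact hφv X (mem_coe.1 hX) (by omega)
    · rw [card_erase_of_mem h1] at h6
      have := card_pos.2 ⟨_, h1⟩
      omega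
  · have := bd_cone (Wlo ⊔ (k ∙ v)) z
    rwa [hb, map_zero, add_zero] at this

/-- explicit bound for the sweeping argument -/
def sweepB : ℕ → ℕ → ℕ
  | 0, m => m
  | d + 1, m => m * m + sweepB d (m + m * m)

theorem sweepB_mono_right (d : ℕ) : Monotone (sweepB d) := by
  induction d with
  | zero => exact fun a b h => h
  | succ d ih =>
    intro a b h
    have h1 : a * a ≤ b * b := Nat.mul_le_mul h h
    exact Nat.add_le_add h1 (ih (Nat.add_le_add h h1))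

theorem sweepB_mono_left (m : ℕ) {d d' : ℕ} (h : d ≤ d') : sweepB d m ≤ sweepB d' m := by
  induction h with
  | refl => exact le_rfl
  | step _ ih =>
    exact ih.trans ((sweepB_mono_right _ (Nat.le_add_right _ _)).trans (Nat.le_add_left _ _))

theorem sweep [FiniteDimensional k V] {v : V} {lo r i : ℕ} {Wlo : Submodule k V}
    (hWlo : Wlo ∈ φ) (hlo : finrank k Wlo = lo) (hvW : v ∉ Wlo) (hG : Wlo ⊔ (k ∙ v) ∈ 𝒢)
    (hU : ∀ s, lo < s → s ≤ r → s ∈ U) (hφv : ∀ X ∈ φ, lo < finrank k X → v ∈ X) (d : ℕ) :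
    lo + d < r → ∀ (m : ℕ) (z : Ch (Submodule k V)),
      (∀ σ ∈ z.support, FInv 𝒢 φ U v lo i (lo + d) σ) → bd z = 0 → z.support.card ≤ m →
      ∃ y : Ch (Submodule k V), On (FlagCx 𝒢 φ U) (i + 1) y ∧ bd y = z ∧
        y.support.card ≤ sweepB d m := by
  induction d with
  | zero =>
    intro hd m z hz hb hm
    obtain ⟨y, h1, h2, h3⟩ := sweep_end hWlo hlo hvW hG (hU _ (by omega) (by omega)) hφv hz hb
    exact ⟨y, h1, h2, h3.trans hm⟩
  | succ d ih =>
    intro hd m z hz hb hm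
    obtain ⟨x, h1, h2, h3, h4⟩ := sweep_step (j := lo + d) hU hφv (by omega) (by omega) hz hb hm
    obtain ⟨y, h5, h6, h7⟩ := ih (by omega) _ _ h4 (by rw [map_add, hb, bd_bd, add_zero]) h3
    refine ⟨x + y, h1.add h5, ?_, (card_support_add_le _ _).trans (Nat.add_le_add h2 h7)⟩
    rw [map_add, h6, add_comm z, ← add_assoc, ch_add_self, zero_add]

open Classical in
/-- the missing levels -/
noncomputable def miss (φ : Finset (Submodule k V)) (U : Finset ℕ) : Finset ℕ :=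
  (range (finrank k V + 1)).filter (fun r => r ∉ U ∧ ∀ W ∈ φ, finrank k W ≠ r)

theorem mem_miss {r : ℕ} :
    r ∈ miss φ U ↔ r ≤ finrank k V ∧ r ∉ U ∧ ∀ W ∈ φ, finrank k W ≠ r := by
  simp [miss]

/-- the case of a missing level -/
theorem fill_miss [FiniteDimensional k V] (hφ : FlagOK 𝒢 φ U) {r : ℕ} (hr : r ∈ miss φ U)
    {m Φ₁ Φ₂ : ℕ} (h1 : Fill (FlagCx 𝒢 φ (insert r U)) (insert r U).card m Φ₁)
    (h2 : ∀ W : Submodule k V, finrank k W = r → FlagOK 𝒢 (insert W φ) U →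
      Fill (FlagCx 𝒢 (insert W φ) U) U.card Φ₁ Φ₂) :
    Fill (FlagCx 𝒢 φ U) U.card m (Φ₁ + Φ₁ * Φ₂) := by
  obtain ⟨-, hrU, -⟩ := mem_miss.1 hr
  intro i hi z hz hb hm
  obtain ⟨y, hy, hyb, hym⟩ := h1 i (by rw [card_insert_of_notMem hrU]; omega) z
    (fun σ hσ => ⟨flagCx_mono_U (hz σ hσ).1 fun W hW => mem_insert_of_mem ((hz σ hσ).1.1 W hW).2,
      (hz σ hσ).2⟩) hb hm
  obtain ⟨x, -, -, h5, h6⟩ := pushOff Set.univ (fun W : Submodule k V => finrank k W = r)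
    (fun τ => τ ∈ FlagCx 𝒢 φ U ∧ τ.card = i + 1) (i + 1) Φ₁ Φ₂ y hym
    (fun σ hσ X hX Y hY e1 e2 => flagCx_eq_of_finrank (hy σ hσ).1 hX hY (e1.trans e2.symm))
    (fun σ hσ hbad => ⟨flagCx_mono_U (hy σ hσ).1 fun W hW =>
      (mem_insert.1 ((hy σ hσ).1.1 W hW).2).resolve_left (hbad W hW), (hy σ hσ).2⟩) (by
      rintro W hW ⟨σ₀, hσ₀, hWσ₀⟩
      have hOK : FlagOK 𝒢 (insert W φ) U :=
        flagOK_insert hφ (hy σ₀ hσ₀).1 hWσ₀ Subset.rfl (hW ▸ hrU)
      have hlk : On (FlagCx 𝒢 (insert W φ) U) i (lk W y) :=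
        lk_on hy (fun s hs hne => (mem_insert.1 hs).resolve_left hne) hW
      have hb' : bd (lk W y) = 0 := by
        rw [← lk_bd, hyb]
        rw [← Finsupp.support_eq_empty, eq_empty_iff_forall_notMem]
        intro τ hτ
        have := ((hz _ (mem_support_lk.1 hτ).2).1.1 W (mem_insert_self _ _)).2
        exact hrU (hW ▸ this)
      obtain ⟨x, hx, hxb, hxm⟩ := h2 W hW hOK i hi _ hlk hb' ((card_support_lk_le _ _).trans hym)
      exact ⟨x, hxb, hxm, fun τ hτ => ⟨fun h => hrU (hW ▸ ((hx τ hτ).1.1 W h).2), trivial,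
        (hx τ hτ).2, flagCx_of_insert (hx τ hτ).1, (hx τ hτ).2⟩⟩)
  exact ⟨y + bd x, h6, by rw [map_add, hyb, bd_bd, add_zero], h5⟩

/-- the case without missing level -/
theorem fill_full [Fintype k] [FiniteDimensional k V] {κ : ℕ} (h𝒢 : GoodFam 𝒢 κ)
    (hφ : FlagOK 𝒢 φ U) (hmiss : miss φ U = ∅) (hU : U.Nonempty) {m Φ₃ t : ℕ} (ht : U.card ≤ t)
    (hq : (1 + (m + m * Φ₃) * t) * κ < Fintype.card k)
    (h3 : ∀ W : Submodule k V, finrank k W = U.max' hU →
      FlagOK 𝒢 (insert W φ) (U.erase (U.max' hU)) →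
      Fill (FlagCx 𝒢 (insert W φ) (U.erase (U.max' hU))) (U.erase (U.max' hU)).card m Φ₃) :
    Fill (FlagCx 𝒢 φ U) U.card m (m * Φ₃ + sweepB t (m + m * Φ₃)) := by
  classical
  set r := U.max' hU with hrdef
  have hrU : r ∈ U := U.max'_mem hU
  have hrmax : ∀ s ∈ U, s ≤ r := fun s hs => U.le_max' s hs
  obtain ⟨hbot, htop, hφ3, hφ4, hφ5⟩ := id hφ
  have hlev : ∀ s ≤ finrank k V, s ∉ U → ∃ W ∈ φ, finrank k W = s := by
    intro s hs hsU
    by_contra hcon
    push Not at hcon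
    have : s ∈ miss φ U := mem_miss.2 ⟨hs, hsU, hcon⟩
    rw [hmiss] at this
    exact notMem_empty _ this
  have hr1 : r + 1 ≤ finrank k V := by
    have a := hφ5 r hrU
    have b : finrank k V ≠ r := fun e => (hφ3 ⊤ htop).2 (by rw [finrank_top, e]; exact hrU)
    omega
  have hr0 : 0 < r := by
    rcases Nat.eq_zero_or_pos r with e | e
    · exact absurd (by rw [finrank_bot, ← e]; exact hrU) (hφ3 ⊥ hbot).2
    · exact e
  obtain ⟨Whi, hWhi, hhi⟩ := hlev (r + 1) hr1 (fun h => by have := hrmax _ h; omega)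
  obtain ⟨Wlo, hWlo, hlomax⟩ := exists_max_image
    (φ.filter (fun W : Submodule k V => finrank k W < r)) (fun W : Submodule k V => finrank k W)
    ⟨⊥, mem_filter.2 ⟨hbot, by rw [finrank_bot]; exact hr0⟩⟩
  obtain ⟨hWloφ, hlor⟩ := mem_filter.1 hWlo
  set lo := finrank k Wlo with hlodef
  have hφhi : ∀ X ∈ φ, lo < finrank k X → r + 1 ≤ finrank k X := by
    intro X hX hlt
    by_contra hcon
    have a : finrank k X ≠ r := fun e => (hφ3 X hX).2 (e ▸ hrU)
    have := hlomax X (mem_filter.2 ⟨hX, by omega⟩)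
    omega
  have hUlev : ∀ s, lo < s → s ≤ r → s ∈ U := by
    intro s h1 h2
    by_contra hs
    obtain ⟨W, hW, e⟩ := hlev s (by omega) hs
    have := hφhi W hW (by omega)
    omega
  have hd : r - 1 - lo ≤ t := by
    have : (Ioc lo r).card ≤ U.card :=
      card_le_card fun s hs => hUlev s (mem_Ioc.1 hs).1 (mem_Ioc.1 hs).2
    rw [Nat.card_Ioc] at this
    omega
  intro i hi z hz hb hm
  -- push off the top level
  obtain ⟨x, hx, hxm, hz'm, hz'⟩ := pushOff (FlagCx 𝒢 φ U) (fun W : Submodule k V => finrank k W = r)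
    (fun τ => τ ∈ FlagCx 𝒢 φ (U.erase r) ∧ τ.card = i) i m Φ₃ z hm
    (fun σ hσ X hX Y hY e1 e2 => flagCx_eq_of_finrank (hz σ hσ).1 hX hY (e1.trans e2.symm))
    (fun σ hσ hbad => ⟨flagCx_mono_U (hz σ hσ).1 fun W hW =>
      mem_erase.2 ⟨hbad W hW, ((hz σ hσ).1.1 W hW).2⟩, (hz σ hσ).2⟩) (by
      rintro W hW ⟨σ₀, hσ₀, hWσ₀⟩
      have hOK : FlagOK 𝒢 (insert W φ) (U.erase r) :=
        flagOK_insert hφ (hz σ₀ hσ₀).1 hWσ₀ (erase_subset _ _) (by rw [hW]; exact notMem_erase _ _)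
      obtain ⟨i', rfl⟩ : ∃ i', i = i' + 1 := by
        have := card_pos.2 ⟨W, hWσ₀⟩
        rw [(hz σ₀ hσ₀).2] at this
        exact ⟨i - 1, by omega⟩
      have hlk : On (FlagCx 𝒢 (insert W φ) (U.erase r)) i' (lk W z) :=
        lk_on hz (fun s hs hne => mem_erase.2 ⟨hne, hs⟩) hW
      have hb' : bd (lk W z) = 0 := by rw [← lk_bd, hb, map_zero]
      obtain ⟨x, hx, hxb, hxm⟩ := h3 W hW hOK i' (by rw [card_erase_of_mem hrU]; omega) _ hlk hb'
        ((card_support_lk_le _ _).trans hm)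
      exact ⟨x, hxb, hxm, fun τ hτ => ⟨fun h => (mem_erase.1 ((hx τ hτ).1.1 W h).2).1 hW,
        insert_mem_flagCx (hx τ hτ).1 (erase_subset _ _) ((hz σ₀ hσ₀).1.1 W hWσ₀).1 (hW ▸ hrU),
        (hx τ hτ).2, flagCx_of_insert (hx τ hτ).1, (hx τ hτ).2⟩⟩)
  set z' := z + bd x with hz'def
  -- choose a generic vector
  set 𝒲 : Finset (Submodule k V) := insert Wlo (z'.support.biUnion id) with h𝒲
  have h𝒲c : 𝒲.card ≤ 1 + (m + m * Φ₃) * t := by
    refine (card_insert_le _ _).trans ?_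
    have a : (z'.support.biUnion id).card ≤ z'.support.card * t :=
      card_biUnion_le_card_mul _ _ _ fun σ hσ => by
        simp only [id]; rw [(hz' σ hσ).2]; omega
    have b : z'.support.card * t ≤ (m + m * Φ₃) * t := Nat.mul_le_mul_right _ hz'm
    omega
  have hvert : ∀ σ ∈ z'.support, ∀ X ∈ σ, finrank k X < r := by
    intro σ hσ X hX
    have a := mem_erase.1 ((hz' σ hσ).1.1 X hX).2
    have b := hrmax _ a.2
    have c := a.1
    omega
  have h𝒲lt : ∀ W ∈ 𝒲, W ∈ 𝒢 ∧ W < Whi := by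
    intro W hW
    rcases mem_insert.1 hW with rfl | hW
    · exact ⟨(hφ3 _ hWloφ).1, chain_lt_of_finrank_lt hφ4 (mem_coe.2 hWloφ) (mem_coe.2 hWhi)
        (by omega)⟩
    · obtain ⟨σ, hσ, hWσ⟩ := mem_biUnion.1 hW
      have := hvert σ hσ W hWσ
      exact ⟨((hz' σ hσ).1.1 W hWσ).1, chain_lt_of_finrank_lt (hz' σ hσ).1.2
        (Or.inl (mem_coe.2 hWσ)) (Or.inr (mem_coe.2 hWhi)) (by omega)⟩
  have hB : ∀ W ∈ 𝒲, ∃ B : Finset (Submodule k V), B.card ≤ κ ∧ (∀ X ∈ B, ¬ Whi ≤ X) ∧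
      ∀ v ∈ Whi, (∀ X ∈ B, v ∉ X) → v ∉ W ∧ W ⊔ (k ∙ v) ∈ 𝒢 := fun W hW =>
    h𝒢.2.2 W (h𝒲lt W hW).1 Whi (hφ3 _ hWhi).1 (h𝒲lt W hW).2
  choose! B hB1 hB2 hB3 using hB
  obtain ⟨v, hvhi, hv⟩ := exists_avoid Whi (𝒲.biUnion B) (fun X hX => by
      obtain ⟨W, hW, hXW⟩ := mem_biUnion.1 hX
      exact hB2 W hW X hXW)
    (lt_of_le_of_lt ((card_biUnion_le_card_mul _ _ _ hB1).trans (Nat.mul_le_mul_right _ h𝒲c)) hq)
  have hgen : ∀ W ∈ 𝒲, v ∉ W ∧ W ⊔ (k ∙ v) ∈ 𝒢 := fun W hW =>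
    hB3 W hW v hvhi fun X hX => hv X (mem_biUnion.2 ⟨W, hW, hX⟩)
  have hφv : ∀ X ∈ φ, lo < finrank k X → v ∈ X := fun X hX hlt =>
    chain_le_of_finrank_le hφ4 (mem_coe.2 hWhi) (mem_coe.2 hX) (by
      have := hφhi X hX hlt; omega) hvhi
  obtain ⟨y, hy, hyb, hym⟩ := sweep (i := i) hWloφ rfl (hgen _ (mem_insert_self _ _)).1
    (hgen _ (mem_insert_self _ _)).2 hUlev hφv (r - 1 - lo) (by omega) _ z' (fun σ hσ =>
      ⟨flagCx_mono_U (hz' σ hσ).1 fun W hW => mem_of_mem_erase ((hz' σ hσ).1.1 W hW).2,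
        (hz' σ hσ).2, fun X hX _ => Or.inl ⟨by have := hvert σ hσ X hX; omega,
          hgen X (mem_insert_of_mem (mem_biUnion.2 ⟨σ, hσ, hX⟩))⟩⟩)
    (by rw [hz'def, map_add, hb, bd_bd, add_zero]) hz'm
  refine ⟨x + y, hx.add hy, ?_,
    (card_support_add_le _ _).trans (Nat.add_le_add hxm (hym.trans (sweepB_mono_left _ hd)))⟩
  rw [map_add, hyb, hz'def, add_comm z, ← add_assoc, ch_add_self, zero_add]

end Aux

end

theorem flag_fill_aux (κ t : ℕ) : ∀ m : ℕ, ∃ Φ q₀ : ℕ, ∀ (k V : Type) [Field k] [Fintype k]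
    [AddCommGroup V] [Module k V] [FiniteDimensional k V], q₀ ≤ Fintype.card k →
    ∀ (𝒢 : Set (Submodule k V)) (φ : Finset (Submodule k V)) (U : Finset ℕ),
      2 * (miss φ U).card + U.card ≤ t →
      GoodFam 𝒢 κ → FlagOK 𝒢 φ U → Fill (FlagCx 𝒢 φ U) U.card m Φ := by
  induction t with
  | zero =>
    intro m
    refine ⟨0, 0, fun k V _ _ _ _ _ _ 𝒢 φ U ht _ _ i hi => ?_⟩
    omega
  | succ t ih =>
    intro m
    obtain ⟨Φ₁, q₁, H₁⟩ := ih m
    obtain ⟨Φ₂, q₂, H₂⟩ := ih Φ₁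
    refine ⟨(Φ₁ + Φ₁ * Φ₂) + (m * Φ₁ + sweepB (t + 1) (m + m * Φ₁)),
      q₁ + q₂ + ((1 + (m + m * Φ₁) * (t + 1)) * κ + 1),
      fun k V _ _ _ _ _ hq 𝒢 φ U ht h𝒢 hφ => ?_⟩
    rcases (miss φ U).eq_empty_or_nonempty with hmiss | ⟨r, hr⟩
    · rcases U.eq_empty_or_nonempty with rfl | hU
      · intro i hi
        simp at hi
      refine (fill_full h𝒢 hφ hmiss hU (t := t + 1) (Φ₃ := Φ₁) (by omega) (by omega) ?_).mono
        le_rfl le_rfl (Nat.le_add_left _ _)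
      intro W hW hOK
      refine H₁ k V (by omega) 𝒢 _ _ ?_ h𝒢 hOK
      have a : miss (insert W φ) (U.erase (U.max' hU)) = ∅ := by
        rw [eq_empty_iff_forall_notMem]
        intro s hs
        obtain ⟨h1, h2, h3⟩ := mem_miss.1 hs
        have h4 : s ≠ U.max' hU := fun e => h3 W (mem_insert_self _ _) (hW.trans e.symm)
        have : s ∈ miss φ U := mem_miss.2 ⟨h1, fun h => h2 (mem_erase.2 ⟨h4, h⟩),
          fun X hX => h3 X (mem_insert_of_mem hX)⟩
        rw [hmiss] at this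
        exact notMem_empty _ this
      rw [a, card_erase_of_mem (U.max'_mem hU), card_empty]
      omega
    · obtain ⟨hr1, hr2, hr3⟩ := mem_miss.1 hr
      have hpos := card_pos.2 ⟨r, hr⟩
      refine (fill_miss hφ hr (Φ₁ := Φ₁) (Φ₂ := Φ₂) ?_ ?_).mono le_rfl le_rfl (Nat.le_add_right _ _)
      · refine H₁ k V (by omega) 𝒢 _ _ ?_ h𝒢 ?_
        · have a : (miss φ (insert r U)).card ≤ ((miss φ U).erase r).card := by
            refine card_le_card fun s hs => ?_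
            obtain ⟨h1, h2, h3⟩ := mem_miss.1 hs
            rw [mem_insert, not_or] at h2
            exact mem_erase.2 ⟨h2.1, mem_miss.2 ⟨h1, h2.2, h3⟩⟩
          rw [card_erase_of_mem hr] at a
          rw [card_insert_of_notMem hr2]
          omega
        · obtain ⟨h1, h2, h3, h4, h5⟩ := hφ
          refine ⟨h1, h2, fun W hW => ⟨(h3 W hW).1, fun h => ?_⟩, h4, fun s hs => ?_⟩
          · rcases mem_insert.1 h with h | h
            · exact hr3 W hW h
            · exact (h3 W hW).2 h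
          · rcases mem_insert.1 hs with rfl | hs
            · exact hr1
            · exact h5 s hs
      · intro W hW hOK
        refine H₂ k V (by omega) 𝒢 _ _ ?_ h𝒢 hOK
        have a : (miss (insert W φ) U).card ≤ ((miss φ U).erase r).card := by
          refine card_le_card fun s hs => ?_
          obtain ⟨h1, h2, h3⟩ := mem_miss.1 hs
          exact mem_erase.2 ⟨fun e => h3 W (mem_insert_self _ _) (hW.trans e.symm),
            mem_miss.2 ⟨h1, h2, fun X hX => h3 X (mem_insert_of_mem hX)⟩⟩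
        rw [card_erase_of_mem hr] at a
        omega

theorem card_le_of_flagOK {k V : Type*} [Field k] [AddCommGroup V] [Module k V]
    {𝒢 : Set (Submodule k V)} {φ : Finset (Submodule k V)} {U : Finset ℕ} (h : FlagOK 𝒢 φ U) :
    U.card ≤ finrank k V + 1 := by
  have : U.card ≤ (range (finrank k V + 1)).card :=
    card_le_card fun r hr => mem_range.2 (Nat.lt_succ_of_le (h.2.2.2.2 r hr))
  rwa [card_range] at this

/-- Induction on `2 μ + |U|` where `μ` = number of *missing* levels `r ≤ finrank V`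
(`r ∉ U`, `r ∉ finrank '' φ`), for all `m` simultaneously.
* a missing level `r`: fill `z` by `y` in `(φ, insert r U)`, then `pushOff` the vertices of
  dimension `r`: `lk W y` is a cycle of `FlagCx 𝒢 (insert W φ) U` (`lk_bd`, `bd y = z` avoids `W`),
  filled by induction; the new filling is `y + bd x`.
* no missing level, `U ≠ ∅`, `r = max U`: `W_hi ∈ φ` of dimension `r + 1`, `W_lo ∈ φ` of maximal
  dimension `lo < r`; all levels in `(lo, r]` are in `U`.  First `pushOff` level `r` using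
  `(insert W φ, U.erase r)`: `z' = z + bd x`.  Choose `v ∈ W_hi` (`exists_avoid`) with `v ∉ W`,
  `W ⊔ k∙v ∈ 𝒢` for `W = W_lo` and for all vertices `W` of `z'` with `lo < finrank W`
  (these satisfy `W_lo < W < W_hi`).  For `j = r-1, …, lo+1` `pushOff` level `j` with the fillings
  `cone (W ⊔ k∙v) (lk W z_j)`; invariant: every vertex `X` with `lo < finrank X` of a face of the
  current cycle has (`finrank X ≤ j` and `v ∉ X`, `X ⊔ k∙v ∈ 𝒢`) or (`j + 2 ≤ finrank X` and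
  `v ∈ X`).  At the end `cone (W_lo ⊔ k∙v)` fills the cycle (`bd_cone`). -/
theorem flag_fill (N κ m : ℕ) : ∃ Φ q₀ : ℕ, ∀ (k V : Type) [Field k] [Fintype k] [AddCommGroup V]
    [Module k V] [FiniteDimensional k V], q₀ ≤ Fintype.card k → finrank k V ≤ N →
    ∀ (𝒢 : Set (Submodule k V)) (φ : Finset (Submodule k V)) (U : Finset ℕ),
      GoodFam 𝒢 κ → FlagOK 𝒢 φ U → Fill (FlagCx 𝒢 φ U) U.card m Φ := by
  obtain ⟨Φ, q₀, H⟩ := flag_fill_aux κ (3 * (N + 1)) m
  refine ⟨Φ, q₀, fun k V _ _ _ _ _ hq hN 𝒢 φ U h𝒢 hφ => H k V hq 𝒢 φ U ?_ h𝒢 hφ⟩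
  have a := card_le_of_flagOK hφ
  have b : (miss φ U).card ≤ (range (finrank k V + 1)).card :=
    card_le_card fun r hr => mem_range.2 (Nat.lt_succ_of_le (mem_miss.1 hr).1)
  rw [card_range] at b
  omega

/-- `flag_fill` + `cone_of_fill` (`U.card ≤ N + 1`). -/
theorem flag_cone (N κ : ℕ) : ∃ Ψ q₀ : ℕ, ∀ (k V : Type) [Field k] [Fintype k] [AddCommGroup V]
    [Module k V] [FiniteDimensional k V], q₀ ≤ Fintype.card k → finrank k V ≤ N →
    ∀ (𝒢 : Set (Submodule k V)) (φ : Finset (Submodule k V)) (U : Finset ℕ),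
      GoodFam 𝒢 κ → FlagOK 𝒢 φ U → HasCone (FlagCx 𝒢 φ U) U.card Ψ := by
  choose Φ q H using flag_fill N κ
  obtain ⟨M, Ψ, hc⟩ := cone_of_fill Φ (N + 1)
  refine ⟨Ψ, (range (M + 1)).sup q, fun k V _ _ _ _ _ hq hN 𝒢 φ U h𝒢 hφ => ?_⟩
  refine hc _ _ (down_flagCx 𝒢 φ U) _ ((card_le_of_flagOK hφ).trans (by omega)) fun m hm => ?_
  exact H m k V ((le_sup (f := q) (mem_range.2 (Nat.lt_succ_of_le hm))).trans hq) hN 𝒢 φ U h𝒢 hφ

end Crest.Agent.R66
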