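import Crest.Agent.R66.Basic

/-! # Row 66: Fourier argument over `F₂` (task FO) -/

set_option autoImplicit false

namespace Crest.Agent.R66

open Finset

variable {k U α β : Type*} [Field k] [Fintype k] [AddCommGroup U] [Module k U] [Fintype U]
  [DecidableEq α] [DecidableEq β] {K : Set (Finset α)} {K' : Set (Finset β)} {a : U → α → α}
  {s : β → α} {m : ℕ}

section Aux

omit [Fintype k] [Fintype U]

theorem FData.a_inj (h : FData k U K K' a s m) (u : U) : Function.Injective (a u) := by
  intro v w e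
  have := congrArg (a (-u)) e
  rwa [← h.add, ← h.add, neg_add_cancel, h.zero, h.zero] at this

theorem FData.img_img (h : FData k U K K' a s m) (u u' : U) (σ : Finset α) :
    (σ.image (a u')).image (a u) = σ.image (a (u + u')) := by
  rw [image_image]
  exact image_congr fun v _ => (h.add u u' v).symm

theorem FData.img_img' (h : FData k U K K' a s m) (u u' : U) (σ : Finset β) :
    (σ.image (fun v => a u' (s v))).image (a u) = σ.image (fun v => a (u + u') (s v)) := by
  rw [image_image]
  exact image_congr fun v _ => (h.add u u' _).symm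

theorem FData.img_zero (h : FData k U K K' a s m) (σ : Finset β) :
    σ.image (fun v => a 0 (s v)) = σ.image s := image_congr fun _ _ => h.zero _

theorem FData.img_mem (h : FData k U K K' a s m) (u : U) : ∀ σ ∈ K, σ.image (a u) ∈ K := by
  intro σ hσ
  obtain ⟨u', σ', h1, rfl⟩ := (h.mem σ).1 hσ
  exact (h.mem _).2 ⟨u + u', σ', h1, h.img_img' u u' σ'⟩

theorem FData.img_mem' (h : FData k U K K' a s m) (u : U) :
    ∀ σ ∈ K', σ.image (fun v => a u (s v)) ∈ K := fun σ hσ => (h.mem _).2 ⟨u, σ, hσ, rfl⟩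

theorem FData.fix_of_eq (h : FData k U K K' a s m) {u u' : U} {v w : β}
    (e : a u (s v) = a u' (s w)) : a (-u' + u) (s v) = s w := by
  rw [h.add, e, ← h.add, neg_add_cancel, h.zero]

theorem FData.injOn' (h : FData k U K K' a s m) (u : U) :
    ∀ σ ∈ K', Set.InjOn (fun v => a u (s v)) σ := fun σ hσ v hv w hw e =>
  h.inj σ hσ σ hσ v hv w hw _ (h.fix_of_eq e)

theorem FData.eq_of_img (h : FData k U K K' a s m) {u u' : U} {σ τ : Finset β} (hσ : σ ∈ K')
    (hτ : τ ∈ K') (e : σ.image (fun v => a u (s v)) = τ.image (fun v => a u' (s v))) : σ = τ := by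
  have key : ∀ {u u' : U} {σ τ : Finset β}, σ ∈ K' → τ ∈ K' →
      σ.image (fun v => a u (s v)) = τ.image (fun v => a u' (s v)) → σ ⊆ τ := by
    intro u u' σ τ hσ hτ e v hv
    have : a u (s v) ∈ τ.image (fun v => a u' (s v)) := e ▸ mem_image_of_mem _ hv
    obtain ⟨w, hw, e'⟩ := mem_image.1 this
    rwa [h.inj σ hσ τ hτ v hv w hw _ (h.fix_of_eq e'.symm)]
  exact Subset.antisymm (key hσ hτ e) (key hτ hσ e.symm)

theorem FData.cob_ext (h : FData k U K K' a s m) (Gf : U → Finset β → ZMod 2)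
    (hc : ∀ u u', ∀ σ ∈ K', σ.image (fun v => a u (s v)) = σ.image (fun v => a u' (s v)) →
      Gf u σ = Gf u' σ) {Ψ : Finset α → ZMod 2}
    (hΨ : ∀ u, ∀ σ ∈ K', σ.card = m → Ψ (σ.image (fun v => a u (s v))) = dl (Gf u) σ) :
    Cob K m Ψ := by
  classical
  let G : Finset α → ZMod 2 := fun τ =>
    if e : ∃ p : U × Finset β, p.2 ∈ K' ∧ τ = p.2.image (fun v => a p.1 (s v)) then
      Gf e.choose.1 e.choose.2 else 0
  have hG : ∀ u, ∀ σ ∈ K', G (σ.image (fun v => a u (s v))) = Gf u σ := by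
    intro u σ hσ
    have e : ∃ p : U × Finset β, p.2 ∈ K' ∧
        σ.image (fun v => a u (s v)) = p.2.image (fun v => a p.1 (s v)) := ⟨(u, σ), hσ, rfl⟩
    simp only [G]
    rw [dif_pos e]
    obtain ⟨e1, e2⟩ := e.choose_spec
    have e3 := h.eq_of_img hσ e1 e2
    rw [← e3] at e2 ⊢
    exact (hc _ _ σ hσ e2).symm
  refine ⟨G, fun τ hτ hm => ?_⟩
  obtain ⟨u, σ, hσ, rfl⟩ := (h.mem τ).1 hτ
  rw [card_image_of_injOn (h.injOn' u σ hσ)] at hm
  rw [hΨ u σ hσ hm, ← dl_image (h.injOn' u σ hσ)]
  exact dl_congr fun v _ => (hG u _ (h.down σ hσ _ (erase_subset _ _))).symm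

end Aux

open Classical in
/-- the cochain attached to the functional `y` -/
noncomputable def Psi (a : U → α → α) (F : Finset α → ZMod 2) (y : Module.Dual k U)
    (σ : Finset α) : ZMod 2 :=
  ∑ u, (if y u = 1 then F (σ.image (a u)) else 0) + ∑ u, (if y u = 0 then F (σ.image (a u)) else 0)

omit [Fintype k] in
theorem FData.psi_cob (h : FData k U K K' a s m) {F : Finset α → ZMod 2} (hF : Cocyc K m F)
    (y : Module.Dual k U) (hy : y ≠ 0) : Cob K m (Psi a F y) := by
  classical
  obtain ⟨e, he⟩ : ∃ e, y e = 1 := by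
    obtain ⟨u, hu⟩ : ∃ u, y u ≠ 0 := by
      by_contra hc
      push Not at hc
      exact hy (LinearMap.ext hc)
    exact ⟨(y u)⁻¹ • u, by rw [map_smul, smul_eq_mul, inv_mul_cancel₀ hu]⟩
  have hco : Cocyc K m (Psi a F y) := by
    have key : ∀ c : k, Cocyc K m (fun σ => ∑ u, (if y u = c then F (σ.image (a u)) else 0)) := by
      intro c
      refine cocyc_sum _ fun u _ => ?_
      split_ifs
      · exact hF.comap (fun σ _ => (h.a_inj u).injOn) (h.img_mem u)
      · exact cocyc_zero
    exact (key 1).add (key 0)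
  have hinv : ∀ u₀, y u₀ = 0 → ∀ σ, Psi a F y (σ.image (a u₀)) = Psi a F y σ := by
    intro u₀ h0 σ
    have key : ∀ c : k, ∑ u, (if y u = c then F ((σ.image (a u₀)).image (a u)) else 0) =
        ∑ u, (if y u = c then F (σ.image (a u)) else 0) := by
      intro c
      rw [← Equiv.sum_comp (Equiv.addRight u₀)
        (fun u => if y u = c then F (σ.image (a u)) else 0)]
      refine sum_congr rfl fun u _ => ?_
      simp only [Equiv.coe_addRight, map_add, h0, add_zero, h.img_img]
    unfold Psi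
    rw [key, key]
  have hvan : ∀ u₁, y u₁ = 1 → ∀ σ : Finset α, σ.image (a u₁) = σ → Psi a F y σ = 0 := by
    intro u₁ h1 σ hσ
    unfold Psi
    rw [z2_add_eq_zero, ← Equiv.sum_comp (Equiv.addRight u₁)
      (fun u => if y u = 1 then F (σ.image (a u)) else 0)]
    refine sum_congr rfl fun u _ => ?_
    simp only [Equiv.coe_addRight, map_add, h1, add_eq_right, ← h.img_img, hσ]
  have hG : ∀ c : k, ∃ G : Finset β → ZMod 2,
      (∀ σ, (∀ v ∈ σ, ¬ ∀ u, a u (s v) = s v → y u = 0) → G σ = 0) ∧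
      ∀ σ ∈ K', σ.card = m → Psi a F y (σ.image (fun v => a (c • e) (s v))) = dl G σ := by
    intro c
    refine h.racyc y hy _ (hco.comap (h.injOn' _) (h.img_mem' _)) fun σ hσ _ hb => ?_
    obtain ⟨u₁, h1, h2⟩ : ∃ u₁, y u₁ = 1 ∧ ∀ w ∈ σ, a u₁ (s w) = s w := by
      rcases σ.eq_empty_or_nonempty with rfl | hne
      · exact ⟨e, he, by simp⟩
      · obtain ⟨v, hv, hn⟩ := h.nest σ hσ hne
        have := hb v hv
        push Not at this
        obtain ⟨u, hu1, hu2⟩ := this
        exact ⟨(y u)⁻¹ • u, by rw [map_smul, smul_eq_mul, inv_mul_cancel₀ hu2],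
          fun w hw => hn w hw _ (h.smul σ hσ v hv _ u hu1)⟩
    refine hvan u₁ h1 _ ?_
    rw [h.img_img']
    exact image_congr fun w hw => by
      show a (u₁ + c • e) (s w) = a (c • e) (s w)
      rw [add_comm, h.add, h2 w hw]
  choose G hG0 hG1 using hG
  refine h.cob_ext (fun u => G (y u)) ?_ ?_
  · intro u u' σ hσ e'
    by_cases hb : ∀ v ∈ σ, ¬ ∀ u, a u (s v) = s v → y u = 0
    · show G (y u) σ = G (y u') σ
      rw [hG0 _ σ hb, hG0 _ σ hb]
    · push Not at hb
      obtain ⟨v, hv, hg⟩ := hb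
      have : a u (s v) ∈ σ.image (fun v => a u' (s v)) := e' ▸ mem_image_of_mem _ hv
      obtain ⟨w, hw, e2⟩ := mem_image.1 this
      have e3 := h.fix_of_eq e2.symm
      obtain rfl := h.inj σ hσ σ hσ v hv w hw _ e3
      have e4 := hg _ e3
      rw [map_add, map_neg, neg_add_eq_zero] at e4
      show G (y u) σ = G (y u') σ
      rw [e4]
  · intro u σ hσ hm
    show _ = dl (G (y u)) σ
    rw [← hG1 _ σ hσ hm, ← hinv (y u • e - u) (by simp [he]) (σ.image _), h.img_img',
      sub_add_cancel]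

theorem sum_psi (hk : Odd (Fintype.card k)) [Fintype (Module.Dual k U)] (hz : ∀ v, a 0 v = v)
    (F : Finset α → ZMod 2) (σ : Finset α) : ∑ y : Module.Dual k U, Psi a F y σ = F σ := by
  classical
  unfold Psi
  rw [sum_add_distrib, sum_comm, sum_comm (s := (univ : Finset (Module.Dual k U))),
    ← sum_add_distrib, sum_eq_single (0 : U)]
  · have e : σ.image (a 0) = σ := by
      rw [image_congr (g := id) fun v _ => hz v, image_id]
    have ho : Odd (Fintype.card (Module.Dual k U)) := by
      rw [Module.card_eq_pow_finrank (K := k)]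
      exact hk.pow
    simp only [map_zero, zero_ne_one, if_false, if_true, sum_const_zero, zero_add, e, sum_const,
      card_univ, nsmul_eq_mul]
    rw [(ZMod.natCast_eq_one_iff_odd).2 ho, one_mul]
  · intro u _ hu
    obtain ⟨y₁, h1⟩ : ∃ y₁ : Module.Dual k U, y₁ u = 1 := Module.Projective.exists_dual_eq_one k hu
    rw [z2_add_eq_zero, ← Equiv.sum_comp (Equiv.addRight y₁)
      (fun y : Module.Dual k U => if y u = 1 then F (σ.image (a u)) else 0)]
    refine sum_congr rfl fun y _ => ?_
    simp only [Equiv.coe_addRight, LinearMap.add_apply, h1, add_eq_right]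
  · intro hn
    exact absurd (mem_univ _) hn

omit [Fintype k] in
theorem FData.bar_inv (h : FData k U K K' a s m) (F : Finset α → ZMod 2) (u₀ : U)
    (σ : Finset β) : ∑ u, F ((σ.image (fun v => a u₀ (s v))).image (a u)) =
      ∑ u, F ((σ.image s).image (a u)) := by
  rw [← Equiv.sum_comp (Equiv.addRight u₀) (fun u => F ((σ.image s).image (a u)))]
  refine sum_congr rfl fun u _ => ?_
  rw [h.img_img', image_image]
  rfl

/-- Write `uσ = σ.image (a u)`.  In `F₂`, for any `Φ : U → F₂`:
`Φ 0 + ∑_U Φ = ∑_{H hyperplane} (∑_H Φ + ∑_U Φ)` (for `u ≠ 0` the hyperplanes missing `u` are in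
bijection with `{y | y u = 1}`, an odd number).  For `H = ker y` the cocycle
`F_H σ = ∑_{u∈H} F (uσ) + ∑_{u∈U} F (uσ)` is `H`-invariant; for `c ∈ k` pick `u_c` with `y u_c = c`;
`σ' ↦ F_H (u_c s σ')` is a cocycle on `K'` vanishing on faces without good vertex (`σ' = ∅`: `|H|`,
`|U|` odd; otherwise `nest` gives `u₀` fixing `s σ'` with `y u₀ ≠ 0`, `U = H ⊕ k u₀`, `smul`),
so `= dl G_c` (`racyc`).  Define `G (u s σ') = G_{y u} σ'`: well defined by `inj` and since `G_c`
vanishes without good vertex; `dl G = F_H` on `K`. -/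
theorem FData.core (h : FData k U K K' a s m) (hk : Odd (Fintype.card k))
    {F : Finset α → ZMod 2} (hF : Cocyc K m F) :
    Cob K m (fun σ => F σ + ∑ u, F (σ.image (a u))) := by
  classical
  have : Finite (Module.Dual k U) :=
    Finite.of_injective (fun y : Module.Dual k U => (y : U → k)) DFunLike.coe_injective
  let _ : Fintype (Module.Dual k U) := Fintype.ofFinite _
  refine (cob_sum (univ.erase (0 : Module.Dual k U)) (F := fun y => Psi a F y)
    fun y hy => h.psi_cob hF y (ne_of_mem_erase hy)).congr fun σ _ _ => ?_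
  have h1 := sum_psi (a := a) hk h.zero F σ
  rw [← add_sum_erase _ _ (mem_univ (0 : Module.Dual k U))] at h1
  have h2 : Psi a F (0 : Module.Dual k U) σ = ∑ u, F (σ.image (a u)) := by simp [Psi]
  rw [h2] at h1
  rw [← h1, add_right_comm, z2_add_self, zero_add]

/-- `F̄ = ∑_u F (u ·)` is `U`-invariant, `F̄ ∘ s = dl G'` on `K'`; extend `G'` invariantly. -/
theorem FData.cob_of_comap (h : FData k U K K' a s m) (hk : Odd (Fintype.card k))
    {F : Finset α → ZMod 2} (hF : Cocyc K m F) (hs : Cob K' m (fun σ' => F (σ'.image s))) :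
    Cob K m F := by
  have h1 := h.core hk hF
  have h2 := h1.comap (h.injOn' 0) (h.img_mem' 0)
  simp only [h.img_zero] at h2
  have h3 : Cob K' m (fun σ' => ∑ u, F ((σ'.image s).image (a u))) := by
    refine Cob.of_add (G := fun σ' => F (σ'.image s)) ?_ hs
    exact h2.congr fun σ _ _ => add_comm _ _
  obtain ⟨G', hG'⟩ := h3
  refine h1.of_add (h.cob_ext (fun _ => G') (fun _ _ _ _ _ => rfl) fun u σ hσ hm => ?_)
  rw [h.bar_inv, ← hG' σ hσ hm]

theorem FData.cob_translate (h : FData k U K K' a s m) (hk : Odd (Fintype.card k))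
    {F : Finset α → ZMod 2} (hF : Cocyc K m F) (u : U) :
    Cob K' m (fun σ' => F (σ'.image (fun v => a u (s v))) + F (σ'.image s)) := by
  have h1 := h.core hk hF
  have h2 := h1.comap (h.injOn' 0) (h.img_mem' 0)
  have h3 := h1.comap (h.injOn' u) (h.img_mem' u)
  simp only [h.img_zero] at h2
  refine (h3.add h2).congr fun σ _ _ => ?_
  rw [h.bar_inv, add_add_add_comm, z2_add_self, add_zero]

end Crest.Agent.R66
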