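import Crest.Agent.R66.Av

/-! # Row 66: spectral gap of rank two links (task SB) -/

set_option autoImplicit false

namespace Crest.Agent.R66

open Finset

variable {ι Ω α : Type*} [DecidableEq ι] [DecidableEq α] [Fintype Ω]

namespace Sb

/-- abstract matrix inequality -/
theorem matrix_ineq {β : Type*} [DecidableEq β] (U : Finset β) (P : β → β → ℝ) (D f : β → ℝ)
    (N ε δ : ℝ) (hN : 0 < N) (hε : 0 ≤ ε) (hD : ∀ u ∈ U, 0 ≤ D u) (hDN : ∑ u ∈ U, D u = N)
    (hsym : ∀ u u', P u u' = P u' u) (hrow : ∀ u ∈ U, ∑ u' ∈ U, P u u' = D u)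
    (hoff : ∀ u ∈ U, ∀ u' ∈ U, u ≠ u' → P u u' ≤ (1 + ε) * D u * D u' / N)
    (hdiag : ∀ u ∈ U, P u u ≤ δ * D u) (h0 : ∑ u ∈ U, D u * f u = 0) :
    ∑ u ∈ U, ∑ u' ∈ U, P u u' * (f u * f u') ≤ (ε + 2 * δ) * ∑ u ∈ U, D u * f u ^ 2 := by
  let Q : β → β → ℝ := fun u u' => (1 + ε) * D u * D u' / N - P u u'
  have hQs : ∀ u u', Q u u' = Q u' u := fun u u' => by simp only [Q, hsym u u']; ring
  have hQr : ∀ u ∈ U, ∑ u' ∈ U, Q u u' = ε * D u := fun u hu => by
    simp only [Q]
    rw [sum_sub_distrib, hrow u hu, ← sum_div, ← mul_sum, hDN]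
    field_simp
    ring
  have h1 : ∑ u ∈ U, ∑ u' ∈ U, P u u' * (f u * f u') =
      ∑ u ∈ U, ∑ u' ∈ U, -(Q u u' * (f u * f u')) := by
    have : ∑ u ∈ U, ∑ u' ∈ U, (1 + ε) * D u * D u' / N * (f u * f u') = 0 := by
      refine sum_eq_zero fun u _ => ?_
      have : ∑ u' ∈ U, (1 + ε) * D u * D u' / N * (f u * f u') =
          (1 + ε) * D u / N * f u * ∑ u' ∈ U, D u' * f u' := by
        rw [mul_sum]
        exact sum_congr rfl fun u' _ => by ring
      rw [this, h0, mul_zero]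
    rw [← sub_zero (∑ u ∈ U, ∑ u' ∈ U, P u u' * (f u * f u')), ← this, ← sum_sub_distrib]
    refine sum_congr rfl fun u _ => ?_
    rw [← sum_sub_distrib]
    exact sum_congr rfl fun u' _ => by simp only [Q]; ring
  have h2 : ∀ u ∈ U, ∀ u' ∈ U, -(Q u u' * (f u * f u')) ≤
      Q u u' * f u ^ 2 / 2 + Q u' u * f u' ^ 2 / 2 +
        if u = u' then 2 * δ * (D u * f u ^ 2) else 0 := by
    intro u hu u' hu'
    split_ifs with e
    · subst e
      have h3 : -(δ * D u) ≤ Q u u := by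
        have := hdiag u hu
        have h4 : 0 ≤ (1 + ε) * D u * D u / N := by
          have := hD u hu
          positivity
        simp only [Q]
        linarith
      nlinarith [sq_nonneg (f u)]
    · have h3 : 0 ≤ Q u u' := sub_nonneg.2 (hoff u hu u' hu' e)
      rw [← hQs u u']
      nlinarith [mul_nonneg h3 (sq_nonneg (f u + f u'))]
  rw [h1]
  refine (sum_le_sum fun u hu => sum_le_sum fun u' hu' => h2 u hu u' hu').trans (le_of_eq ?_)
  simp only [sum_add_distrib]
  rw [sum_comm (f := fun u u' => Q u' u * f u' ^ 2 / 2), mul_sum, ← sum_add_distrib,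
    ← sum_add_distrib]
  refine sum_congr rfl fun u hu => ?_
  rw [← sum_div, ← sum_mul, hQr u hu, sum_ite_eq, if_pos hu]
  ring

/-- bipartite graphs with codegree at most one -/
theorem graph_ineq {β : Type*} [DecidableEq β] (U V : Finset β) (r : β → β → Prop)
    [∀ u W, Decidable (r u W)] (f : β → ℝ) (d ε : ℝ) (hd : 0 < d) (hε : 0 ≤ ε) (hU : U.Nonempty)
    (hco : ∀ u ∈ U, ∀ u' ∈ U, u ≠ u' → ∀ W W', r u W → r u' W → r u W' → r u' W' → W = W')
    (h1 : ∀ u ∈ U, d ≤ (V.filter (fun W => r u W)).card)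
    (h2 : ∀ W ∈ V, d ≤ (U.filter (fun u => r u W)).card)
    (hE : ∑ u ∈ U, ((V.filter (fun W => r u W)).card : ℝ) ≤ (1 + ε) * d ^ 3)
    (h0 : ∑ u ∈ U, ((V.filter (fun W => r u W)).card : ℝ) * f u = 0) :
    ∑ u ∈ U, ∑ W ∈ V.filter (fun W => r u W),
        f u * ((∑ u' ∈ U.filter (fun u => r u W), f u') / (U.filter (fun u => r u W)).card) ≤
      (ε + 2 / d) * ∑ u ∈ U, ((V.filter (fun W => r u W)).card : ℝ) * f u ^ 2 := by
  let P : β → β → ℝ := fun u u' =>
    ∑ W ∈ V.filter (fun W => r u W ∧ r u' W), 1 / ((U.filter (fun u => r u W)).card : ℝ)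
  have hP : ∀ u (g : β → ℝ), ∑ u' ∈ U, P u u' * g u' = ∑ W ∈ V.filter (fun W => r u W),
      (∑ u' ∈ U.filter (fun u => r u W), g u') / (U.filter (fun u => r u W)).card := by
    intro u g
    simp only [P, sum_mul, sum_div, sum_filter]
    rw [sum_comm]
    refine sum_congr rfl fun W _ => ?_
    split_ifs with h
    · refine sum_congr rfl fun u' _ => ?_
      by_cases h' : r u' W <;> simp [h, h', div_eq_inv_mul]
    · exact sum_eq_zero fun u' _ => by simp [h]
  have hPle : ∀ u u', P u u' ≤ (V.filter (fun W => r u W ∧ r u' W)).card * (1 / d) := by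
    intro u u'
    rw [← nsmul_eq_mul]
    exact sum_le_card_nsmul _ _ _ fun W hW =>
      one_div_le_one_div_of_le hd (h2 W (mem_filter.1 hW).1)
  have hN : 0 < ∑ u ∈ U, ((V.filter (fun W => r u W)).card : ℝ) :=
    sum_pos (fun u hu => hd.trans_le (h1 u hu)) hU
  have := matrix_ineq U P (fun u => ((V.filter (fun W => r u W)).card : ℝ)) f _ ε (1 / d) hN hε
    (fun u _ => Nat.cast_nonneg _) rfl (fun u u' => by simp only [P, and_comm]) ?_ ?_ ?_ h0
  · rw [mul_one_div] at this
    refine le_trans (le_of_eq (sum_congr rfl fun u _ => ?_)) this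
    rw [hP u (fun u' => f u * f u')]
    refine sum_congr rfl fun W _ => ?_
    rw [← mul_sum, mul_div_assoc]
  · intro u _
    have := hP u (fun _ => 1)
    simp only [mul_one] at this
    rw [this, card_eq_sum_ones (V.filter _), Nat.cast_sum]
    refine sum_congr rfl fun W hW => ?_
    have h3 : (0 : ℝ) < (U.filter (fun u => r u W)).card := hd.trans_le (h2 W (mem_filter.1 hW).1)
    rw [sum_const, nsmul_eq_mul, mul_one, div_self h3.ne', Nat.cast_one]
  · intro u hu u' hu' hne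
    have h3 : ((V.filter (fun W => r u W ∧ r u' W)).card : ℝ) ≤ 1 := by
      rw [Nat.cast_le_one, card_le_one]
      intro W hW W' hW'
      rw [mem_filter] at hW hW'
      exact hco u hu u' hu' hne W W' hW.2.1 hW.2.2 hW'.2.1 hW'.2.2
    refine (hPle u u').trans ((mul_le_of_le_one_left (by positivity) h3).trans ?_)
    rw [div_le_div_iff₀ hd hN, one_mul]
    refine hE.trans ?_
    have h4 := mul_le_mul (h1 u hu) (h1 u' hu') hd.le (Nat.cast_nonneg _)
    have h5 := mul_le_mul_of_nonneg_left h4 (by positivity : 0 ≤ (1 + ε) * d)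
    nlinarith
  · intro u _
    refine (hPle u u).trans (le_of_eq ?_)
    simp only [and_self]
    ring

variable {π : ι → Ω → α} {S : Finset ι} {a b : ι} {φ : Ω → ℝ}

theorem exists_fun (hφ : Meas π (S ∪ {a}) φ) (x : Ω) :
    ∃ F : α → ℝ, ∀ y ∈ cl π S x, φ y = F (π a y) := by
  classical
  refine ⟨fun u => if h : ∃ y ∈ cl π S x, π a y = u then φ h.choose else 0, fun y hy => ?_⟩
  have h : ∃ z ∈ cl π S x, π a z = π a y := ⟨y, hy, rfl⟩
  simp only [dif_pos h]
  refine hφ _ _ fun i hi => ?_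
  rcases mem_union.1 hi with hi | hi
  · rw [mem_cl.1 hy i hi, mem_cl.1 h.choose_spec.1 i hi]
  · rw [mem_singleton.1 hi, h.choose_spec.2]

theorem filter_cl (c : ι) {x y : Ω} (hy : y ∈ cl π S x) :
    (cl π S x).filter (fun z => π c z = π c y) = cl π (insert c S) y := by
  ext z
  simp only [mem_filter, mem_cl, forall_mem_insert]
  rw [and_comm]
  exact and_congr_right fun _ => forall₂_congr fun i hi => by rw [mem_cl.1 hy i hi]

theorem sum_cl {T : Finset ι} {c : ι} {w : ℕ} (hw : ∀ x, (cl π (insert c T) x).card = w)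
    (x : Ω) (g : α → ℝ) :
    ∑ y ∈ cl π T x, g (π c y) = w * ∑ u ∈ (cl π T x).image (π c), g u := by
  rw [sum_comp g (π c), mul_sum]
  refine sum_congr rfl fun u hu => ?_
  obtain ⟨y, hy, rfl⟩ := mem_image.1 hu
  rw [filter_cl c hy, hw, nsmul_eq_mul]

theorem av_eq
    (hw : ∀ x y, (cl π (insert a (insert b S)) x).card = (cl π (insert a (insert b S)) y).card)
    {F : α → ℝ} {x : Ω} (hF : ∀ y ∈ cl π S x, φ y = F (π a y)) {y : Ω} (hy : y ∈ cl π S x) :
    av π (S ∪ {b}) φ y = (∑ u ∈ (cl π (insert b S) y).image (π a), F u) /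
      ((cl π (insert b S) y).image (π a)).card := by
  have hS : S ∪ {b} = insert b S := by
    rw [union_comm, insert_eq]
  have h1 := sum_cl (fun z => hw z x) y F
  have h2 := sum_cl (fun z => hw z x) y (fun _ => 1)
  simp only [sum_const, nsmul_eq_mul, mul_one] at h2
  have h3 : ∑ z ∈ cl π (insert b S) y, φ z = ∑ z ∈ cl π (insert b S) y, F (π a z) :=
    sum_congr rfl fun z hz => hF z (cl_eq_of_mem hy ▸ cl_anti (subset_insert _ _) y hz)
  rw [av, hS, h3, h1, h2, mul_div_mul_left _ _ (card_cl_pos' _ x).ne']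

end Sb

/-- complete bipartite links: every `a`-vertex of the `S`-class occurs exactly `w` times in each
`(S+b)`-class, and equally often in the `S`-class, so `av (S+b) φ = av S φ = 0`. -/
theorem spec_prod (π : ι → Ω → α) (S : Finset ι) (a b : ι)
    (hw : ∀ x y, (cl π (insert a (insert b S)) x).card = (cl π (insert a (insert b S)) y).card)
    (h : ∀ x y, (∀ i ∈ S, π i x = π i y) →
      ∃ z, (∀ i ∈ S, π i z = π i x) ∧ π a z = π a x ∧ π b z = π b y) :
    Spec π S {a} {b} 0 := by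
  intro φ hφ h0
  rw [zero_mul]
  refine (sum_eq_zero fun x _ => ?_).le
  have hm : Meas π S (av π (S ∪ {b}) φ) := by
    intro y y' e
    obtain ⟨F, hF⟩ := Sb.exists_fun hφ y
    have hy' : y' ∈ cl π S y := mem_cl.2 fun i hi => (e i hi).symm
    have key : ∀ z ∈ cl π S y, (cl π (insert b S) z).image (π a) = (cl π S y).image (π a) := by
      intro z hz
      refine Subset.antisymm (image_subset_image ?_) fun u hu => ?_
      · rw [← cl_eq_of_mem hz]
        exact cl_anti (subset_insert _ _) z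
      · obtain ⟨v, hv, rfl⟩ := mem_image.1 hu
        obtain ⟨t, h1, h2, h3⟩ := h v z fun i hi => (mem_cl.1 hv i hi).trans (mem_cl.1 hz i hi).symm
        refine mem_image.2 ⟨t, mem_cl.2 fun i hi => ?_, h2⟩
        rcases mem_insert.1 hi with rfl | hi
        · exact h3
        · rw [h1 i hi, mem_cl.1 hv i hi, mem_cl.1 hz i hi]
    rw [Sb.av_eq hw hF (self_mem_cl S y), Sb.av_eq hw hF hy', key y (self_mem_cl S y), key y' hy']
  rw [← av_of_meas hm x, av_av_of_subset subset_union_left, h0 x]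
  simp

/-- Work in one `S`-class `C` (the classes partition `Ω`).  `E` = image of `C` under
`(π a, π b)` (all fibres have `w` elements), `φ = f ∘ π a`, `d(u)`, `d(W)` degrees in `E`.
`∑_C (av φ)² = w ∑_W (∑_{u ∼ W} f u)² / d(W) = w ∑_{u,u'} P(u,u') f u f u'`,
`P(u,u') = ∑_{W ∼ u,u'} 1/d(W)`, row sums `d(u)`, `P(u,u') ≤ 1/d` off the diagonal (`hco`),
`P(u,u) ≤ d(u)/d`.  `P' = (1+ε) d(u) d(u')/|E| - P` is `≥ 0` off the diagonal (`hE`), has row sums
`ε d(u)`, and `∑ d(u) f u = 0`; so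
`∑ P f f' = -∑ P' f f' ≤ ∑_u f(u)² (ε d(u) - 2 P'(u,u)) ≤ (ε + 2/d) ∑ d(u) f(u)²`. -/
theorem spec_plane (π : ι → Ω → α) (S : Finset ι) (a b : ι)
    (hw : ∀ x y, (cl π (insert a (insert b S)) x).card = (cl π (insert a (insert b S)) y).card)
    (d : ℕ) (ε : ℝ) (hd : 0 < d) (hε : 0 ≤ ε)
    (hco : ∀ x x' y y', (∀ i ∈ S, π i x' = π i x ∧ π i y = π i x ∧ π i y' = π i x) →
      π b x = π b x' → π b y = π b y' → π a x = π a y → π a x' = π a y' → π a x ≠ π a x' →
      π b x = π b y)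
    (hda : ∀ x, d ≤ ((cl π (insert b S) x).image (π a)).card)
    (hdb : ∀ x, d ≤ ((cl π (insert a S) x).image (π b)).card)
    (hE : ∀ x, (((cl π S x).image (fun y => (π a y, π b y))).card : ℝ) ≤ (1 + ε) * d ^ 3) :
    Spec π S {a} {b} (ε + 2 / d) := by
  classical
  intro φ hφ h0
  have e1 : ∑ x, av π (S ∪ {b}) φ x ^ 2 = ∑ x, φ x * av π (S ∪ {b}) φ x := by
    have := sum_mul_av_of_meas (meas_av (π := π) (S ∪ {b}) φ) φ
    simp only [sq]
    rw [this]
    exact sum_congr rfl fun x _ => mul_comm _ _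
  rw [e1, mul_sum, ← sum_av (π := π) S, ← sum_av (π := π) S (fun x => (ε + 2 / d) * φ x ^ 2)]
  refine sum_le_sum fun x _ => div_le_div_of_nonneg_right ?_ (card_cl_pos' S x).le
  obtain ⟨F, hF⟩ := Sb.exists_fun hφ x
  set C := cl π S x with hC
  let r : α → α → Prop := fun u W => ∃ y ∈ C, π a y = u ∧ π b y = W
  have hra : ∀ y ∈ C, (C.image (π b)).filter (fun W => r (π a y) W) =
      (cl π (insert a S) y).image (π b) := by
    intro y hy
    rw [← Sb.filter_cl a hy]
    ext W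
    simp only [mem_filter, mem_image, r]
    constructor
    · rintro ⟨-, z, hz, h1, h2⟩
      exact ⟨z, ⟨hz, h1⟩, h2⟩
    · rintro ⟨z, ⟨hz, h1⟩, h2⟩
      exact ⟨⟨z, hz, h2⟩, z, hz, h1, h2⟩
  have hrb : ∀ y ∈ C, (C.image (π a)).filter (fun u => r u (π b y)) =
      (cl π (insert b S) y).image (π a) := by
    intro y hy
    rw [← Sb.filter_cl b hy]
    ext u
    simp only [mem_filter, mem_image, r]
    constructor
    · rintro ⟨-, z, hz, h1, h2⟩
      exact ⟨z, ⟨hz, h2⟩, h1⟩
    · rintro ⟨z, ⟨hz, h1⟩, h2⟩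
      exact ⟨⟨z, hz, h2⟩, z, hz, h2, h1⟩
  set w := (cl π (insert a (insert b S)) x).card with hwdef
  have hw0 : (0 : ℝ) < w := card_cl_pos' _ x
  have hw' : ∀ z, (cl π (insert b (insert a S)) z).card = w := fun z => by
    rw [Finset.insert_comm]
    exact hw z x
  have key : ∀ g : α → α → ℝ, ∑ y ∈ C, g (π a y) (π b y) =
      w * ∑ u ∈ C.image (π a), ∑ W ∈ (C.image (π b)).filter (fun W => r u W), g u W := by
    intro g
    rw [← sum_fiberwise_of_maps_to (g := π a) (fun y hy => mem_image_of_mem _ hy), mul_sum]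
    refine sum_congr rfl fun u hu => ?_
    obtain ⟨y, hy, rfl⟩ := mem_image.1 hu
    rw [hra y hy, ← Sb.sum_cl hw' y, ← Sb.filter_cl a hy]
    exact sum_congr rfl fun z hz => by rw [(mem_filter.1 hz).2]
  have hg := Sb.graph_ineq (C.image (π a)) (C.image (π b)) r F d ε (by exact_mod_cast hd) hε
    ⟨_, mem_image_of_mem _ (self_mem_cl S x)⟩ ?_ ?_ ?_ ?_ ?_
  · have h1 := key (fun u W => F u * ((∑ u' ∈ (C.image (π a)).filter (fun u => r u W), F u') /
      ((C.image (π a)).filter (fun u => r u W)).card))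
    have h2 := key (fun u _ => F u ^ 2)
    simp only [sum_const, nsmul_eq_mul] at h2
    have h3 := mul_le_mul_of_nonneg_left hg hw0.le
    rw [← h1, mul_left_comm, ← h2, mul_sum] at h3
    refine le_trans (le_of_eq (sum_congr rfl fun y hy => ?_))
      (h3.trans (le_of_eq (sum_congr rfl fun y hy => by simp only [hF y hy])))
    beta_reduce
    rw [Sb.av_eq hw hF hy, hrb y hy, hF y hy]
  · rintro u - u' - hne W W' ⟨y1, hy1, rfl, rfl⟩ ⟨y2, hy2, rfl, h2⟩ ⟨y3, hy3, h3, rfl⟩
      ⟨y4, hy4, h4, h4'⟩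
    refine hco y1 y2 y3 y4 (fun i hi => ?_) h2.symm h4'.symm h3.symm h4.symm hne
    rw [mem_cl.1 hy1 i hi, mem_cl.1 hy2 i hi, mem_cl.1 hy3 i hi, mem_cl.1 hy4 i hi]
    exact ⟨rfl, rfl, rfl⟩
  · intro u hu
    obtain ⟨y, hy, rfl⟩ := mem_image.1 hu
    rw [hra y hy]
    exact_mod_cast hdb y
  · intro W hW
    obtain ⟨y, hy, rfl⟩ := mem_image.1 hW
    rw [hrb y hy]
    exact_mod_cast hda y
  · refine le_trans (le_of_eq ?_) (hE x)
    have h1 := key (fun _ _ => 1)
    have h2 := sum_comp (s := C) (fun _ : α × α => (1 : ℝ)) (fun y => (π a y, π b y))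
    have h3 : ∑ e ∈ C.image (fun y => (π a y, π b y)),
        (C.filter (fun y => (π a y, π b y) = e)).card • (1 : ℝ) =
        w * (C.image (fun y => (π a y, π b y))).card := by
      rw [card_eq_sum_ones (C.image _), Nat.cast_sum, mul_sum]
      refine sum_congr rfl fun e he => ?_
      obtain ⟨y, hy, rfl⟩ := mem_image.1 he
      have : C.filter (fun z => (π a z, π b z) = (π a y, π b y)) =
          cl π (insert b (insert a S)) y := by
        rw [← Sb.filter_cl b (self_mem_cl _ y), ← Sb.filter_cl a hy, filter_filter]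
        simp only [Prod.mk.injEq, hC]
      rw [this, hw', nsmul_eq_mul, Nat.cast_one]
    simp only [sum_const, nsmul_eq_mul, mul_one] at h1
    rw [h3, sum_const, nsmul_eq_mul, mul_one, h1] at h2
    exact mul_left_cancel₀ hw0.ne' h2
  · have h1 := key (fun u _ => F u)
    simp only [sum_const, nsmul_eq_mul] at h1
    have h2 := h0 x
    rw [av, div_eq_zero_iff, or_iff_left (card_cl_pos' S x).ne', sum_congr rfl hF, h1] at h2
    exact (mul_eq_zero.1 h2).resolve_left hw0.ne'

end Crest.Agent.R66
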