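import Crest.Agent.R66.Av

/-! # Row 66: trickling down and swap walks (task TK) -/

set_option autoImplicit false

namespace Crest.Agent.R66

open Finset

section Aux
variable {ι Ω α : Type} [DecidableEq ι] [DecidableEq α] [Fintype Ω] {π : ι → Ω → α}

theorem tk_anti (W : Submodule ℝ (Ω → ℝ)) (T : (Ω → ℝ) →ₗ[ℝ] (Ω → ℝ))
    (h : ∀ φ ∈ W, T φ = 0 → φ = 0) :
    ∃ C : ℝ, 0 < C ∧ ∀ φ ∈ W, ∑ x, φ x ^ 2 ≤ C * ∑ x, T φ x ^ 2 := by
  have hk : LinearMap.ker (T.domRestrict W) = ⊥ := by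
    rw [LinearMap.ker_eq_bot']
    intro φ hφ
    exact Subtype.ext (h φ.1 φ.2 hφ)
  obtain ⟨K, hK, hA⟩ := (T.domRestrict W).exists_antilipschitzWith hk
  refine ⟨(Fintype.card Ω + 1) * (K : ℝ) ^ 2, by positivity, fun φ hφ => ?_⟩
  have h1 : ‖φ‖ ≤ K * ‖T φ‖ := by
    have := hA.le_mul_dist ⟨φ, hφ⟩ 0
    simpa using this
  have hs : 0 ≤ ∑ x, T φ x ^ 2 := sum_nonneg fun _ _ => sq_nonneg _
  have h2 : ‖T φ‖ ≤ √(∑ x, T φ x ^ 2) := by
    refine (pi_norm_le_iff_of_nonneg (Real.sqrt_nonneg _)).2 fun x => ?_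
    rw [Real.norm_eq_abs]
    exact Real.abs_le_sqrt (single_le_sum (f := fun x => T φ x ^ 2) (fun _ _ => sq_nonneg _)
      (mem_univ x))
  have h3 : ‖T φ‖ ^ 2 ≤ ∑ x, T φ x ^ 2 := by
    calc ‖T φ‖ ^ 2 ≤ √(∑ x, T φ x ^ 2) ^ 2 := by gcongr
      _ = _ := Real.sq_sqrt hs
  have h4 : ∑ x, φ x ^ 2 ≤ Fintype.card Ω * ‖φ‖ ^ 2 := by
    calc ∑ x, φ x ^ 2 ≤ ∑ _x : Ω, ‖φ‖ ^ 2 := sum_le_sum fun x _ => by
          rw [← sq_abs, ← Real.norm_eq_abs]
          gcongr
          exact norm_le_pi_norm φ x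
      _ = _ := by simp
  have h5 : ‖φ‖ ^ 2 ≤ (K : ℝ) ^ 2 * ∑ x, T φ x ^ 2 := by
    calc ‖φ‖ ^ 2 ≤ (K * ‖T φ‖) ^ 2 := by gcongr
      _ = (K : ℝ) ^ 2 * ‖T φ‖ ^ 2 := by ring
      _ ≤ _ := by gcongr
  calc ∑ x, φ x ^ 2 ≤ Fintype.card Ω * ‖φ‖ ^ 2 := h4
    _ ≤ (Fintype.card Ω + 1) * ‖φ‖ ^ 2 := by gcongr; linarith
    _ ≤ (Fintype.card Ω + 1) * ((K : ℝ) ^ 2 * ∑ x, T φ x ^ 2) := by gcongr
    _ = _ := by ring

theorem tk_inj {J S : Finset ι} {l : ℝ} (hl : l < 1) (hC : Conn π J S) {a b : ι}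
    (H : ∀ c ∈ J, c ∉ S → c ≠ a → c ≠ b → Spec π (insert c S) {a} {b} l)
    {φ : Ω → ℝ} (ha : Meas π (S ∪ {a}) φ) (h0 : ∀ x, av π S φ x = 0)
    (hb : Meas π (S ∪ {b}) φ) : φ = 0 := by
  have hm : Meas π S φ := by
    refine hC φ fun c hc hcS => ?_
    by_cases hca : c = a
    · subst hca
      exact ha.mono (by intro i; simp only [mem_union, mem_singleton, mem_insert]; tauto)
    by_cases hcb : c = b
    · subst hcb
      exact hb.mono (by intro i; simp only [mem_union, mem_singleton, mem_insert]; tauto)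
    have h1 : Meas π (insert c S ∪ {a}) (fun x => φ x - av π (insert c S) φ x) :=
      (ha.mono (union_subset_union (subset_insert _ _) subset_rfl)).sub
        ((meas_av _ _).mono subset_union_left)
    have h2 : Meas π (insert c S ∪ {b}) (fun x => φ x - av π (insert c S) φ x) :=
      (hb.mono (union_subset_union (subset_insert _ _) subset_rfl)).sub
        ((meas_av _ _).mono subset_union_left)
    have h3 := H c hc hcS hca hcb _ h1 (av_sub_av _ _)
    simp only [av_of_meas h2] at h3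
    have hs : 0 ≤ ∑ x, (φ x - av π (insert c S) φ x) ^ 2 := sum_nonneg fun _ _ => sq_nonneg _
    have h4 : ∑ x, (φ x - av π (insert c S) φ x) ^ 2 = 0 := by nlinarith
    rw [sum_eq_zero_iff_of_nonneg fun _ _ => sq_nonneg _] at h4
    have h5 : φ = av π (insert c S) φ := funext fun x => by
      have := h4 x (mem_univ x)
      rw [sq_eq_zero_iff, sub_eq_zero] at this
      exact this
    rw [h5]
    exact meas_av _ _
  funext x
  rw [← av_of_meas hm x, h0 x]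
  rfl

theorem tk_lt {J S : Finset ι} {l : ℝ} (hl : l < 1) (hC : Conn π J S) {a b : ι}
    (H : ∀ c ∈ J, c ∉ S → c ≠ a → c ≠ b → Spec π (insert c S) {a} {b} l) :
    ∃ ν : ℝ, ν < 1 ∧ Spec π S {a} {b} ν := by
  let W : Submodule ℝ (Ω → ℝ) :=
    { carrier := {φ | Meas π (S ∪ {a}) φ ∧ ∀ x, av π S φ x = 0}
      add_mem' := by
        rintro φ ψ ⟨h1, h2⟩ ⟨h3, h4⟩
        refine ⟨h1.add h3, fun x => ?_⟩
        have := av_add (π := π) S φ ψ x
        rw [h2, h4, add_zero] at this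
        exact this
      zero_mem' := ⟨meas_const 0, fun x => av_const S 0 x⟩
      smul_mem' := by
        rintro c φ ⟨h1, h2⟩
        refine ⟨(meas_const c).mul h1, fun x => ?_⟩
        have := av_const_mul (π := π) S c φ x
        rw [h2, mul_zero] at this
        exact this }
  let T : (Ω → ℝ) →ₗ[ℝ] (Ω → ℝ) :=
    { toFun := fun φ x => φ x - av π (S ∪ {b}) φ x
      map_add' := fun φ ψ => funext fun x => by
        have := av_add (π := π) (S ∪ {b}) φ ψ x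
        simp only [Pi.add_apply]
        rw [show av π (S ∪ {b}) (φ + ψ) x = _ from this]
        ring
      map_smul' := fun c φ => funext fun x => by
        have := av_const_mul (π := π) (S ∪ {b}) c φ x
        simp only [Pi.smul_apply, smul_eq_mul, RingHom.id_apply]
        rw [show av π (S ∪ {b}) (c • φ) x = _ from this]
        ring }
  obtain ⟨C, hC0, hCb⟩ := tk_anti W T (by
    rintro φ ⟨h1, h2⟩ h3
    have h4 : φ = av π (S ∪ {b}) φ := funext fun x => sub_eq_zero.1 (congrFun h3 x)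
    exact tk_inj hl hC H h1 h2 (by rw [h4]; exact meas_av _ _))
  refine ⟨1 - 1 / C, by have := one_div_pos.2 hC0; linarith, fun φ h1 h2 => ?_⟩
  have h3 : ∑ x, φ x ^ 2 ≤ C * ∑ x, (φ x - av π (S ∪ {b}) φ x) ^ 2 := hCb φ ⟨h1, h2⟩
  have h4 := pyth (π := π) (S ∪ {b}) φ
  have h5 : 1 / C * ∑ x, φ x ^ 2 ≤ ∑ x, (φ x - av π (S ∪ {b}) φ x) ^ 2 := by
    rw [one_div, inv_mul_le_iff₀ hC0]
    exact h3
  nlinarith

theorem tk_est {S : Finset ι} {l ν : ℝ} (hl0 : 0 < l) (hl : l ≤ 1) (hν : 0 ≤ ν) {a b c : ι}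
    (H : Spec π (insert c S) {a} {b} (l ^ 2)) (Ha : Spec π S {a} {c} ν)
    (Hb : Spec π S {b} {c} ν) : Spec π S {a} {b} ((l + (1 - l) * ν) ^ 2) := by
  intro φ ha h0
  set κ := l + (1 - l) * ν with hκ
  have hκ0 : 0 < κ := by have := mul_nonneg (sub_nonneg.2 hl) hν; linarith
  set ψ := av π (S ∪ {b}) φ with hψ
  have hb : Meas π (S ∪ {b}) ψ := meas_av _ _
  have hψ0 : ∀ x, av π S ψ x = 0 := fun x => by
    rw [hψ, av_av_of_subset subset_union_left, h0]
  have ec : S ∪ {c} = insert c S := by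
    ext i; simp only [mem_union, mem_singleton, mem_insert]; tauto
  have hα := Ha φ ha h0
  have hβ := Hb ψ hb hψ0
  rw [ec] at hα hβ
  set Sc := insert c S with hSc
  have h1 : Meas π (Sc ∪ {a}) (fun x => φ x - av π Sc φ x) :=
    (ha.mono (union_subset_union (subset_insert _ _) subset_rfl)).sub
      ((meas_av _ _).mono subset_union_left)
  have h2 : Meas π (Sc ∪ {b}) (fun x => ψ x - av π Sc ψ x) :=
    (hb.mono (union_subset_union (subset_insert _ _) subset_rfl)).sub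
      ((meas_av _ _).mono subset_union_left)
  have h3 := H _ h1 (av_sub_av _ _)
  have e1 : ∑ x, ψ x ^ 2 = ∑ x, ψ x * φ x := by
    rw [← sum_mul_av_of_meas hb φ]
    exact sum_congr rfl fun x _ => by rw [sq]
  have e2 : ∑ x, av π Sc ψ x * av π Sc φ x = ∑ x, av π Sc ψ x * φ x :=
    sum_mul_av_of_meas (meas_av _ _) φ
  have e3 : ∑ x, av π Sc φ x * av π Sc ψ x = ∑ x, av π Sc φ x * ψ x :=
    sum_mul_av_of_meas (meas_av _ _) ψ
  have e4 := sum_mul_av_of_meas h2 (fun x => φ x - av π Sc φ x)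
  have e5 : ∑ x, ψ x * φ x = ∑ x, av π Sc ψ x * av π Sc φ x +
      ∑ x, (ψ x - av π Sc ψ x) * (φ x - av π Sc φ x) := by
    have : ∑ x, (ψ x - av π Sc ψ x) * (φ x - av π Sc φ x) =
        ∑ x, ψ x * φ x - ∑ x, av π Sc φ x * ψ x - ∑ x, av π Sc ψ x * φ x +
          ∑ x, av π Sc ψ x * av π Sc φ x := by
      rw [← sum_sub_distrib, ← sum_sub_distrib, ← sum_add_distrib]
      exact sum_congr rfl fun x _ => by ring
    have e6 : ∑ x, av π Sc φ x * av π Sc ψ x = ∑ x, av π Sc ψ x * av π Sc φ x :=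
      sum_congr rfl fun x _ => mul_comm _ _
    rw [this, ← e2, ← e3, e6]
    ring
  have b1 : 2 * κ * ∑ x, av π Sc ψ x * av π Sc φ x ≤
      κ ^ 2 * ∑ x, av π Sc φ x ^ 2 + ∑ x, av π Sc ψ x ^ 2 := by
    rw [mul_sum, mul_sum, ← sum_add_distrib]
    exact sum_le_sum fun x _ => by nlinarith [sq_nonneg (κ * av π Sc φ x - av π Sc ψ x)]
  have b2 : 2 * κ * l * ∑ x, (ψ x - av π Sc ψ x) *
        av π (Sc ∪ {b}) (fun x => φ x - av π Sc φ x) x ≤
      κ ^ 2 * ∑ x, av π (Sc ∪ {b}) (fun x => φ x - av π Sc φ x) x ^ 2 +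
        l ^ 2 * ∑ x, (ψ x - av π Sc ψ x) ^ 2 := by
    rw [mul_sum, mul_sum, mul_sum, ← sum_add_distrib]
    exact sum_le_sum fun x _ => by
      nlinarith [sq_nonneg (κ * av π (Sc ∪ {b}) (fun x => φ x - av π Sc φ x) x -
        l * (ψ x - av π Sc ψ x))]
  rw [e4] at b2
  have p1 := pyth (π := π) Sc φ
  have p2 := pyth (π := π) Sc ψ
  set A := ∑ x, φ x ^ 2
  set P := ∑ x, ψ x ^ 2
  set A1 := ∑ x, av π Sc φ x ^ 2
  set P1 := ∑ x, av π Sc ψ x ^ 2
  set A2 := ∑ x, (φ x - av π Sc φ x) ^ 2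
  set P2 := ∑ x, (ψ x - av π Sc ψ x) ^ 2
  set X := ∑ x, av π Sc ψ x * av π Sc φ x
  set Y := ∑ x, (ψ x - av π Sc ψ x) * (φ x - av π Sc φ x)
  set Z := ∑ x, av π (Sc ∪ {b}) (fun x => φ x - av π Sc φ x) x ^ 2
  have b3 : 2 * κ * Y ≤ l * (κ ^ 2 * A2 + P2) := by
    have : l * (2 * κ * Y) ≤ l * (l * (κ ^ 2 * A2 + P2)) := by
      have := mul_le_mul_of_nonneg_left h3 (sq_nonneg κ)
      nlinarith
    exact le_of_mul_le_mul_left this hl0
  have c1 : A1 + l * A2 ≤ κ * A := by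
    have := mul_le_mul_of_nonneg_left hα (sub_nonneg.2 hl)
    have e : A2 = A - A1 := by linarith
    rw [e, hκ]
    nlinarith
  have c2 : P1 + l * P2 ≤ κ * P := by
    have := mul_le_mul_of_nonneg_left hβ (sub_nonneg.2 hl)
    have e : P2 = P - P1 := by linarith
    rw [e, hκ]
    nlinarith
  have d : κ * P ≤ κ * (κ ^ 2 * A) := by
    have := mul_le_mul_of_nonneg_left c1 (sq_nonneg κ)
    have e : P = X + Y := by linarith
    have e' : 2 * κ * P = 2 * κ * X + 2 * κ * Y := by rw [e]; ring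
    nlinarith
  exact le_of_mul_le_mul_left d hκ0

theorem tk_step {J S : Finset ι} {l : ℝ} (hl0 : 0 < l) (hl : l < 1) (hC : Conn π J S)
    (h3 : S.card + 3 ≤ J.card)
    (H : ∀ a ∈ J, ∀ b ∈ J, ∀ c ∈ J, a ∉ S → b ∉ S → c ∉ S → a ≠ b → c ≠ a → c ≠ b →
      Spec π (insert c S) {a} {b} (l ^ 2)) :
    ∀ a ∈ J, ∀ b ∈ J, a ∉ S → b ∉ S → a ≠ b → Spec π S {a} {b} ((l / (1 - l)) ^ 2) := by
  let M : Set ℝ := {ν | 0 ≤ ν ∧ ∀ a ∈ J, ∀ b ∈ J, a ∉ S → b ∉ S → a ≠ b → Spec π S {a} {b} ν}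
  have hbdd : BddBelow M := ⟨0, fun ν hν => hν.1⟩
  have hl2 : l ^ 2 < 1 := by nlinarith
  have hev : ∀ᶠ ν in nhdsWithin (1 : ℝ) (Set.Iio 1), ν ∈ M := by
    have e0 : ∀ t : ℝ, t < 1 → ∀ᶠ ν in nhdsWithin (1 : ℝ) (Set.Iio 1), t ≤ ν := fun t ht =>
      Filter.Eventually.filter_mono nhdsWithin_le_nhds (eventually_ge_nhds ht)
    refine (e0 0 one_pos).and ?_
    rw [Filter.eventually_all_finset]
    intro a ha
    rw [Filter.eventually_all_finset]
    intro b hb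
    by_cases h : a ∉ S ∧ b ∉ S ∧ a ≠ b
    · obtain ⟨ν, hν, hs⟩ := tk_lt hl2 hC (a := a) (b := b)
        fun c hc hcS hca hcb => H a ha b hb c hc h.1 h.2.1 hcS h.2.2 hca hcb
      exact (e0 ν hν).mono fun t ht _ _ _ => hs.mono ht
    · exact Filter.Eventually.of_forall fun t h1 h2 h3 => absurd ⟨h1, h2, h3⟩ h
  obtain ⟨ν₁, hν₁M, hν₁⟩ := (hev.and self_mem_nhdsWithin).exists
  have hne : M.Nonempty := ⟨ν₁, hν₁M⟩
  set ν := sInf M with hνdef
  have hν0 : 0 ≤ ν := le_csInf hne fun t ht => ht.1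
  have hν1 : ν < 1 := (csInf_le hbdd hν₁M).trans_lt hν₁
  have hνM : ∀ a ∈ J, ∀ b ∈ J, a ∉ S → b ∉ S → a ≠ b → Spec π S {a} {b} ν := by
    intro a ha b hb haS hbS hab φ h1 h2
    have hs : 0 ≤ ∑ x, φ x ^ 2 := sum_nonneg fun _ _ => sq_nonneg _
    rcases hs.eq_or_lt with h | h
    · have := hν₁M.2 a ha b hb haS hbS hab φ h1 h2
      rw [← h, mul_zero] at this ⊢
      exact this
    · rw [← div_le_iff₀ h]
      exact le_csInf hne fun t ht => (div_le_iff₀ h).2 (ht.2 a ha b hb haS hbS hab φ h1 h2)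
  have hκ : (l + (1 - l) * ν) ^ 2 ∈ M := by
    refine ⟨sq_nonneg _, fun a ha b hb haS hbS hab => ?_⟩
    have : (insert a (insert b S)).card < J.card := by
      have := card_insert_le a (insert b S)
      have := card_insert_le b S
      omega
    obtain ⟨c, hc, hc'⟩ := exists_mem_notMem_of_card_lt_card this
    simp only [mem_insert, not_or] at hc'
    exact tk_est hl0 hl.le hν0 (H a ha b hb c hc haS hbS hc'.2.2 hab hc'.1 hc'.2.1)
      (hνM a ha c hc haS hc'.2.2 (Ne.symm hc'.1)) (hνM b hb c hc hbS hc'.2.2 (Ne.symm hc'.2.1))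
  have hle : ν ≤ (l + (1 - l) * ν) ^ 2 := csInf_le hbdd hκ
  have hfin : ν ≤ (l / (1 - l)) ^ 2 := by
    set μ := √ν with hμ
    have hμ0 : 0 ≤ μ := Real.sqrt_nonneg _
    have hμ2 : μ ^ 2 = ν := Real.sq_sqrt hν0
    have hμ1 : μ < 1 := by nlinarith
    have h1 : μ ≤ l + (1 - l) * ν := by
      rw [hμ]
      refine Real.sqrt_le_iff.2 ⟨?_, hle⟩
      have := mul_nonneg (sub_nonneg.2 hl.le) hν0
      linarith
    have h2 : μ ≤ l / (1 - l) := by
      rw [le_div_iff₀ (by linarith)]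
      rw [← hμ2] at h1
      by_contra hcon
      push Not at hcon
      nlinarith
    rw [← hμ2]
    gcongr
  exact fun a ha b hb haS hbS hab => (hνM a ha b hb haS hbS hab).mono hfin

theorem tk_swap {J S : Finset ι} {μ : ℝ} (hμ : 0 ≤ μ) {a : ι} (haS : a ∉ S) (hS : S ⊆ J)
    (H : ∀ S' ⊆ J, ∀ b ∈ J, a ∉ S' → b ∉ S' → a ≠ b → Spec π S' {a} {b} μ) (B : Finset ι) :
    B ⊆ J → a ∉ B → Disjoint S B → Spec π S {a} B (B.card * μ) := by
  induction B using Finset.induction_on with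
  | empty =>
    intro _ _ _ φ _ h0
    simp [h0]
  | insert b B hbB ih =>
    intro hB haB hd φ h1 h0
    rw [mem_insert, not_or] at haB
    rw [disjoint_insert_right] at hd
    have hB' : B ⊆ J := (subset_insert _ _).trans hB
    have i1 := ih hB' haB.2 hd.2 φ h1 h0
    have e : S ∪ insert b B = (S ∪ B) ∪ {b} := by
      ext i; simp only [mem_union, mem_singleton, mem_insert]; tauto
    have h2 : Meas π ((S ∪ B) ∪ {a}) (fun x => φ x - av π (S ∪ B) φ x) :=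
      (h1.mono (union_subset_union subset_union_left subset_rfl)).sub
        ((meas_av _ _).mono subset_union_left)
    have i2 := H (S ∪ B) (union_subset hS hB') b (hB (mem_insert_self _ _))
      (by simp [haS, haB.2]) (by simp [hd.1, hbB]) haB.1 _ h2 (av_sub_av _ _)
    have i3 := sum_sq_sub_av_le (π := π) (S ∪ B) φ
    have p := pyth (π := π) (S ∪ B) (av π ((S ∪ B) ∪ {b}) φ)
    simp only [av_av_of_subset (subset_union_left (s₂ := {b}))] at p
    simp only [av_sub, av_av_of_superset (subset_union_left (s₂ := {b}))] at i2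
    rw [e, p, card_insert_of_notMem hbB]
    push_cast
    have := mul_le_mul_of_nonneg_left i3 hμ
    linarith

end Aux

/-- Write `E_S = av π S`, `‖φ‖² = ∑ φ²`.  Step (downward induction on `S ⊆ J`): suppose
`Spec π (insert c S) {a} {b} (λ²)` for all distinct `a b c ∈ J \ S`, `0 ≤ λ < 1`, `|J \ S| ≥ 3`.
Let `μ` be the maximum of `‖E_{S+b} φ‖` over distinct `a, b ∈ J \ S` and unit `φ` with
`Meas (S+a) φ`, `E_S φ = 0` (attained by compactness, or `μ = 0`).  For a maximiser put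
`ψ = E_{S+b} φ`, pick `c`: `‖ψ‖² = ⟨φ,ψ⟩ = ⟨E_c φ, E_c ψ⟩ + ⟨φ - E_c φ, ψ - E_c ψ⟩` (`E_c = E_{S+c}`)
with `‖E_c φ‖ ≤ μ`, `‖E_c ψ‖ ≤ μ ‖ψ‖`, second term `≤ λ ‖φ - E_c φ‖ ‖ψ - E_c ψ‖`; Cauchy–Schwarz
gives `μ ≤ μ² + λ (1 - μ²)`, so `μ = 1` or `μ ≤ λ / (1 - λ)`.  If `μ = 1` then `φ = ψ` is
`Meas (S+b)`, hence for each `c`, `φ - E_c φ` is fixed by `E_{S+c+b}` so vanishes (`λ < 1`):
`Meas (S+c) φ` for all `c ∈ J \ S`, `Conn` gives `φ = E_S φ = 0`, contradiction.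
Swap walk: for `B = {b₁,…,b_j}`, `S_i = S + b₁ … b_i`:
`‖E_{S_i} φ‖² = ‖E_{S_{i-1}} φ‖² + ‖E_{S_i} (φ - E_{S_{i-1}} φ)‖² ≤ … + μ ‖φ‖²` (`pyth`, towers),
so `Spec π S {a} B (|B| μ)`. -/
theorem trickle (r : ℕ) (ε : ℝ) (hε : 0 < ε) : ∃ δ : ℝ, 0 < δ ∧ ∀ (ι Ω α : Type) [DecidableEq ι]
    [DecidableEq α] [Fintype Ω] (π : ι → Ω → α) (J : Finset ι), J.card ≤ r →
    (∀ S a b, a ≠ b → a ∉ S → b ∉ S → insert a (insert b S) = J → Spec π S {a} {b} δ) →
    (∀ S ⊆ J, S.card + 3 ≤ J.card → Conn π J S) →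
    ∀ S ⊆ J, ∀ a ∈ J, ∀ B ⊆ J, a ∉ S → a ∉ B → Disjoint S B → Spec π S {a} B ε := by
  obtain ⟨m, hm⟩ := exists_nat_ge ((r : ℝ) / ε + 2)
  have hr : 0 ≤ (r : ℝ) / ε := by positivity
  have hm2 : (2 : ℝ) ≤ m := by linarith
  refine ⟨(1 / ((r : ℝ) + m)) ^ 2, by positivity, ?_⟩
  intro ι Ω α _ _ _ π J hJ H0 hC
  have hJ' : (J.card : ℝ) ≤ r := by exact_mod_cast hJ
  have key : ∀ k : ℕ, ∀ S ⊆ J, S.card + k + 2 = J.card → ∀ a ∈ J, ∀ b ∈ J, a ∉ S → b ∉ S →
      a ≠ b → Spec π S {a} {b} ((1 / ((r : ℝ) + m - k)) ^ 2) := by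
    intro k
    induction k with
    | zero =>
      intro S hS hc a ha b hb haS hbS hab
      simp only [Nat.cast_zero, sub_zero]
      refine H0 S a b hab haS hbS (eq_of_subset_of_card_le ?_ ?_)
      · exact insert_subset ha (insert_subset hb hS)
      · rw [card_insert_of_notMem (by simp [hab, haS]), card_insert_of_notMem hbS]
        omega
    | succ k ih =>
      intro S hS hc
      have hk : (k : ℝ) ≤ r := by
        have : k ≤ r := by omega
        exact_mod_cast this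
      have hN : (1 : ℝ) < r + m - k := by linarith
      have := tk_step (π := π) (l := 1 / ((r : ℝ) + m - k)) (by positivity)
        ((div_lt_one (by linarith)).2 hN) (hC S hS (by omega)) (by omega)
        (fun a ha b hb c hc' haS hbS hcS hab hca hcb => ih (insert c S) (insert_subset hc' hS)
          (by rw [card_insert_of_notMem hcS]; omega) a ha b hb
          (by simp [haS, hca.symm]) (by simp [hbS, hcb.symm]) hab)
      have e : 1 / ((r : ℝ) + m - k) / (1 - 1 / ((r : ℝ) + m - k)) =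
          1 / ((r : ℝ) + m - (k + 1 : ℕ)) := by
        push_cast
        have h1 : (r : ℝ) + m - k ≠ 0 := by linarith
        have h2 : (r : ℝ) + m - k - 1 ≠ 0 := by linarith
        have h3 : (r : ℝ) + m - (k + 1) ≠ 0 := by linarith
        field_simp
        ring
      rw [e] at this
      exact this
  have key2 : ∀ S ⊆ J, ∀ a ∈ J, ∀ b ∈ J, a ∉ S → b ∉ S → a ≠ b →
      Spec π S {a} {b} ((1 / (m : ℝ)) ^ 2) := by
    intro S hS a ha b hb haS hbS hab
    have h1 : (insert a (insert b S)).card ≤ J.card :=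
      card_le_card (insert_subset ha (insert_subset hb hS))
    rw [card_insert_of_notMem (by simp [hab, haS]), card_insert_of_notMem hbS] at h1
    obtain ⟨k, hk⟩ : ∃ k, S.card + k + 2 = J.card := ⟨J.card - S.card - 2, by omega⟩
    have hk' : (k : ℝ) ≤ r := by
      have : k ≤ r := by omega
      exact_mod_cast this
    refine (key k S hS hk a ha b hb haS hbS hab).mono ?_
    have h3 : (m : ℝ) ≤ r + m - k := by linarith
    have h4 : (0 : ℝ) < m := by linarith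
    have h5 : 1 / ((r : ℝ) + m - k) ≤ 1 / m := one_div_le_one_div_of_le h4 h3
    have h6 : 0 ≤ 1 / ((r : ℝ) + m - k) := one_div_nonneg.2 (by linarith)
    exact pow_le_pow_left₀ h6 h5 2
  intro S hS a ha B hB haS haB hd
  refine (tk_swap (sq_nonneg _) haS hS (fun S' hS' b hb => key2 S' hS' a ha b hb) B hB haB
    hd).mono ?_
  have hBc : (B.card : ℝ) ≤ r := by
    have : B.card ≤ r := (card_le_card hB).trans hJ
    exact_mod_cast this
  have h1 : (r : ℝ) ≤ ε * m := by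
    have : (r : ℝ) / ε ≤ m := by linarith
    rw [div_le_iff₀ hε] at this
    linarith
  have h2 : (0 : ℝ) < m := by linarith
  rw [div_pow, one_pow, mul_one_div, div_le_iff₀ (by positivity)]
  nlinarith [mul_pos hε h2]

end Crest.Agent.R66
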