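import Crest.Agent.R66.Link
import Crest.Agent.R66.Trickle
import Crest.Agent.R66.SpecBase

/-! # Row 66: spectral gaps of the coset complex (task GS) -/

set_option autoImplicit false

namespace Crest.Agent.R66

open Finset Module Matrix

section LinAlg
variable {k V : Type*} [Field k] [AddCommGroup V] [Module k V] [FiniteDimensional k V]

theorem gs_sup_eq {X X' Y : Submodule k V} (hne : X ≠ X') (h1 : finrank k X = finrank k X')
    (hX : X ≤ Y) (hX' : X' ≤ Y) (hY : finrank k Y = finrank k X + 1) : X ⊔ X' = Y := by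
  refine Submodule.eq_of_le_of_finrank_le (sup_le hX hX') ?_
  have : X < X ⊔ X' := by
    refine lt_of_le_of_ne le_sup_left fun e => hne ?_
    exact (Submodule.eq_of_le_of_finrank_le (e ▸ le_sup_right : X' ≤ X) h1.le).symm
  have := Submodule.finrank_lt_finrank_of_lt this
  omega

theorem gs_inf_eq {X X' Y : Submodule k V} (hne : X ≠ X') (h1 : finrank k X = finrank k X')
    (hX : Y ≤ X) (hX' : Y ≤ X') (hY : finrank k Y + 1 = finrank k X) : X ⊓ X' = Y := by
  refine (Submodule.eq_of_le_of_finrank_le (le_inf hX hX') ?_).symm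
  have : X ⊓ X' < X := by
    refine lt_of_le_of_ne inf_le_left fun e => hne ?_
    exact Submodule.eq_of_le_of_finrank_le (e ▸ inf_le_right : X ≤ X') h1.ge
  have := Submodule.finrank_lt_finrank_of_lt this
  omega

end LinAlg

section
variable {k R : Type} [Field k] [CommRing R] [Algebra k R] (τ : Trunc k R) [Finite R]
  {n : Type} [Fintype n] [DecidableEq n] {𝓘 : Finset (Finset n)} {I : Finset n}

theorem card_cl_vert (J : Finset (Finset n)) (x y : SL n R) :
    (cl (vert τ) J x).card = (cl (vert τ) J y).card := by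
  refine card_bij (fun z _ => y * x⁻¹ * z) (fun z hz => ?_) (fun z _ z' _ h => by simpa using h)
    (fun z hz => ⟨x * y⁻¹ * z, ?_, by simp [mul_assoc]⟩)
  · rw [mem_cl_vert] at hz ⊢
    simpa [mul_assoc] using hz
  · rw [mem_cl_vert] at hz ⊢
    simpa [mul_assoc] using hz

omit [Finite R] in
theorem gs_comp (hc : ChainOK 𝓘) (hI : I ∈ 𝓘) {c : Finset n} (h : c ∈ 𝓘) : c ⊆ I ∨ I ⊆ c := by
  by_cases e : c = I
  · exact Or.inl (e ▸ Subset.refl _)
  · exact hc.1 h hI e

theorem gs_LL_mono (hc : ChainOK 𝓘) (hI : I ∈ 𝓘) {c c' : Finset n} (h : c ∈ 𝓘) (h' : c' ∈ 𝓘)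
    (hle : (LL I c).card ≤ (LL I c').card) : LL I c ⊆ LL I c' := by
  rcases LL_chain hc hI h h' with e | e
  · exact e
  · exact (eq_of_subset_of_card_le e hle).symm.subset

theorem gs_lev_surj (hc : ChainOK 𝓘) (hI : I ∈ 𝓘) (hN : 𝓘.card = Fintype.card n) {r : ℕ}
    (hr : r < Fintype.card n) : ∃ c ∈ 𝓘, (LL I c).card = r := by
  have h1 : lev I 𝓘 ⊆ range (Fintype.card n) := by
    intro j hj
    obtain ⟨c, hc', rfl⟩ := mem_image.1 hj
    exact mem_range.2 (card_LL_lt hc hI hc')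
  have h2 : lev I 𝓘 = range (Fintype.card n) :=
    eq_of_subset_of_card_le h1 (by rw [card_lev hc hI (Subset.refl _), card_range, hN])
  have : r ∈ lev I 𝓘 := h2 ▸ mem_range.2 hr
  obtain ⟨c, hc', e⟩ := mem_image.1 this
  exact ⟨c, hc', e⟩

/-- the subspace of colour `c` of the chamber `y`, seen from `x` -/
def gW (I : Finset n) (x y : SL n R) (c : Finset n) : Submodule k (n → k) :=
  Wsp τ I (x⁻¹ * y) (LL I c)

theorem gW_self (x : SL n R) (c : Finset n) : gW τ I x x c = coord k (LL I c) := by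
  simp [gW, Wsp_one]

theorem gW_eq_iff (hc : ChainOK 𝓘) (hI : I ∈ 𝓘) {x y y' : SL n R} (hy : x⁻¹ * y ∈ PP τ I)
    (hy' : x⁻¹ * y' ∈ PP τ I) {c : Finset n} (h : c ∈ 𝓘) :
    gW τ I x y c = gW τ I x y' c ↔ vert τ c y = vert τ c y' := by
  rw [gW, gW, Wsp_eq_iff τ hy hy' (gs_comp hc hI h), vert_eq_iff]
  simp [mul_assoc]

theorem gW_lam (hc : ChainOK 𝓘) (hI : I ∈ 𝓘) {x y : SL n R} (hy : x⁻¹ * y ∈ PP τ I)
    {c : Finset n} (h : c ∈ 𝓘) : lam τ I x (vert τ c y) = gW τ I x y c := by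
  have := lam_vert τ x hy (gs_comp hc hI h)
  rwa [mul_inv_cancel_left] at this

theorem gW_of_mem (hc : ChainOK 𝓘) {T : Finset (Finset n)} (hT : T ⊆ 𝓘) (hI : I ∈ T)
    {x y : SL n R} (hy : y ∈ cl (vert τ) T x) {c : Finset n} (h : c ∈ T) :
    gW τ I x y c = coord k (LL I c) := by
  rw [mem_cl_vert] at hy
  exact (mem_PP_iff_Wsp τ (hy I hI) (gs_comp hc (hT hI) (hT h))).1 (hy c h)

theorem finrank_gW {x y : SL n R} (hy : x⁻¹ * y ∈ PP τ I) (c : Finset n) :
    finrank k (gW τ I x y c) = (LL I c).card := finrank_Wsp τ hy _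

theorem gW_Tr {x y : SL n R} (hy : x⁻¹ * y ∈ PP τ I) (c : Finset n) :
    gW τ I x y c ∈ Tr (coord k Iᶜ) := Wsp_Tr τ hy (LL_comp I c)

theorem gW_mono (hc : ChainOK 𝓘) (hI : I ∈ 𝓘) (x y : SL n R) {c c' : Finset n} (h : c ∈ 𝓘)
    (h' : c' ∈ 𝓘) (hle : (LL I c).card ≤ (LL I c').card) : gW τ I x y c ≤ gW τ I x y c' :=
  Wsp_mono τ I _ (gs_LL_mono hc hI h h' hle)

/-- realisation of good chains compatible with the standard flag of type `T` -/
theorem gs_real [Fintype k] (hq : 3 < Fintype.card k) (hc : ChainOK 𝓘) {T : Finset (Finset n)}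
    (hT : T ⊆ 𝓘) (hI : I ∈ T) (x : SL n R) (σ : Finset (Submodule k (n → k)))
    (hσ : ∀ W ∈ σ, W ∈ Tr (coord k Iᶜ)) (h1 : IsChain (· ≤ ·) (σ : Set (Submodule k (n → k))))
    (h2 : ∀ W ∈ σ, ∀ c ∈ T, W ≤ coord k (LL I c) ∨ coord k (LL I c) ≤ W) :
    ∃ y ∈ cl (vert τ) T x, ∀ c ∈ 𝓘, ∀ W ∈ σ, finrank k W = (LL I c).card → gW τ I x y c = W := by
  have hstd : ∀ c, coord k (LL I c) = gW τ I x x c := fun c => (gW_self τ x c).symm
  have hx : x⁻¹ * x ∈ PP τ I := by simp
  obtain ⟨p, hp, h⟩ := link_surj τ hq hc (hT hI) (σ ∪ T.image fun c => coord k (LL I c))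
    (fun W hW => by
      rcases mem_union.1 hW with hW | hW
      · exact hσ W hW
      · obtain ⟨c, _, rfl⟩ := mem_image.1 hW
        rw [hstd]; exact gW_Tr τ hx c)
    (fun W hW W' hW' hne => by
      simp only [coe_union, coe_image, Set.mem_union, mem_coe, Set.mem_image] at hW hW'
      rcases hW with hW | ⟨c, hc1, rfl⟩ <;> rcases hW' with hW' | ⟨c', hc2, rfl⟩
      · exact h1 hW hW' hne
      · exact h2 W hW c' hc2
      · exact (h2 W' hW' c hc1).symm
      · simp only [hstd]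
        rcases le_total (LL I c).card (LL I c').card with e | e
        · exact Or.inl (gW_mono τ hc (hT hI) x x (hT hc1) (hT hc2) e)
        · exact Or.inr (gW_mono τ hc (hT hI) x x (hT hc2) (hT hc1) e))
  refine ⟨x * p, ?_, fun c hc' W hW e => ?_⟩
  · rw [mem_cl_vert]
    intro c hc'
    rw [inv_mul_cancel_left, mem_PP_iff_Wsp τ hp (gs_comp hc (hT hI) (hT hc'))]
    exact h c (hT hc') _ (mem_union_right _ (mem_image_of_mem _ hc')) (finrank_coord _)
  · rw [gW, inv_mul_cancel_left]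
    exact h c hc' W (mem_union_left _ hW) e

omit [Finite R] in
/-- the standard subspace of level `j ≤ |n|` -/
theorem gs_std (hc : ChainOK 𝓘) (hI : I ∈ 𝓘) (hN : 𝓘.card = Fintype.card n) {j : ℕ}
    (hj : j ≤ Fintype.card n) : ∃ L : Finset n, L.card = j ∧ (L ⊆ I ∨ I ⊆ L) ∧
      (∀ c ∈ 𝓘, (LL I c).card ≤ j → LL I c ⊆ L) ∧ (∀ c ∈ 𝓘, j ≤ (LL I c).card → L ⊆ LL I c) ∧
      (L = univ ∨ ∃ c ∈ 𝓘, L = LL I c) := by
  rcases hj.lt_or_eq with hj | hj
  · obtain ⟨c, hc', e⟩ := gs_lev_surj hc hI hN hj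
    exact ⟨LL I c, e, LL_comp I c, fun c' h' hle => gs_LL_mono hc hI h' hc' (by omega),
      fun c' h' hle => gs_LL_mono hc hI hc' h' (by omega), Or.inr ⟨c, hc', rfl⟩⟩
  · refine ⟨univ, by simp [hj], Or.inr (subset_univ _), fun _ _ _ => subset_univ _,
      fun c' h' hle => ?_, Or.inl rfl⟩
    have := card_LL_lt hc hI h'
    omega

omit [Fintype n] [DecidableEq n] in
theorem gs_coord_mono {L L' : Finset n} (h : L ⊆ L') : coord k L ≤ coord k L' := by
  intro w hw
  rw [mem_coord] at hw ⊢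
  exact fun i hi => hw i fun hi' => hi (h hi')

theorem gs_coord_Tr {L : Finset n} (h : L ⊆ I ∨ I ⊆ L) : coord k L ∈ Tr (coord k Iᶜ) := by
  rcases h with h | h
  · left
    rw [eq_bot_iff]
    rintro w ⟨h1, h2⟩
    rw [SetLike.mem_coe, mem_coord] at h1 h2
    ext i
    by_cases hi : i ∈ I
    · exact h2 i (by simpa using hi)
    · exact h1 i fun h' => hi (h h')
  · right
    rw [eq_top_iff]
    intro w _
    have : w = (fun i => if i ∈ I then w i else 0) + (fun i => if i ∈ I then 0 else w i) := by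
      ext i; by_cases hi : i ∈ I <;> simp [hi]
    rw [this]
    refine Submodule.add_mem_sup (mem_coord.2 fun i hi => ?_) (mem_coord.2 fun i hi => ?_)
    · rw [if_neg fun h' => hi (h h')]
    · rw [if_pos (by simpa using hi)]

/-- degrees in the rank one links -/
theorem gs_deg [Fintype k] (hq : 3 < Fintype.card k) (hc : ChainOK 𝓘)
    (hN : 𝓘.card = Fintype.card n) (hI : I ∈ 𝓘) {c : Finset n} (h : c ∈ 𝓘) (hne : c ≠ I)
    (x : SL n R) :
    Fintype.card k - 3 ≤ ((cl (vert τ) (𝓘.erase c) x).image (vert τ c)).card := by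
  have hr0 : (LL I c).card ≠ 0 := fun e =>
    hne (card_LL_inj hc hI h hI (by rw [e, LL_self, card_empty]))
  have hr1 := card_LL_lt hc hI h
  obtain ⟨L, hL, hL1, hL2, -, -⟩ := gs_std hc hI hN (j := (LL I c).card - 1) (by omega)
  obtain ⟨L', hL', hL1', hL2', hL3', -⟩ := gs_std hc hI hN (j := (LL I c).card + 1) (by omega)
  have hLL' : L ⊆ L' := by
    obtain ⟨c₀, hc₀, e⟩ := gs_lev_surj hc hI hN (r := (LL I c).card - 1) (by omega)
    have : LL I c₀ = L := eq_of_subset_of_card_le (hL2 c₀ hc₀ e.le) (by omega)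
    exact this ▸ hL2' c₀ hc₀ (by omega)
  obtain ⟨A, hA, hA'⟩ := count_lower (goodFam_Tr (coord k Iᶜ)) (gs_coord_Tr hL1) (gs_coord_Tr hL1')
    (gs_coord_mono hLL') (by rw [finrank_coord, finrank_coord]; omega)
  have hsub : A ⊆ ((cl (vert τ) (𝓘.erase c) x).image (vert τ c)).image (lam τ I x) := by
    intro X hX
    obtain ⟨h1, h2, h3, h4⟩ := hA' X hX
    rw [finrank_coord] at h4
    have hIe : I ∈ 𝓘.erase c := mem_erase.2 ⟨hne.symm, hI⟩
    obtain ⟨y, hy, hy'⟩ := gs_real τ hq hc (erase_subset c 𝓘) hIe x {X} (by simpa using h1)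
      (by simp) (fun W hW c' hc' => by
        rw [mem_singleton.1 hW]
        obtain ⟨hc1, hc2⟩ := mem_erase.1 hc'
        have : (LL I c').card ≠ (LL I c).card := fun e => hc1 (card_LL_inj hc hI hc2 h e)
        rcases this.lt_or_gt with e | e
        · exact Or.inr ((gs_coord_mono (hL2 c' hc2 (by omega))).trans h2)
        · exact Or.inl (h3.trans (gs_coord_mono (hL3' c' hc2 (by omega)))))
    refine mem_image.2 ⟨vert τ c y, mem_image_of_mem _ hy, ?_⟩
    rw [gW_lam τ hc hI ((mem_cl_vert τ).1 hy I hIe) h]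
    exact hy' c h X (mem_singleton_self _) (by omega)
  have := (card_le_card hsub).trans card_image_le
  omega

theorem gs_nat1 {q a : ℕ} (hq : 3 < q) (h : (q - 1) * a ≤ q ^ 2) : a ≤ q + 2 := by
  obtain ⟨r, rfl⟩ : ∃ r, q = r + 1 := ⟨q - 1, by omega⟩
  simp only [Nat.add_sub_cancel] at h
  by_contra! h'
  nlinarith

theorem gs_nat2 {q a : ℕ} (hq : 3 < q) (h : (q - 1) * a ≤ q ^ 3) : a ≤ (q + 2) ^ 2 := by
  obtain ⟨r, rfl⟩ : ∃ r, q = r + 1 := ⟨q - 1, by omega⟩
  simp only [Nat.add_sub_cancel] at h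
  by_contra! h'
  have : r * (r + 1 + 2) ^ 2 ≤ r * a := Nat.mul_le_mul_left _ h'.le
  nlinarith

/-- number of edges in a rank two link with adjacent levels -/
theorem gs_edges [Fintype k] (hq : 3 < Fintype.card k) (hc : ChainOK 𝓘)
    (hN : 𝓘.card = Fintype.card n) {S : Finset (Finset n)} (hI : I ∈ S) {a b : Finset n}
    (ha : a ∉ S) (hS : insert a (insert b S) = 𝓘) (hab : (LL I a).card + 1 = (LL I b).card)
    (x : SL n R) :
    ((cl (vert τ) S x).image (fun y => (vert τ a y, vert τ b y))).card ≤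
      (Fintype.card k + 2) ^ 3 := by
  classical
  have hS𝓘 : S ⊆ 𝓘 := fun c h => hS ▸ mem_insert_of_mem (mem_insert_of_mem h)
  have hI' := hS𝓘 hI
  have ha' : a ∈ 𝓘 := hS ▸ mem_insert_self _ _
  have hb' : b ∈ 𝓘 := hS ▸ mem_insert_of_mem (mem_insert_self _ _)
  have hr0 : (LL I a).card ≠ 0 := fun e =>
    ha (card_LL_inj hc hI' ha' hI' (by rw [e, LL_self, card_empty]) ▸ hI)
  have hr1 := card_LL_lt hc hI' hb'
  obtain ⟨c₀, hc₀, e₀⟩ := gs_lev_surj hc hI' hN (r := (LL I a).card - 1) (by omega)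
  have hc₀S : c₀ ∈ S := by
    rw [← hS] at hc₀
    rcases mem_insert.1 hc₀ with rfl | h
    · omega
    rcases mem_insert.1 h with rfl | h
    · omega
    · exact h
  obtain ⟨L', hL', -, -, -, hL4⟩ := gs_std hc hI' hN (j := (LL I b).card + 1) (by omega)
  have hP : ∀ y ∈ cl (vert τ) S x, x⁻¹ * y ∈ PP τ I := fun y hy => (mem_cl_vert τ).1 hy I hI
  have hlo : ∀ y ∈ cl (vert τ) S x, coord k (LL I c₀) ≤ gW τ I x y a := fun y hy => by
    rw [← gW_of_mem τ hc hS𝓘 hI hy hc₀S]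
    exact gW_mono τ hc hI' x y hc₀ ha' (by omega)
  have hmid : ∀ y, gW τ I x y a ≤ gW τ I x y b := fun y =>
    gW_mono τ hc hI' x y ha' hb' (by omega)
  have hhi : ∀ y ∈ cl (vert τ) S x, gW τ I x y b ≤ coord k L' := fun y hy => by
    rcases hL4 with rfl | ⟨c₁, hc₁, rfl⟩
    · intro w _; simp [mem_coord]
    · have hc₁S : c₁ ∈ S := by
        have h := hc₁
        rw [← hS] at h
        rcases mem_insert.1 h with rfl | h
        · omega
        rcases mem_insert.1 h with rfl | h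
        · omega
        · exact h
      rw [← gW_of_mem τ hc hS𝓘 hI hy hc₁S]
      exact gW_mono τ hc hI' x y hb' hc₁ (by omega)
  set E := (cl (vert τ) S x).image (fun y => (gW τ I x y a, gW τ I x y b)) with hE
  have h1 : ((cl (vert τ) S x).image (fun y => (vert τ a y, vert τ b y))).card ≤ E.card := by
    refine card_le_card_of_injOn (fun e => (lam τ I x e.1, lam τ I x e.2)) (fun e he => ?_) ?_
    · obtain ⟨y, hy, rfl⟩ := mem_image.1 he
      refine mem_coe.2 (mem_image.2 ⟨y, hy, ?_⟩)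
      simp only [gW_lam τ hc hI' (hP y hy) ha', gW_lam τ hc hI' (hP y hy) hb']
    · intro e he e' he' h
      obtain ⟨y, hy, rfl⟩ := mem_image.1 (mem_coe.1 he)
      obtain ⟨y', hy', rfl⟩ := mem_image.1 (mem_coe.1 he')
      simp only [gW_lam τ hc hI' (hP y hy) ha', gW_lam τ hc hI' (hP y hy) hb',
        gW_lam τ hc hI' (hP y' hy') ha', gW_lam τ hc hI' (hP y' hy') hb', Prod.mk.injEq] at h
      rw [(gW_eq_iff τ hc hI' (hP y hy) (hP y' hy') ha').1 h.1,
        (gW_eq_iff τ hc hI' (hP y hy) (hP y' hy') hb').1 h.2]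
  have h2 : (E.image Prod.fst).card ≤ (Fintype.card k + 2) ^ 2 := by
    refine gs_nat2 hq (count_upper (W := coord k (LL I c₀)) (W₂ := coord k L')
      (by rw [finrank_coord, finrank_coord]; omega) _ fun X hX => ?_)
    obtain ⟨e, he, rfl⟩ := mem_image.1 hX
    obtain ⟨y, hy, rfl⟩ := mem_image.1 he
    refine ⟨hlo y hy, (hmid y).trans (hhi y hy), ?_⟩
    rw [finrank_gW τ (hP y hy), finrank_coord]; omega
  have h3 : ∀ X ∈ E.image Prod.fst, (E.filter (fun e => e.1 = X)).card ≤ Fintype.card k + 2 := by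
    intro X hX
    obtain ⟨e, he, rfl⟩ := mem_image.1 hX
    obtain ⟨y, hy, rfl⟩ := mem_image.1 he
    have hinj : Set.InjOn Prod.snd ((E.filter (fun e => e.1 = gW τ I x y a) : Finset _) :
        Set (Submodule k (n → k) × Submodule k (n → k))) := by
      intro e he e' he' h
      exact Prod.ext ((mem_filter.1 (mem_coe.1 he)).2.trans (mem_filter.1 (mem_coe.1 he')).2.symm) h
    rw [← card_image_of_injOn hinj]
    refine gs_nat1 hq (count_upper (W := gW τ I x y a) (W₂ := coord k L')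
      (by rw [finrank_coord, finrank_gW τ (hP y hy)]; omega) _ fun Y hY => ?_)
    obtain ⟨e, he, rfl⟩ := mem_image.1 hY
    obtain ⟨he1, he2⟩ := mem_filter.1 he
    obtain ⟨y', hy', rfl⟩ := mem_image.1 he1
    simp only at he2 ⊢
    refine ⟨he2 ▸ hmid y', hhi y' hy', ?_⟩
    rw [finrank_gW τ (hP y hy), finrank_gW τ (hP y' hy')]; omega
  calc _ ≤ E.card := h1
    _ ≤ (Fintype.card k + 2) * (E.image Prod.fst).card := card_le_mul_card_image E _ h3
    _ ≤ (Fintype.card k + 2) * (Fintype.card k + 2) ^ 2 := Nat.mul_le_mul_left _ h2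
    _ = _ := by ring

end

/-- `𝓘` is a maximal chain: `I' ↦ |LL I I'|` is a bijection `𝓘 → range |n|` (`card_LL_inj`,
`card_LL_lt`).  Fix `I ∈ S`; chambers of the `S`-class of `x` are `x p`; vertices are encoded by
`Wsp τ I p (LL I ·)` (`Wsp_eq_iff`, `vert_eq_iff`); classes `cl J x = x · ⋂ P` all have the same
size.  If the levels `r_a`, `r_b` are not adjacent, use `spec_prod` (`link_surj` for
`phiS ∪ {W_a, W_b}`, a chain because an intermediate level is in `phiS`).  If they are `r`, `r+1`,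
use `spec_plane` with `d = q - 3`: `W_lo`, `W_hi ∈ phiS` of dimensions `r - 1`, `r + 2`;
`hco`: `X ⊔ X'` resp. `X ⊓ X'`; degrees by `count_lower` + `link_surj`; `|E| ≤ q³/(q-1) · q²/(q-1)`
by `count_upper`. -/
theorem base_spec (ε : ℝ) (hε : 0 < ε) : ∃ q₀ : ℕ, ∀ (k R n : Type) [Field k] [Fintype k] [CommRing R] [Algebra k R] [Finite R]
    [Fintype n] [DecidableEq n] (τ : Trunc k R) (𝓘 : Finset (Finset n)),
    q₀ ≤ Fintype.card k → ChainOK 𝓘 → 𝓘.card = Fintype.card n → 3 ≤ Fintype.card n →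
    ∀ S a b, a ≠ b → a ∉ S → b ∉ S → insert a (insert b S) = 𝓘 → Spec (vert τ) S {a} {b} ε := by
  obtain ⟨d₀, hd₀⟩ := exists_nat_ge (430 / ε)
  refine ⟨d₀ + 4, ?_⟩
  intro k R n _ _ _ _ _ _ _ τ 𝓘 hq hc hN h3 S a b hab ha hb hS
  have hq3 : 3 < Fintype.card k := by omega
  have hS𝓘 : S ⊆ 𝓘 := fun c h => hS ▸ mem_insert_of_mem (mem_insert_of_mem h)
  have ha' : a ∈ 𝓘 := hS ▸ mem_insert_self _ _
  have hb' : b ∈ 𝓘 := hS ▸ mem_insert_of_mem (mem_insert_self _ _)
  obtain ⟨I, hI⟩ : S.Nonempty := by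
    rw [← card_pos]
    have h1 := card_insert_le a (insert b S)
    have h2 := card_insert_le b S
    rw [hS] at h1
    omega
  have hI' := hS𝓘 hI
  have hmem : ∀ c ∈ 𝓘, c ≠ a → c ≠ b → c ∈ S := by
    intro c h h1 h2
    rw [← hS] at h
    rcases mem_insert.1 h with rfl | h
    · exact absurd rfl h1
    rcases mem_insert.1 h with rfl | h
    · exact absurd rfl h2
    · exact h
  have hne : (LL I a).card ≠ (LL I b).card := fun e => hab (card_LL_inj hc hI' ha' hb' e)
  have hw := card_cl_vert τ (insert a (insert b S))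
  have hP : ∀ x, ∀ y ∈ cl (vert τ) S x, x⁻¹ * y ∈ PP τ I := fun x y hy =>
    (mem_cl_vert τ).1 hy I hI
  by_cases hadj : (LL I a).card + 1 = (LL I b).card ∨ (LL I b).card + 1 = (LL I a).card
  · set d : ℕ := Fintype.card k - 3 with hd
    have hd1 : (1 : ℝ) ≤ d := by exact_mod_cast (by omega : 1 ≤ d)
    have hd2 : 430 / ε ≤ (d : ℝ) := hd₀.trans (by exact_mod_cast (by omega : d₀ ≤ d))
    have hd3 : 430 ≤ ε * d := by rwa [div_le_iff₀' hε] at hd2
    have eb : insert b S = 𝓘.erase a := by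
      rw [← hS, erase_insert]
      simp [hab, ha]
    have ea : insert a S = 𝓘.erase b := by
      rw [← hS, Finset.insert_comm, erase_insert]
      simp [hab.symm, hb]
    refine (spec_plane (vert τ) S a b hw d (ε / 2) (by omega) (by positivity) ?_ ?_ ?_ ?_).mono ?_
    · intro x x' y y' hcl h1 h2 h3 h4 h5
      have hx : x ∈ cl (vert τ) S x := self_mem_cl S x
      have hx' : x' ∈ cl (vert τ) S x := mem_cl.2 fun i hi => (hcl i hi).1
      have hy : y ∈ cl (vert τ) S x := mem_cl.2 fun i hi => (hcl i hi).2.1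
      have hy' : y' ∈ cl (vert τ) S x := mem_cl.2 fun i hi => (hcl i hi).2.2
      rw [← gW_eq_iff τ hc hI' (hP x _ hx) (hP x _ hx') hb'] at h1
      rw [← gW_eq_iff τ hc hI' (hP x _ hy) (hP x _ hy') hb'] at h2
      rw [← gW_eq_iff τ hc hI' (hP x _ hx) (hP x _ hy) ha'] at h3
      rw [← gW_eq_iff τ hc hI' (hP x _ hx') (hP x _ hy') ha'] at h4
      rw [Ne, ← gW_eq_iff τ hc hI' (hP x _ hx) (hP x _ hx') ha'] at h5
      rw [← gW_eq_iff τ hc hI' (hP x _ hx) (hP x _ hy) hb']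
      have f1 := finrank_gW τ (hP x _ hx)
      have f2 := finrank_gW τ (hP x _ hx')
      have f3 := finrank_gW τ (hP x _ hy)
      rcases hadj with e | e
      · have m := fun z => gW_mono τ hc hI' x z ha' hb' (by omega)
        rw [← gs_sup_eq h5 (by rw [f1, f2]) (m x) (h1 ▸ m x') (by rw [f1, f1, e]),
          gs_sup_eq h5 (by rw [f1, f2]) (h3 ▸ m y) (h4 ▸ h2 ▸ m y') (by rw [f1, f3, e])]
      · have m := fun z => gW_mono τ hc hI' x z hb' ha' (by omega)
        rw [← gs_inf_eq h5 (by rw [f1, f2]) (m x) (h1 ▸ m x') (by rw [f1, f1, e]),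
          gs_inf_eq h5 (by rw [f1, f2]) (h3 ▸ m y) (h4 ▸ h2 ▸ m y') (by rw [f1, f3, e])]
    · intro x
      rw [eb]
      exact gs_deg τ hq3 hc hN hI' ha' (fun e => ha (e ▸ hI)) x
    · intro x
      rw [ea]
      exact gs_deg τ hq3 hc hN hI' hb' (fun e => hb (e ▸ hI)) x
    · intro x
      have key : ((cl (vert τ) S x).image (fun y => (vert τ a y, vert τ b y))).card ≤
          (Fintype.card k + 2) ^ 3 := by
        rcases hadj with e | e
        · exact gs_edges τ hq3 hc hN hI ha hS e x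
        · have := gs_edges τ hq3 hc hN hI hb (by rw [Finset.insert_comm, hS]) e x
          rw [← card_image_of_injective _ Prod.swap_injective, image_image] at this
          exact this
      have e5 : Fintype.card k + 2 = d + 5 := by omega
      rw [e5] at key
      calc _ ≤ (((d + 5) ^ 3 : ℕ) : ℝ) := by exact_mod_cast key
        _ ≤ _ := by
          push_cast
          have h0 : (0 : ℝ) ≤ d := by positivity
          have : 430 * (d : ℝ) ^ 2 ≤ ε * d * d ^ 2 := by gcongr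
          nlinarith
    · have : 2 / (d : ℝ) ≤ ε / 2 := by
        rw [div_le_iff₀ (by positivity)]; nlinarith
      linarith
  · refine (spec_prod (vert τ) S a b hw fun x y hxy => ?_).mono hε.le
    have hx : x ∈ cl (vert τ) S x := self_mem_cl S x
    have hy : y ∈ cl (vert τ) S x := mem_cl.2 fun i hi => (hxy i hi).symm
    have hcmp : ∀ z ∈ cl (vert τ) S x, ∀ c' ∈ 𝓘, ∀ c ∈ S,
        gW τ I x z c' ≤ coord k (LL I c) ∨ coord k (LL I c) ≤ gW τ I x z c' := by
      intro z hz c' hc' c hcS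
      rw [← gW_of_mem τ hc hS𝓘 hI hz hcS]
      rcases le_total (LL I c').card (LL I c).card with e | e
      · exact Or.inl (gW_mono τ hc hI' x z hc' (hS𝓘 hcS) e)
      · exact Or.inr (gW_mono τ hc hI' x z (hS𝓘 hcS) hc' e)
    have hab2 : gW τ I x x a ≤ gW τ I x y b ∨ gW τ I x y b ≤ gW τ I x x a := by
      have la := card_LL_lt hc hI' ha'
      have lb := card_LL_lt hc hI' hb'
      rcases hne.lt_or_gt with e | e
      · obtain ⟨c, hc', e'⟩ := gs_lev_surj hc hI' hN (r := (LL I a).card + 1) (by omega)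
        have hcS : c ∈ S := hmem c hc' (by rintro rfl; omega) (by rintro rfl; omega)
        left
        refine (gW_mono τ hc hI' x x ha' hc' (by omega)).trans ?_
        rw [gW_of_mem τ hc hS𝓘 hI hx hcS, ← gW_of_mem τ hc hS𝓘 hI hy hcS]
        exact gW_mono τ hc hI' x y hc' hb' (by omega)
      · obtain ⟨c, hc', e'⟩ := gs_lev_surj hc hI' hN (r := (LL I b).card + 1) (by omega)
        have hcS : c ∈ S := hmem c hc' (by rintro rfl; omega) (by rintro rfl; omega)
        right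
        refine (gW_mono τ hc hI' x y hb' hc' (by omega)).trans ?_
        rw [gW_of_mem τ hc hS𝓘 hI hy hcS, ← gW_of_mem τ hc hS𝓘 hI hx hcS]
        exact gW_mono τ hc hI' x x hc' ha' (by omega)
    obtain ⟨z, hz, hz'⟩ := gs_real τ hq3 hc hS𝓘 hI x {gW τ I x x a, gW τ I x y b}
      (fun W hW => by
        rcases mem_insert.1 hW with rfl | hW
        · exact gW_Tr τ (hP x _ hx) a
        · rw [mem_singleton.1 hW]; exact gW_Tr τ (hP x _ hy) b)
      (fun W hW W' hW' hne' => by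
        simp only [coe_insert, coe_singleton, Set.mem_insert_iff, Set.mem_singleton_iff] at hW hW'
        rcases hW with rfl | rfl <;> rcases hW' with rfl | rfl
        · exact absurd rfl hne'
        · exact hab2
        · exact hab2.symm
        · exact absurd rfl hne')
      (fun W hW c hcS => by
        rcases mem_insert.1 hW with rfl | hW
        · exact hcmp x hx a ha' c hcS
        · rw [mem_singleton.1 hW]; exact hcmp y hy b hb' c hcS)
    refine ⟨z, mem_cl.1 hz, ?_, ?_⟩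
    · rw [← gW_eq_iff τ hc hI' (hP x _ hz) (hP x _ hx) ha']
      exact hz' a ha' _ (mem_insert_self _ _) (finrank_gW τ (hP x _ hx) a)
    · rw [← gW_eq_iff τ hc hI' (hP x _ hz) (hP x _ hy) hb']
      exact hz' b hb' _ (mem_insert_of_mem (mem_singleton_self _)) (finrank_gW τ (hP x _ hy) b)

/-- `trickle` + `base_spec` + `conn_of_acyc` (`link_cone`, `acyc_of_cone` for `S ≠ ∅`). -/
theorem zc_spec (N : ℕ) (ε : ℝ) (hε : 0 < ε) : ∃ q₀ : ℕ, ∀ (k R n : Type) [Field k] [Fintype k] [CommRing R] [Algebra k R] [Finite R]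
    [Fintype n] [DecidableEq n] (τ : Trunc k R) (𝓘 : Finset (Finset n)),
    q₀ ≤ Fintype.card k → Fintype.card n ≤ N → ChainOK 𝓘 → 𝓘.card = Fintype.card n →
    3 ≤ Fintype.card n → (∃ J ⊆ 𝓘, J.Nonempty ∧ Acyc (Zc τ J) 1) →
    ∀ S ⊆ 𝓘, ∀ a ∈ 𝓘, ∀ B ⊆ 𝓘, a ∉ S → a ∉ B → Disjoint S B → Spec (vert τ) S {a} B ε := by
  obtain ⟨δ, hδ, h1⟩ := trickle N ε hε
  obtain ⟨q1, h2⟩ := base_spec δ hδ
  obtain ⟨Ψ, q2, h3⟩ := link_cone N
  refine ⟨q1 + q2, ?_⟩
  intro k R n _ _ _ _ _ _ _ τ 𝓘 hq hN hc hcard hn3 ⟨J, hJ, hJne, hJa⟩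
  refine h1 _ _ _ (vert τ) 𝓘 (by omega) (h2 k R n τ 𝓘 (by omega) hc hcard hn3) fun S hS hS3 => ?_
  rcases S.eq_empty_or_nonempty with rfl | hSne
  · exact conn_of_acyc (col_vert τ) hJne (fun c h => ⟨hJ h, notMem_empty c⟩)
      fun x => by rw [cl_empty]; exact hJa
  · have hc2 : (𝓘 \ S).card = 𝓘.card - S.card := card_sdiff_of_subset hS
    exact conn_of_acyc (col_vert τ) (U := 𝓘 \ S) (card_pos.1 (by omega))
      (fun c h => mem_sdiff.1 h) fun x => acyc_of_cone
        (h3 k R n τ 𝓘 (by omega) hN hc S hS hSne (𝓘 \ S) sdiff_subset disjoint_sdiff x) (by omega)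

end Crest.Agent.R66
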