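import Crest.Agent.R66.Good

/-! # Row 66: generation of `SL_n`, existence of `k[t]/t^s`, extension of independent sets (task GN) -/

set_option autoImplicit false

namespace Crest.Agent.R66

open Finset Module Matrix

variable {k R : Type} [Field k] [CommRing R] [Algebra k R] (τ : Trunc k R)
variable {n : Type} [Fintype n] [DecidableEq n]

theorem gn_decomp (r : R) : ∃ r' : R, r = algebraMap k R (τ.c0 r) + τ.t * r' := by
  have h := τ.span_top r
  induction h using Submodule.span_induction with
  | mem x hx =>
    obtain ⟨i, -, rfl⟩ := hx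
    rcases i with _ | i
    · exact ⟨0, by simp⟩
    · exact ⟨τ.t ^ i, by simp [τ.c0_t, pow_succ']⟩
  | zero => exact ⟨0, by simp⟩
  | add x y _ _ hx hy =>
    obtain ⟨x', hx⟩ := hx
    obtain ⟨y', hy⟩ := hy
    refine ⟨x' + y', ?_⟩
    rw [map_add, map_add]
    linear_combination hx + hy
  | smul c x _ hx =>
    obtain ⟨x', hx⟩ := hx
    refine ⟨c • x', ?_⟩
    rw [map_smul, smul_eq_mul, map_mul, Algebra.smul_def, Algebra.smul_def]
    linear_combination algebraMap k R c * hx

/-- `r = algebraMap (c0 r) + t * r'` (span induction), a unit plus a nilpotent. -/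
theorem isUnit_of_c0 {r : R} (h : τ.c0 r ≠ 0) : IsUnit r := by
  obtain ⟨r', hr⟩ := gn_decomp τ r
  have h1 : IsUnit (algebraMap k R (τ.c0 r)) := (IsUnit.mk0 _ h).map _
  have h2 : IsNilpotent (τ.t * r') := ⟨τ.s, by rw [mul_pow, τ.pow_s, zero_mul]⟩
  rw [hr]
  exact h2.isUnit_add_left_of_commute h1 (Commute.all _ _)

include τ in
theorem trunc_local : IsLocalRing R := by
  have : Nontrivial R := ⟨⟨τ.t, 0, fun h => by
    have := τ.c1_t
    rw [h, map_zero] at this
    exact zero_ne_one this⟩⟩
  refine IsLocalRing.of_isUnit_or_isUnit_one_sub_self fun a => ?_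
  by_cases h : τ.c0 a = 0
  · exact Or.inr (isUnit_of_c0 τ (by simp [h]))
  · exact Or.inl (isUnit_of_c0 τ h)

@[simp] theorem mt_transvection {i j : n} (hij : i ≠ j) (r : R) :
    mt (SpecialLinearGroup.transvection hij r : SL n R) = Matrix.transvection i j r := rfl

/-- `g` is the identity outside the block `A × A` -/
def GnBlk (A : Finset n) (g : SL n R) : Prop :=
  ∀ i j, (i ∉ A ∨ j ∉ A) → mt g i j = if i = j then 1 else 0

theorem GnBlk.row {A : Finset n} {g : SL n R} (hg : GnBlk A g) {i j : n} (hij : i ≠ j)
    (hi : i ∈ A) (hj : j ∈ A) (r : R) : GnBlk A (SpecialLinearGroup.transvection hij r * g) := by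
  intro a b hab
  rw [mt_mul, mt_transvection]
  by_cases ha : a = i
  · subst ha
    have hb : b ∉ A := hab.resolve_left (not_not.2 hi)
    rw [transvection_mul_apply_same, hg a b hab, hg j b (Or.inr hb),
      if_neg (show j ≠ b by rintro rfl; exact hb hj), mul_zero, add_zero]
  · rw [transvection_mul_apply_of_ne _ _ _ _ ha, hg a b hab]

theorem GnBlk.col {A : Finset n} {g : SL n R} (hg : GnBlk A g) {i j : n} (hij : i ≠ j)
    (hi : i ∈ A) (hj : j ∈ A) (r : R) : GnBlk A (g * SpecialLinearGroup.transvection hij r) := by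
  intro a b hab
  rw [mt_mul, mt_transvection]
  by_cases hb : b = j
  · subst hb
    have ha : a ∉ A := hab.resolve_right (not_not.2 hj)
    rw [mul_transvection_apply_same, hg a b hab, hg a i (Or.inl ha),
      if_neg (show a ≠ i by rintro rfl; exact ha hi), mul_zero, add_zero]
  · rw [mul_transvection_apply_of_ne _ _ _ _ hb, hg a b hab]

theorem gn_step [IsLocalRing R] (E : Subgroup (SL n R))
    (h : ∀ (i j : n) (hij : i ≠ j) (r : R), SpecialLinearGroup.transvection hij r ∈ E)
    {A : Finset n} {a : n} (ha : a ∉ A) (ih : ∀ g, GnBlk A g → g ∈ E) (g : SL n R)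
    (hg : GnBlk (insert a A) g) : g ∈ E := by
  have haA : a ∈ insert a A := mem_insert_self a A
  -- clearing the row
  have h1 : ∀ B : Finset n, ∀ g : SL n R, GnBlk (insert a A) g → mt g a a = 1 →
      (∀ i, i ≠ a → mt g i a = 0) → (∀ j, j ≠ a → j ∉ B → mt g a j = 0) → g ∈ E := by
    intro B
    induction B using Finset.induction_on with
    | empty =>
      intro g hg h11 hc hr
      refine ih g fun i j hij => ?_
      by_cases hi : i = a
      · subst hi
        by_cases hj : j = i
        · rw [hj, h11, if_pos rfl]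
        · rw [hr j hj (notMem_empty j), if_neg (Ne.symm hj)]
      · by_cases hj : j = a
        · rw [hj, hc i hi, if_neg hi]
        · exact hg i j (by simpa [hi, hj] using hij)
    | insert b B _ ihB =>
      intro g hg h11 hc hr
      by_cases hb : b ≠ a ∧ b ∈ insert a A
      · obtain ⟨hba, hbA⟩ := hb
        have := ihB (g * SpecialLinearGroup.transvection hba.symm (-mt g a b))
          (hg.col hba.symm haA hbA _) ?_ ?_ ?_
        · exact (E.mul_mem_cancel_right (h _ _ _ _)).1 this
        · rw [mt_mul, mt_transvection, mul_transvection_apply_of_ne _ _ _ _ hba.symm, h11]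
        · intro i hi
          rw [mt_mul, mt_transvection, mul_transvection_apply_of_ne _ _ _ _ hba.symm, hc i hi]
        · intro j hj hjB
          rw [mt_mul, mt_transvection]
          by_cases hjb : j = b
          · rw [hjb, mul_transvection_apply_same, h11]
            ring
          · rw [mul_transvection_apply_of_ne _ _ _ _ hjb]
            exact hr j hj (by simp [hjb, hjB])
      · refine ihB g hg h11 hc fun j hj hjB => ?_
        by_cases hjb : j = b
        · subst hjb
          rw [hg a j (Or.inr fun h' => hb ⟨hj, h'⟩), if_neg (Ne.symm hj)]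
        · exact hr j hj (by simp [hjb, hjB])
  -- clearing the column
  have h2 : ∀ B : Finset n, ∀ g : SL n R, GnBlk (insert a A) g → mt g a a = 1 →
      (∀ i, i ≠ a → i ∉ B → mt g i a = 0) → g ∈ E := by
    intro B
    induction B using Finset.induction_on with
    | empty =>
      intro g hg h11 hc
      exact h1 univ g hg h11 (fun i hi => hc i hi (notMem_empty i))
        fun j _ hj => absurd (mem_univ j) hj
    | insert b B _ ihB =>
      intro g hg h11 hc
      by_cases hb : b ≠ a ∧ b ∈ insert a A
      · obtain ⟨hba, hbA⟩ := hb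
        have := ihB (SpecialLinearGroup.transvection hba (-mt g b a) * g)
          (hg.row hba hbA haA _) ?_ ?_
        · exact (E.mul_mem_cancel_left (h _ _ _ _)).1 this
        · rw [mt_mul, mt_transvection, transvection_mul_apply_of_ne _ _ _ _ hba.symm, h11]
        · intro i hi hiB
          rw [mt_mul, mt_transvection]
          by_cases hib : i = b
          · rw [hib, transvection_mul_apply_same, h11]
            ring
          · rw [transvection_mul_apply_of_ne _ _ _ _ hib]
            exact hc i hi (by simp [hib, hiB])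
      · refine ihB g hg h11 fun i hi hiB => ?_
        by_cases hib : i = b
        · subst hib
          rw [hg i a (Or.inl fun h' => hb ⟨hi, h'⟩), if_neg hi]
        · exact hc i hi (by simp [hib, hiB])
  have h3 : ∀ g : SL n R, GnBlk (insert a A) g → mt g a a = 1 → g ∈ E := fun g hg h11 =>
    h2 univ g hg h11 fun i _ hi => absurd (mem_univ i) hi
  have h4 : ∀ g : SL n R, GnBlk (insert a A) g → ∀ b ∈ A, IsUnit (mt g b a) → g ∈ E := by
    intro g hg b hb hu
    have hab : a ≠ b := by rintro rfl; exact ha hb
    obtain ⟨u, hu⟩ := hu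
    have := h3 (SpecialLinearGroup.transvection hab ((1 - mt g a a) * ↑u⁻¹) * g)
      (hg.row hab haA (mem_insert_of_mem hb) _) (by
        rw [mt_mul, mt_transvection, transvection_mul_apply_same, ← hu, mul_assoc, Units.inv_mul]
        ring)
    exact (E.mul_mem_cancel_left (h _ _ _ _)).1 this
  rcases A.eq_empty_or_nonempty with rfl | ⟨b, hb⟩
  · refine h3 g hg ?_
    have e : mt g = diagonal fun i => if i = a then mt g a a else 1 := by
      ext i j
      by_cases hi : i = a
      · by_cases hj : j = a
        · simp [hi, hj]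
        · rw [hg i j (Or.inr (by simpa using hj)), diagonal_apply_ne _ (by rw [hi]; exact Ne.symm hj),
            if_neg (by rw [hi]; exact Ne.symm hj)]
      · rw [hg i j (Or.inl (by simpa using hi)), diagonal_apply, if_neg hi]
    have hd := det_mt g
    rw [e, det_diagonal, prod_ite_eq' univ a, if_pos (mem_univ a)] at hd
    exact hd
  · have hsum : IsUnit (∑ i, mt g⁻¹ a i * mt g i a) := by
      rw [← Matrix.mul_apply, mt_inv_mul, one_apply_eq]
      exact isUnit_one
    obtain ⟨i, -, hi⟩ := IsLocalRing.exists_of_isUnit_sum hsum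
    have hi' : IsUnit (mt g i a) := isUnit_of_mul_isUnit_right hi
    by_cases hia : i = a
    · subst hia
      have hbi : b ≠ i := by rintro rfl; exact ha hb
      obtain ⟨u, hu⟩ := hi'
      have := h4 (SpecialLinearGroup.transvection hbi ((1 - mt g b i) * ↑u⁻¹) * g)
        (hg.row hbi (mem_insert_of_mem hb) haA _) b hb (by
          rw [mt_mul, mt_transvection, transvection_mul_apply_same, ← hu, mul_assoc, Units.inv_mul]
          simp)
      exact (E.mul_mem_cancel_left (h _ _ _ _)).1 this
    · by_cases hiA : i ∈ A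
      · exact h4 g hg i hiA hi'
      · rw [hg i a (Or.inl (by simp [hia, hiA])), if_neg hia] at hi'
        exact absurd hi' not_isUnit_zero

/-- Gaussian elimination.  E.g. induction on a finset `A` of active indices: every `g` with
`g i j = δ i j` unless `i, j ∈ A` lies in `E`.  For `a ∈ A`, some entry of column `a` is a unit
(the determinant is a combination of them); by row operations inside `A` make `g a a = 1`
(if `A = {a}` this is `det g = 1`), then clear column and row `a`. -/
theorem sl_gen [IsLocalRing R] (E : Subgroup (SL n R))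
    (h : ∀ (i j : n) (hij : i ≠ j) (r : R), SpecialLinearGroup.transvection hij r ∈ E) : E = ⊤ := by
  have key : ∀ A : Finset n, ∀ g, GnBlk A g → g ∈ E := by
    intro A
    induction A using Finset.induction_on with
    | empty =>
      intro g hg
      have : g = 1 := by
        apply mt_ext
        ext i j
        rw [hg i j (Or.inl (notMem_empty i)), mt_one, one_apply]
      rw [this]
      exact E.one_mem
    | insert a A ha ih => exact gn_step E h ha ih
  rw [eq_top_iff]
  exact fun g _ => key univ g fun i j hij => by simp at hij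

theorem gn_comm {i j l : n} (hil : i ≠ l) (hlj : l ≠ j) (hij : i ≠ j) (r : R) :
    (SpecialLinearGroup.transvection hij r : SL n R) =
      SpecialLinearGroup.transvection hil r * SpecialLinearGroup.transvection hlj 1 *
        SpecialLinearGroup.transvection hil (-r) * SpecialLinearGroup.transvection hlj (-1) := by
  apply mt_ext
  simp only [mt_mul, mt_transvection, Matrix.transvection, mul_add, add_mul, one_mul, mul_one,
    single_mul_single_same, single_mul_single_of_ne _ _ _ _ hil.symm,
    single_mul_single_of_ne _ _ _ _ hlj.symm, single_mul_single_of_ne _ _ _ _ hij.symm,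
    ← single_neg, mul_neg, neg_mul, zero_mul]
  abel

/-- `e_{ij}(r)` is a commutator of an `lG` and a `uG`. -/
theorem gen_top [IsLocalRing R] {ρ : Type} [Fintype ρ] [DecidableEq ρ] [Unique ρ]
    (E : Subgroup (SL (ρ ⊕ n) R))
    (hu : ∀ u : Matrix ρ n R, uG u ∈ E) (hl : ∀ u : Matrix n ρ R, lG u ∈ E) : E = ⊤ := by
  have h1 : ∀ (a : ρ) (j : n) (hij : (Sum.inl a : ρ ⊕ n) ≠ Sum.inr j) (r : R),
      SpecialLinearGroup.transvection hij r ∈ E := by
    intro a j hij r
    convert hu (single a j r)
    apply mt_ext
    rw [mt_transvection, mt_uG]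
    ext (a | a) (b | b) <;> simp [Matrix.transvection, single_apply, one_apply]
  have h2 : ∀ (i : n) (a : ρ) (hij : (Sum.inr i : ρ ⊕ n) ≠ Sum.inl a) (r : R),
      SpecialLinearGroup.transvection hij r ∈ E := by
    intro i a hij r
    convert hl (single i a r)
    apply mt_ext
    rw [mt_transvection, mt_lG]
    ext (a | a) (b | b) <;> simp [Matrix.transvection, single_apply, one_apply]
  refine sl_gen E ?_
  rintro (i | i) (j | j) hij r
  · exact absurd (congrArg Sum.inl (Subsingleton.elim i j)) hij
  · exact h1 i j hij r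
  · exact h2 i j hij r
  · rw [gn_comm (l := Sum.inl default) Sum.inr_ne_inl Sum.inl_ne_inr hij r]
    exact E.mul_mem (E.mul_mem (E.mul_mem (h2 _ _ _ _) (h1 _ _ _ _)) (h2 _ _ _ _)) (h1 _ _ _ _)

/-- `R = AdjoinRoot (X ^ s)`, `s = M + 2`. -/
theorem exists_trunc (k : Type) [Field k] [Fintype k] (M : ℕ) :
    ∃ (R : Type) (_ : CommRing R) (_ : Algebra k R) (_ : Finite R),
      Nonempty (Trunc k R) ∧ M ≤ Nat.card R := by
  let f : Polynomial k := Polynomial.X ^ (M + 2)
  have hf : f.Monic := Polynomial.monic_X_pow _
  let pb := AdjoinRoot.powerBasis' hf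
  have hdim : pb.dim = M + 2 := by simp [pb, f]
  have hgen : pb.gen = AdjoinRoot.root f := rfl
  have : Module.Finite k (AdjoinRoot f) := pb.finite
  have hfin : Finite (AdjoinRoot f) := Module.finite_of_finite k
  have hb0 : pb.basis ⟨0, by omega⟩ = 1 := by rw [pb.basis_eq_pow]; simp
  have hb1 : pb.basis ⟨1, by omega⟩ = AdjoinRoot.root f := by rw [pb.basis_eq_pow]; simp [hgen]
  refine ⟨AdjoinRoot f, inferInstance, inferInstance, hfin, ⟨⟨AdjoinRoot.root f, M + 2,
    AdjoinRoot.liftAlgHom f (AlgHom.id k k) 0 (by simp [f]), pb.basis.coord ⟨1, by omega⟩,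
    AdjoinRoot.liftAlgHom_root _ _ _ _, ?_, ?_, ?_, ?_⟩⟩, ?_⟩
  · rw [← hb0, Basis.coord_apply, Basis.repr_self, Finsupp.single_eq_of_ne]
    simp
  · rw [← hb1, Basis.coord_apply, Basis.repr_self, Finsupp.single_eq_same]
  · rw [← AdjoinRoot.mk_X, ← map_pow]
    exact AdjoinRoot.mk_self
  · intro r
    rw [← pb.basis.sum_repr r]
    refine Submodule.sum_mem _ fun i _ => Submodule.smul_mem _ _ (Submodule.subset_span ?_)
    exact ⟨i, by rw [Set.mem_Iio, ← hdim]; exact i.2, by rw [pb.basis_eq_pow, hgen]⟩
  · have := Fintype.ofFinite (AdjoinRoot f)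
    rw [Nat.card_eq_fintype_card, Module.card_eq_pow_finrank (K := k), pb.finrank, hdim]
    have h1 : M + 2 < Fintype.card k ^ (M + 2) := Nat.lt_pow_self Fintype.one_lt_card
    omega

theorem gn_FF_two {r : R} (h : r ∈ FF τ 2) :
    r = algebraMap k R (τ.c0 r) + algebraMap k R (τ.c1 r) * τ.t := by
  induction h using Submodule.span_induction with
  | mem x hx =>
    obtain ⟨i, hi, rfl⟩ := hx
    rw [Set.mem_Iio] at hi
    interval_cases i
    · simp [τ.c1_one]
    · simp [τ.c0_t, τ.c1_t]
  | zero => simp
  | add x y _ _ hx hy =>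
    rw [map_add, map_add, map_add, map_add]
    linear_combination hx + hy
  | smul c x _ hx =>
    rw [map_smul τ.c0, map_smul τ.c1, smul_eq_mul, smul_eq_mul, map_mul, map_mul,
      Algebra.smul_def]
    linear_combination algebraMap k R c * hx

/-- all entries of `p ∈ P_I` lie in `FF τ 2 = span {1, t}`. -/
theorem card_cl_le [Fintype k] [Finite R] (I : Finset n) (x : SL n R) :
    (cl (vert τ) {I} x).card ≤ Fintype.card k ^ (2 * Fintype.card n * Fintype.card n) := by
  have h := card_le_card_of_injOn (s := cl (vert τ) {I} x) (t := (univ : Finset (n → n → k × k)))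
    (fun y i j => (τ.c0 (mt (x⁻¹ * y) i j), τ.c1 (mt (x⁻¹ * y) i j))) (fun _ _ => mem_univ _) (by
      intro y hy y' hy' e
      have h1 := (mem_cl_vert τ).1 hy I (mem_singleton_self I)
      have h2 := (mem_cl_vert τ).1 hy' I (mem_singleton_self I)
      refine mul_left_cancel (a := x⁻¹) (mt_ext ?_)
      ext i j
      have e' := congrFun (congrFun e i) j
      rw [Prod.mk.injEq] at e'
      have hj := ee_le I j
      rw [gn_FF_two τ (FF_mono τ (by omega) ((mem_PP τ).1 h1 i j)),
        gn_FF_two τ (FF_mono τ (by omega) ((mem_PP τ).1 h2 i j)), e'.1, e'.2])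
  refine h.trans (le_of_eq ?_)
  rw [card_univ, Fintype.card_fun, Fintype.card_fun, Fintype.card_prod, ← pow_two, ← pow_mul,
    ← pow_mul, mul_assoc]

theorem card_SL_ge [Finite R] (h : 2 ≤ Fintype.card n) : Nat.card R ≤ Fintype.card (SL n R) := by
  obtain ⟨i, j, hij⟩ := Fintype.exists_pair_of_one_lt_card (α := n) h
  rw [← Nat.card_eq_fintype_card]
  refine Nat.card_le_card_of_injective (fun r : R => (SpecialLinearGroup.transvection hij r : SL n R))
    fun r r' e => ?_
  have := congrArg (fun g : SL n R => mt g i j) e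
  simpa [Matrix.transvection, hij] using this

theorem gn_extend (J : Finset n) (w : n → n → k) (A : Finset n) (hA : A ⊆ J)
    (hw : LinearIndepOn k w (A : Set n)) (hJ : ∀ a ∈ A, w a ∈ coord k J) :
    ∃ w' : n → n → k, (∀ a ∈ A, w' a = w a) ∧ LinearIndepOn k w' (J : Set n) ∧
      ∀ a ∈ J, w' a ∈ coord k J := by
  obtain ⟨m, hm⟩ : ∃ m, J.card = A.card + m := Nat.exists_eq_add_of_le (card_le_card hA)
  induction m generalizing A w with
  | zero =>
    obtain rfl : A = J := eq_of_subset_of_card_le hA hm.le
    exact ⟨w, fun _ _ => rfl, hw, hJ⟩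
  | succ m ih =>
    obtain ⟨j, hjJ, hjA⟩ := exists_mem_notMem_of_card_lt_card (show A.card < J.card by omega)
    have hn : ¬ coord k J ≤ Submodule.span k (w '' (A : Set n)) := fun hle => by
      classical
      have h1 := Submodule.finrank_mono hle
      have h2 := finrank_span_finset_le_card (R := k) (A.image w)
      rw [coe_image, Set.finrank] at h2
      have h3 : (A.image w).card ≤ A.card := card_image_le
      rw [finrank_coord] at h1
      omega
    obtain ⟨v, hvJ, hv⟩ := SetLike.not_le_iff_exists.1 hn
    have hup : ∀ a ∈ A, Function.update w j v a = w a := fun a ha =>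
      Function.update_of_ne (by rintro rfl; exact hjA ha) _ _
    obtain ⟨w', h1, h2, h3⟩ := ih (Function.update w j v) (insert j A) (insert_subset hjJ hA) (by
      rw [coe_insert]
      refine (hw.congr fun a ha => (hup a ha).symm).insert ?_
      rw [Function.update_self, Set.image_congr hup]
      exact hv) (by
      intro a ha
      rcases mem_insert.1 ha with rfl | ha
      · rwa [Function.update_self]
      · rw [hup a ha]
        exact hJ a ha) (by rw [card_insert_of_notMem hjA]; omega)
    exact ⟨w', fun a ha => (h1 a (mem_insert_of_mem ha)).trans (hup a ha), h2, h3⟩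

/-- Extend `w a` (`a ∈ A`) to a basis of `coord J` indexed by `J`, complete by the standard vectors
outside `J`, rescale a column in `J \ A`. -/
theorem ext_k (J A : Finset n) (hA : A ⊆ J) (hne : A ≠ J) (w : n → n → k)
    (hw : LinearIndepOn k w (A : Set n)) (hJ : ∀ a ∈ A, w a ∈ coord k J) :
    ∃ M : Matrix n n k, M.det = 1 ∧ (∀ a ∈ A, ∀ i, M i a = w a i) ∧
      (∀ j ∈ J, ∀ i, i ∉ J → M i j = 0) ∧ ∀ j, j ∉ J → ∀ i, M i j = if i = j then 1 else 0 := by
  obtain ⟨w', h1, h2, h3⟩ := gn_extend J w A hA hw hJ
  obtain ⟨j₀, hj₀J, hj₀A⟩ := exists_of_ssubset (Finset.ssubset_iff_subset_ne.2 ⟨hA, hne⟩)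
  let M₀ : Matrix n n k := Matrix.of fun i j => if j ∈ J then w' j i else if i = j then 1 else 0
  have hdet : M₀.det ≠ 0 := by
    intro h0
    obtain ⟨x, hx, hM⟩ := exists_mulVec_eq_zero_iff.2 h0
    have hsplit : ∀ i, ∑ j ∈ J, x j * w' j i + (if i ∈ J then 0 else x i) = 0 := by
      intro i
      have := congrFun hM i
      simp only [Matrix.mulVec, dotProduct, M₀, of_apply, Pi.zero_apply] at this
      rw [← sum_add_sum_compl J] at this
      convert this using 2
      · exact sum_congr rfl fun j hj => by rw [if_pos hj, mul_comm]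
      · rw [sum_congr rfl fun j hj => by rw [if_neg (mem_compl.1 hj), ite_mul, one_mul, zero_mul],
          sum_ite_eq]
        simp only [mem_compl, ite_not]
    have hout : ∀ i, i ∉ J → x i = 0 := by
      intro i hi
      have := hsplit i
      rwa [if_neg hi, sum_eq_zero fun j hj => by rw [mem_coord.1 (h3 j hj) i hi, mul_zero],
        zero_add] at this
    have hin : ∀ j ∈ J, x j = 0 := by
      refine linearIndepOn_finset_iff.1 h2 x ?_
      ext i
      have := hsplit i
      rw [Finset.sum_apply]
      simp only [Pi.smul_apply, smul_eq_mul, Pi.zero_apply]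
      by_cases hi : i ∈ J
      · rwa [if_pos hi, add_zero] at this
      · rwa [if_neg hi, hout i hi, add_zero] at this
    apply hx
    ext i
    by_cases hi : i ∈ J
    · exact hin i hi
    · exact hout i hi
  refine ⟨M₀ * diagonal fun j => if j = j₀ then M₀.det⁻¹ else 1, ?_, ?_, ?_, ?_⟩
  · rw [det_mul, det_diagonal, prod_ite_eq' univ j₀, if_pos (mem_univ _), mul_inv_cancel₀ hdet]
  · intro a ha i
    rw [mul_diagonal, if_neg (show a ≠ j₀ by rintro rfl; exact hj₀A ha), mul_one]
    simp [M₀, hA ha, h1 a ha]
  · intro j hj i hi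
    rw [mul_diagonal]
    simp [M₀, hj, mem_coord.1 (h3 j hj) i hi]
  · intro j hj i
    rw [mul_diagonal, if_neg (show j ≠ j₀ by rintro rfl; exact hj hj₀J), mul_one]
    simp [M₀, hj]

/-- `ext_k` with `J = univ`; replace the columns in `A` by `v a`; the determinant has `c0 = 1`, so
is a unit; rescale a column outside `A`. -/
theorem ext_R (A : Finset n) (hne : A ≠ univ) (v : n → n → R)
    (hv : LinearIndepOn k (fun a => fun i => τ.c0 (v a i)) (A : Set n)) :
    ∃ g : SL n R, ∀ a ∈ A, ∀ i, mt g i a = v a i := by
  obtain ⟨M, hM, h1, -, -⟩ := ext_k univ A (subset_univ A) hne _ hv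
    fun a _ => mem_coord.2 fun i hi => absurd (mem_univ i) hi
  obtain ⟨j₀, -, hj₀A⟩ := exists_of_ssubset (Finset.ssubset_iff_subset_ne.2 ⟨subset_univ A, hne⟩)
  let M' : Matrix n n R := Matrix.of fun i j => if j ∈ A then v j i else algebraMap k R (M i j)
  have hc : τ.c0 M'.det = 1 := by
    rw [AlgHom.map_det, ← hM]
    congr 1
    ext i j
    by_cases hj : j ∈ A
    · simp [M', hj, h1 j hj i]
    · simp [M', hj]
  obtain ⟨u, hu⟩ := isUnit_of_c0 τ (r := M'.det) (by rw [hc]; exact one_ne_zero)
  refine ⟨mkSL (M' * diagonal fun j => if j = j₀ then ((u⁻¹ : Rˣ) : R) else 1) ?_, ?_⟩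
  · rw [det_mul, det_diagonal, prod_ite_eq' univ j₀, if_pos (mem_univ _), ← hu, Units.mul_inv]
  · intro a ha i
    rw [mt_mkSL, mul_diagonal, if_neg (show a ≠ j₀ by rintro rfl; exact hj₀A ha), mul_one]
    simp [M', ha]

end Crest.Agent.R66
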