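import Crest.Agent.R66.Flag

/-! # Row 66: good families, full flags, adapted bases, counting (task GD) -/

set_option autoImplicit false

namespace Crest.Agent.R66

open Finset Module

section
variable {k V : Type*} [Field k] [AddCommGroup V] [Module k V]

theorem goodTr_step {T W W₂ : Submodule k V} (hW : W ∈ Tr T) (hW₂ : W₂ ∈ Tr T) (hlt : W < W₂) :
    ∃ X : Submodule k V, ¬ W₂ ≤ X ∧ ∀ v, v ∉ X → v ∉ W ∧ W ⊔ (k ∙ v) ∈ Tr T := by
  by_cases h : W ⊔ T = ⊤
  · refine ⟨W, hlt.not_ge, fun v hv => ⟨hv, Or.inr ?_⟩⟩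
    rw [eq_top_iff, ← h]
    exact sup_le_sup_right le_sup_left _
  · have h0 : W ⊓ T = ⊥ := hW.resolve_right h
    refine ⟨W ⊔ T, fun hle => ?_, fun v hv => ⟨fun hw => hv (Submodule.mem_sup_left hw), Or.inl ?_⟩⟩
    · rcases hW₂ with h2 | h2
      · have : W₂ = W := by
          calc W₂ = (W ⊔ T) ⊓ W₂ := (inf_eq_right.2 hle).symm
            _ = W ⊔ T ⊓ W₂ := sup_inf_assoc_of_le T hlt.le
            _ = W := by rw [inf_comm, h2, sup_bot_eq]
        exact hlt.ne' this
      · apply h
        rw [eq_top_iff, ← h2]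
        exact sup_le hle le_sup_right
    · rw [eq_bot_iff]
      rintro u ⟨hu, huT⟩
      obtain ⟨w, hw, z, hz, rfl⟩ := Submodule.mem_sup.1 hu
      obtain ⟨c, rfl⟩ := Submodule.mem_span_singleton.1 hz
      by_cases hc : c = 0
      · rw [← h0]
        subst hc
        refine ⟨by simpa using hw, huT⟩
      · exfalso
        apply hv
        have : v = c⁻¹ • ((w + c • v) - w) := by
          rw [add_sub_cancel_left, smul_smul, inv_mul_cancel₀ hc, one_smul]
        rw [this]
        exact Submodule.smul_mem _ _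
          (Submodule.sub_mem _ (Submodule.mem_sup_right huT) (Submodule.mem_sup_left hw))

theorem bot_mem_Tr (T : Submodule k V) : ⊥ ∈ Tr T := Or.inl (bot_inf_eq _)

theorem top_mem_Tr (T : Submodule k V) : ⊤ ∈ Tr T := Or.inr (top_sup_eq _)

/-- If `W ⊔ T = ⊤` take `B = {W}`; otherwise `W ⊓ T = ⊥` and `B = {W ⊔ T}`
(`W₂ ≤ W ⊔ T` would give `W ⊔ T = ⊤` or `W₂ ≤ W`). -/
theorem goodFam_Tr (T : Submodule k V) : GoodFam (Tr T) 3 := by
  refine ⟨bot_mem_Tr T, top_mem_Tr T, fun W hW W₂ hW₂ hlt => ?_⟩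
  obtain ⟨X, hX, h⟩ := goodTr_step hW hW₂ hlt
  exact ⟨{X}, by simp, by simpa using hX, fun v _ hv => h v (hv X (mem_singleton_self X))⟩

/-- as `goodFam_Tr`, adding `K` to `B` when `W = ⊥`. -/
theorem goodFam_TrK (T K : Submodule k V) (hK : K ≠ ⊤) : GoodFam (TrK T K) 3 := by
  refine ⟨Or.inl rfl, Or.inr ⟨top_mem_Tr T, fun h => hK (top_le_iff.1 h)⟩,
    fun W hW W₂ hW₂ hlt => ?_⟩
  have hW' : W ∈ Tr T := by
    rcases hW with rfl | h
    · exact bot_mem_Tr T
    · exact h.1
  have hW₂' : W₂ ∈ Tr T ∧ ¬ W₂ ≤ K := hW₂.resolve_left (ne_bot_of_gt hlt)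
  obtain ⟨X, hX, h⟩ := goodTr_step hW' hW₂'.1 hlt
  refine ⟨{X, K}, (card_le_two).trans (by norm_num), ?_, fun v _ hv => ?_⟩
  · intro Z hZ
    rcases mem_insert.1 hZ with rfl | hZ
    · exact hX
    · rw [mem_singleton.1 hZ]
      exact hW₂'.2
  · obtain ⟨h1, h2⟩ := h v (hv X (by simp))
    refine ⟨h1, Or.inr ⟨h2, fun hle => hv K (by simp) (hle ?_)⟩⟩
    exact Submodule.mem_sup_right (Submodule.mem_span_singleton_self v)

/-- A good chain extends to a full good flag.  Build `W (r+1)` from `W r`: let `X` be the element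
of `insert ⊤ σ` of least dimension `≥ r + 1`; take `X` if its dimension is `r + 1`, otherwise
`W r ⊔ k∙v` with `v ∈ X` generic (`exists_avoid`). -/
theorem full_flag [Fintype k] [FiniteDimensional k V] {𝒢 : Set (Submodule k V)} {κ : ℕ}
    (h𝒢 : GoodFam 𝒢 κ) (hq : κ < Fintype.card k) (σ : Finset (Submodule k V))
    (hσ : ∀ W ∈ σ, W ∈ 𝒢) (hc : IsChain (· ≤ ·) (σ : Set (Submodule k V))) :
    ∃ W : ℕ → Submodule k V, (∀ r ≤ finrank k V, W r ∈ 𝒢 ∧ finrank k (W r) = r) ∧ Monotone W ∧
      ∀ X ∈ σ, W (finrank k X) = X := by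
  let P : ℕ → Submodule k V → Prop := fun r W => W ∈ 𝒢 ∧ finrank k W = r ∧
    ∀ X ∈ σ, (finrank k X ≤ r → X ≤ W) ∧ (r ≤ finrank k X → W ≤ X)
  have hcomp : ∀ X ∈ insert ⊤ σ, ∀ Z ∈ σ, finrank k X ≤ finrank k Z → X ≤ Z := by
    intro X hX Z hZ hle
    have h : X ≤ Z ∨ Z ≤ X := by
      rcases mem_insert.1 hX with rfl | hX
      · exact Or.inr le_top
      · exact hc.total hX hZ
    rcases h with h | h
    · exact h
    · exact (Submodule.eq_of_le_of_finrank_le h hle).ge
  have step : ∀ (r : ℕ) (W : Submodule k V), ∃ W', W ≤ W' ∧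
      (r < finrank k V → P r W → P (r + 1) W') := by
    intro r W
    by_cases h : r < finrank k V ∧ P r W
    swap
    · exact ⟨W, le_rfl, fun h1 h2 => absurd ⟨h1, h2⟩ h⟩
    obtain ⟨hr, hW, hWr, hWσ⟩ := h
    obtain ⟨X, hX, hmin⟩ := exists_min_image
      ((insert ⊤ σ).filter fun X : Submodule k V => r + 1 ≤ finrank k X)
      (fun X : Submodule k V => finrank k X) ⟨⊤, by simp [hr]⟩
    obtain ⟨hXσ, hXr⟩ := mem_filter.1 hX
    have hXG : X ∈ 𝒢 := by
      rcases mem_insert.1 hXσ with rfl | h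
      · exact h𝒢.2.1
      · exact hσ X h
    have hWX : W ≤ X := by
      rcases mem_insert.1 hXσ with rfl | h
      · exact le_top
      · exact (hWσ X h).2 (by omega)
    have hlt : W < X := lt_of_le_of_ne hWX (by rintro rfl; omega)
    obtain ⟨B, hB, hBX, hBv⟩ := h𝒢.2.2 W hW X hXG hlt
    obtain ⟨v, hvX, hv⟩ := exists_avoid X B hBX (hB.trans_lt hq)
    obtain ⟨hvW, hgood⟩ := hBv v hvX hv
    have hfin : finrank k (W ⊔ (k ∙ v) : Submodule k V) = r + 1 := by
      rw [Submodule.finrank_sup_span_singleton hvW, hWr]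
    have hle : W ⊔ (k ∙ v) ≤ X := sup_le hWX ((Submodule.span_singleton_le_iff_mem v X).2 hvX)
    refine ⟨W ⊔ (k ∙ v), le_sup_left, fun _ _ => ⟨hgood, hfin, fun Z hZ => ?_⟩⟩
    have h2 : r + 1 ≤ finrank k Z → W ⊔ (k ∙ v) ≤ Z := fun h =>
      hle.trans (hcomp X hXσ Z hZ (hmin Z (mem_filter.2 ⟨mem_insert_of_mem hZ, h⟩)))
    refine ⟨fun h => ?_, h2⟩
    by_cases h' : finrank k Z ≤ r
    · exact ((hWσ Z hZ).1 h').trans le_sup_left
    · exact (Submodule.eq_of_le_of_finrank_le (h2 (by omega)) (by omega)).ge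
  choose f hf1 hf2 using step
  let W : ℕ → Submodule k V := fun r => Nat.rec ⊥ (fun r W => f r W) r
  have hP : ∀ r ≤ finrank k V, P r (W r) := by
    intro r
    induction r with
    | zero =>
      intro _
      refine ⟨h𝒢.1, finrank_bot k V, fun X _ => ⟨fun h => ?_, fun _ => bot_le⟩⟩
      exact (Submodule.finrank_eq_zero.1 (Nat.le_zero.1 h)).le
    | succ r ih => exact fun h => hf2 r (W r) h (ih (by omega))
  refine ⟨W, fun r hr => ⟨(hP r hr).1, (hP r hr).2.1⟩,
    monotone_nat_of_le_succ fun r => hf1 r (W r), fun X hX => ?_⟩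
  have := ((hP _ (Submodule.finrank_le X)).2.2 X hX)
  exact le_antisymm (this.2 le_rfl) (this.1 le_rfl)

theorem finrank_coord {n : Type*} [Fintype n] [DecidableEq n] (L : Finset n) :
    finrank k (coord k L) = L.card := by
  let f : (L → k) →ₗ[k] (n → k) :=
    { toFun := fun a i => if h : i ∈ L then a ⟨i, h⟩ else 0
      map_add' := fun a b => by ext i; by_cases h : i ∈ L <;> simp [h]
      map_smul' := fun c a => by ext i; by_cases h : i ∈ L <;> simp [h] }
  have hinj : Function.Injective f := by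
    intro a b h
    ext ⟨i, hi⟩
    simpa [f, hi] using congrFun h i
  have hr : LinearMap.range f = coord k L := by
    ext w
    rw [mem_coord]
    constructor
    · rintro ⟨a, rfl⟩ i hi
      simp [f, hi]
    · intro h
      refine ⟨fun i => w i, ?_⟩
      ext i
      by_cases hi : i ∈ L
      · simp [f, hi]
      · simp [f, hi, h i hi]
  rw [← hr, LinearMap.finrank_range_of_inj hinj]
  simp

/-- a ranking of `n` along which all members of a chain are initial segments -/
theorem exists_rank {n : Type*} [Fintype n] [DecidableEq n] (𝓛 : Finset (Finset n))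
    (hc : IsChain (· ⊆ ·) (𝓛 : Set (Finset n))) :
    ∃ e : Fin (Fintype.card n) ≃ n, ∀ L ∈ 𝓛, ∀ r, e r ∈ L ↔ (r : ℕ) < L.card := by
  let κ : n → ℕ := fun i => (𝓛.filter fun L => i ∉ L).card
  let e₀ : Fin (Fintype.card n) ≃ n := (Fintype.equivFin n).symm
  let e : Fin (Fintype.card n) ≃ n := (Tuple.sort (κ ∘ e₀)).trans e₀
  have hmono : Monotone (κ ∘ e) := Tuple.monotone_sort (κ ∘ e₀)
  refine ⟨e, fun L hL r => ?_⟩
  have hlt : ∀ i ∈ L, ∀ i', i' ∉ L → κ i < κ i' := by
    intro i hi i' hi'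
    refine card_lt_card ⟨fun L' hL' => ?_, fun h => ?_⟩
    · obtain ⟨h1, h2⟩ := mem_filter.1 hL'
      refine mem_filter.2 ⟨h1, fun h3 => ?_⟩
      rcases hc.total hL h1 with h | h
      · exact h2 (h hi)
      · exact hi' (h h3)
    · exact (mem_filter.1 (h (mem_filter.2 ⟨hL, hi'⟩))).2 hi
  have hcard : (univ.filter fun r => e r ∈ L).card = L.card := by
    refine card_bij (fun r _ => e r) (fun r hr => (mem_filter.1 hr).2)
      (fun r _ r' _ h => e.injective h) fun i hi => ⟨e.symm i, by simpa using hi, by simp⟩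
  rw [← hcard, Fin.lt_card_filter_univ_iff_apply_of_imp (fun r => e r ∈ L)]
  intro a b hba ha
  by_contra hb
  exact absurd (hmono hba) (not_le.2 (hlt _ ha _ hb))

/-- Adapted basis.  Order `n` by a bijection `e : Fin N ≃ n` along which every `L ∈ 𝓛` is an
initial segment (sort by the key `i ↦ #{L ∈ 𝓛 | i ∉ L}`, `Tuple.sort`).  Choose column
`b (e r) ∈ W (r+1) \ W r`, inside `T = coord Iᶜ` when `|I| ≤ r` (then `W r ⊔ T = ⊤`).  The first
`r` columns span `W r`; rescale one column to get determinant one. -/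
theorem adapted {n : Type*} [Fintype n] [DecidableEq n] (I : Finset n) (𝓛 : Finset (Finset n))
    (hI : I ∈ 𝓛) (hc : IsChain (· ⊆ ·) (𝓛 : Set (Finset n))) (W : ℕ → Submodule k (n → k))
    (hW : ∀ r ≤ Fintype.card n, W r ∈ Tr (coord k Iᶜ) ∧ finrank k (W r) = r) (hm : Monotone W) :
    ∃ M : Matrix n n k, M.det = 1 ∧ (∀ i ∈ I, ∀ j, j ∉ I → M i j = 0) ∧
      ∀ L ∈ 𝓛, (coord k L).map M.mulVecLin = W L.card := by
  obtain ⟨e, he⟩ := exists_rank 𝓛 hc
  have hb : ∀ r : Fin (Fintype.card n), ∃ b : n → k, b ∈ W (r + 1) ∧ b ∉ W r ∧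
      (I.card ≤ r → b ∈ coord k Iᶜ) := by
    intro r
    have h1 := hW r r.2.le
    have h2 := hW (r + 1) r.2
    have hle : W r ≤ W (r + 1) := hm (Nat.le_succ _)
    have hne : ¬ W (r + 1) ≤ W r := fun h => by
      have := Submodule.finrank_mono h
      omega
    by_cases hr : I.card ≤ r
    · have htop : W r ⊔ coord k Iᶜ = ⊤ := by
        rcases h1.1 with h | h
        · apply Submodule.eq_top_of_finrank_eq
          have h3 := Submodule.finrank_sup_add_finrank_inf_eq (W r) (coord k Iᶜ)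
          have h4 := Submodule.finrank_le (W r ⊔ coord k Iᶜ)
          rw [h, finrank_bot, finrank_coord, card_compl, h1.2] at h3
          have h5 := card_le_univ I
          rw [Module.finrank_fintype_fun_eq_card] at h4 ⊢
          omega
        · exact h
      have hn : ¬ (coord k Iᶜ ⊓ W (r + 1) ≤ W r) := fun h => by
        apply hne
        calc W (r + 1) = (W r ⊔ coord k Iᶜ) ⊓ W (r + 1) := by rw [htop, top_inf_eq]
          _ = W r ⊔ coord k Iᶜ ⊓ W (r + 1) := sup_inf_assoc_of_le _ hle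
          _ ≤ W r := sup_le le_rfl h
      obtain ⟨b, hb1, hb2⟩ := SetLike.not_le_iff_exists.1 hn
      exact ⟨b, hb1.2, hb2, fun _ => hb1.1⟩
    · obtain ⟨b, hb1, hb2⟩ := SetLike.not_le_iff_exists.1 hne
      exact ⟨b, hb1, hb2, fun h => absurd h hr⟩
  choose b hb1 hb2 hb3 using hb
  let M₀ : Matrix n n k := Matrix.of fun i j => b (e.symm j) i
  have hcol : ∀ j, M₀.mulVecLin (Pi.single j 1) = b (e.symm j) := by
    intro j
    ext i
    simp [M₀]
  have hrange : ∀ r ≤ Fintype.card n, W r ≤ LinearMap.range M₀.mulVecLin := by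
    intro r
    induction r with
    | zero =>
      intro h
      rw [Submodule.finrank_eq_zero.1 (hW 0 h).2]
      exact bot_le
    | succ r ih =>
      intro h
      have h1 : W r ⊔ (k ∙ b ⟨r, h⟩) = W (r + 1) := by
        apply Submodule.eq_of_le_of_finrank_eq
        · exact sup_le (hm (Nat.le_succ _))
            ((Submodule.span_singleton_le_iff_mem _ _).2 (hb1 ⟨r, h⟩))
        · rw [Submodule.finrank_sup_span_singleton (hb2 ⟨r, h⟩), (hW r (by omega)).2,
            (hW (r + 1) h).2]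
      rw [← h1]
      refine sup_le (ih (by omega)) ((Submodule.span_singleton_le_iff_mem _ _).2 ?_)
      exact ⟨Pi.single (e ⟨r, h⟩) 1, by rw [hcol, Equiv.symm_apply_apply]⟩
  have hsurj : Function.Surjective M₀.mulVecLin := by
    rw [← LinearMap.range_eq_top, eq_top_iff]
    refine le_trans (le_of_eq ?_) (hrange _ le_rfl)
    symm
    apply Submodule.eq_top_of_finrank_eq
    rw [(hW _ le_rfl).2, Module.finrank_fintype_fun_eq_card]
  have hinj : Function.Injective M₀.mulVecLin := LinearMap.injective_iff_surjective.2 hsurj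
  have hdet : M₀.det ≠ 0 :=
    ((Matrix.isUnit_iff_isUnit_det M₀).1 (Matrix.mulVec_surjective_iff_isUnit.1 hsurj)).ne_zero
  have hL₀ : ∀ L ∈ 𝓛, (coord k L).map M₀.mulVecLin = W L.card := by
    intro L hL
    apply Submodule.eq_of_le_of_finrank_eq
    · rintro _ ⟨w, hw, rfl⟩
      rw [pi_eq_sum_univ' w, map_sum]
      refine Submodule.sum_mem _ fun j _ => ?_
      rw [map_smul, hcol]
      by_cases hj : j ∈ L
      · refine Submodule.smul_mem _ _ (hm ?_ (hb1 (e.symm j)))
        exact (he L hL (e.symm j)).1 (by simpa using hj)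
      · rw [mem_coord.1 hw j hj, zero_smul]
        exact Submodule.zero_mem _
    · rw [← (Submodule.equivMapOfInjective _ hinj _).finrank_eq, finrank_coord,
        (hW _ (card_le_univ L)).2]
  obtain ⟨d, hd0, hd⟩ : ∃ d : n → k, (∀ i, d i ≠ 0) ∧ M₀.det * ∏ i, d i = 1 := by
    rcases isEmpty_or_nonempty n with h | ⟨⟨j₀⟩⟩
    · exact ⟨fun _ => 1, fun _ => one_ne_zero, by simp⟩
    · refine ⟨fun i => if i = j₀ then M₀.det⁻¹ else 1, fun i => ?_, ?_⟩
      · beta_reduce
        split_ifs
        · exact inv_ne_zero hdet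
        · exact one_ne_zero
      · rw [prod_ite_eq' univ j₀, if_pos (mem_univ _), mul_inv_cancel₀ hdet]
  refine ⟨M₀ * Matrix.diagonal d, by rw [Matrix.det_mul, Matrix.det_diagonal, hd], ?_, ?_⟩
  · intro i hi j hj
    rw [Matrix.mul_diagonal]
    have h1 : I.card ≤ e.symm j := by
      by_contra h
      exact hj (by simpa using (he I hI (e.symm j)).2 (not_le.1 h))
    have h2 : M₀ i j = 0 := mem_coord.1 (hb3 _ h1) i (by simpa using hi)
    rw [h2, zero_mul]
  · intro L hL
    rw [Matrix.mulVecLin_mul, Submodule.map_comp, ← hL₀ L hL]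
    congr 1
    ext w
    simp only [Submodule.mem_map, mem_coord, Matrix.mulVecLin_apply]
    constructor
    · rintro ⟨u, hu, rfl⟩ i hi
      rw [Matrix.mulVec_diagonal, hu i hi, mul_zero]
    · intro hw
      refine ⟨fun i => (d i)⁻¹ * w i, fun i hi => by simp [hw i hi], ?_⟩
      ext i
      rw [Matrix.mulVec_diagonal, mul_inv_cancel_left₀ (hd0 i)]

/-- at least `q^(r+2) - κ q^(r+1)` good vectors in `W₂`, at most `q^(r+1)` in each `X`. -/
theorem count_lower [Fintype k] [FiniteDimensional k V] {𝒢 : Set (Submodule k V)} {κ : ℕ}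
    (h𝒢 : GoodFam 𝒢 κ) {W W₂ : Submodule k V} (hW : W ∈ 𝒢) (hW₂ : W₂ ∈ 𝒢) (hle : W ≤ W₂)
    (hd : finrank k W₂ = finrank k W + 2) :
    ∃ A : Finset (Submodule k V), Fintype.card k ≤ A.card + κ ∧
      ∀ X ∈ A, X ∈ 𝒢 ∧ W ≤ X ∧ X ≤ W₂ ∧ finrank k X = finrank k W + 1 := by
  classical
  have : Finite V := Module.finite_of_finite k
  have : Finite (Submodule k V) :=
    Finite.of_injective (fun X : Submodule k V => (X : Set V)) SetLike.coe_injective
  have : Fintype (Submodule k V) := Fintype.ofFinite _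
  let A : Finset (Submodule k V) :=
    univ.filter fun X => X ∈ 𝒢 ∧ W ≤ X ∧ X ≤ W₂ ∧ finrank k X = finrank k W + 1
  refine ⟨A, ?_, fun X hX => (mem_filter.1 hX).2⟩
  by_contra hlt
  have hlt' : W < W₂ := lt_of_le_of_ne hle (by rintro rfl; omega)
  obtain ⟨B, hB, hBX, hBv⟩ := h𝒢.2.2 W hW W₂ hW₂ hlt'
  obtain ⟨v, hv, hav⟩ := exists_avoid W₂ (A ∪ B) (by
    intro X hX
    rcases mem_union.1 hX with h | h
    · intro h'
      have h1 := Submodule.finrank_mono h'
      have h2 := (mem_filter.1 h).2.2.2.2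
      omega
    · exact hBX X h) (by have := card_union_le A B; omega)
  obtain ⟨hvW, hgood⟩ := hBv v hv fun X hX => hav X (mem_union_right _ hX)
  refine hav (W ⊔ (k ∙ v)) (mem_union_left _ (mem_filter.2 ⟨mem_univ _, hgood, le_sup_left,
    sup_le hle ((Submodule.span_singleton_le_iff_mem v W₂).2 hv),
    Submodule.finrank_sup_span_singleton hvW⟩)) ?_
  exact Submodule.mem_sup_right (Submodule.mem_span_singleton_self v)

/-- the sets `X \ W` are disjoint subsets of `W₂` of size `(q-1) q^r`. -/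
theorem count_upper [Fintype k] [FiniteDimensional k V] {W W₂ : Submodule k V} {g : ℕ}
    (hd : finrank k W₂ = finrank k W + g) (A : Finset (Submodule k V))
    (hA : ∀ X ∈ A, W ≤ X ∧ X ≤ W₂ ∧ finrank k X = finrank k W + 1) :
    (Fintype.card k - 1) * A.card ≤ Fintype.card k ^ g := by
  classical
  have : Finite V := Module.finite_of_finite k
  have : Fintype V := Fintype.ofFinite _
  have hcard : ∀ X : Submodule k V,
      (univ.filter fun v => v ∈ X).card = Fintype.card k ^ finrank k X := by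
    intro X
    rw [← Fintype.card_subtype, ← Module.card_eq_pow_finrank (K := k)]
  let s : Submodule k V → Finset V := fun X => (univ.filter fun v => v ∈ X) \ univ.filter (· ∈ W)
  have hs : ∀ X ∈ A, (s X).card = (Fintype.card k - 1) * Fintype.card k ^ finrank k W := by
    intro X hX
    rw [card_sdiff_of_subset (fun v hv => by simpa using (hA X hX).1 (by simpa using hv)),
      hcard, hcard, (hA X hX).2.2, pow_succ, Nat.sub_mul, one_mul, mul_comm]
  have hsup : ∀ X ∈ A, ∀ v ∈ s X, W ⊔ (k ∙ v) = X := by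
    intro X hX v hv
    simp only [s, mem_sdiff, mem_filter, mem_univ, true_and] at hv
    apply Submodule.eq_of_le_of_finrank_eq
    · exact sup_le (hA X hX).1 ((Submodule.span_singleton_le_iff_mem v X).2 hv.1)
    · rw [Submodule.finrank_sup_span_singleton hv.2, (hA X hX).2.2]
  have hdisj : (A : Set (Submodule k V)).PairwiseDisjoint s := by
    intro X hX X' hX' hne
    rw [Function.onFun, disjoint_left]
    intro v hv hv'
    exact hne ((hsup X hX v hv).symm.trans (hsup X' hX' v hv'))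
  have h1 : (A.biUnion s).card ≤ Fintype.card k ^ finrank k W₂ := by
    rw [← hcard]
    refine card_le_card fun v hv => ?_
    obtain ⟨X, hX, hv⟩ := mem_biUnion.1 hv
    simp only [s, mem_sdiff, mem_filter, mem_univ, true_and] at hv ⊢
    exact (hA X hX).2.1 hv.1
  rw [card_biUnion hdisj, sum_congr rfl hs, sum_const, smul_eq_mul, hd, pow_add] at h1
  have hpos : 0 < Fintype.card k ^ finrank k W := pow_pos Fintype.card_pos _
  refine Nat.le_of_mul_le_mul_left ?_ hpos
  calc _ = A.card * ((Fintype.card k - 1) * Fintype.card k ^ finrank k W) := by ring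
    _ ≤ _ := h1

end

/-- Independence complexes: a cycle with `≤ m < q` faces of size `< e` is filled by the cone over
`x ∈ X` with `p x ∈ Y` outside the spans of the faces (`exists_avoid`, `bd_cone`); then
`cone_of_fill id e` and `acyc_of_cone`. -/
theorem ind_acyc (e : ℕ) : ∃ q₀ : ℕ, ∀ (k V β : Type) [Field k] [Fintype k] [AddCommGroup V]
    [Module k V] [FiniteDimensional k V] [DecidableEq β] (p : β → V) (X : Set β)
    (Y : Submodule k V), q₀ ≤ Fintype.card k → e ≤ finrank k Y → (∀ y ∈ Y, ∃ x ∈ X, p x = y) →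
    ∀ r < e, Acyc {S : Finset β | (S : Set β) ⊆ X ∧ LinearIndepOn k p (S : Set β)} r := by
  obtain ⟨M, Ψ, hcone⟩ := cone_of_fill id e
  refine ⟨M + 1, ?_⟩
  intro k V β _ _ _ _ _ _ p X Y hq he hX r hr
  refine acyc_of_cone (hcone β _ ?_ e le_rfl ?_) hr
  · rintro S ⟨h1, h2⟩ S' hS'
    exact ⟨(coe_subset.2 hS').trans h1, h2.mono (coe_subset.2 hS')⟩
  · intro m hm i hi z hz hbd hcard
    obtain ⟨v, hvY, hv⟩ := exists_avoid Y
      (z.support.image fun σ : Finset β => Submodule.span k (p '' (σ : Set β))) (by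
        intro Z hZ hle
        obtain ⟨σ, hσ, rfl⟩ := mem_image.1 hZ
        classical
        have h1 := Submodule.finrank_mono hle
        have h2 := finrank_span_finset_le_card (R := k) (σ.image p)
        rw [coe_image, Set.finrank] at h2
        have h3 : (σ.image p).card ≤ σ.card := card_image_le
        have h4 := (hz σ hσ).2
        omega) (by have := card_image_le (s := z.support)
                     (f := fun σ : Finset β => Submodule.span k (p '' (σ : Set β))); omega)
    obtain ⟨x, hxX, rfl⟩ := hX v hvY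
    refine ⟨cone x z, fun σ hσ => ?_, ?_, (card_support_cone_le x z).trans hcard⟩
    · obtain ⟨hx, hσ'⟩ := mem_support_cone.1 hσ
      obtain ⟨⟨h1, h2⟩, h3⟩ := hz _ hσ'
      rw [← insert_erase hx, card_insert_of_notMem (notMem_erase x σ), h3]
      refine ⟨⟨?_, ?_⟩, rfl⟩
      · rw [coe_insert]
        exact Set.insert_subset hxX h1
      · rw [coe_insert]
        exact h2.insert (hv _ (mem_image_of_mem _ hσ'))
    · have := bd_cone x z
      rwa [hbd, map_zero, add_zero] at this

end Crest.Agent.R66
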