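import Crest.Agent.R66.Av

/-! # Row 66: local to global (task LG) -/

set_option autoImplicit false

namespace Crest.Agent.R66

open Finset

namespace LG

variable {ι Ω α : Type} [DecidableEq ι] [DecidableEq α] [Fintype Ω] {π : ι → Ω → α}

/-- indicator of the support on faces of colour set `T` -/
def ind (π : ι → Ω → α) (h : Finset α → ZMod 2) (T : Finset ι) (y : Ω) : ℝ :=
  if h (face π T y) ≠ 0 then 1 else 0

/-- colour sets of size `k` containing `S` -/
def Up (J S : Finset ι) (k : ℕ) : Finset (Finset ι) := (J.powersetCard k).filter (S ⊆ ·)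

omit [DecidableEq ι] [Fintype Ω] in
theorem ind_nn (h : Finset α → ZMod 2) (T : Finset ι) (y : Ω) : 0 ≤ ind π h T y := by
  unfold ind; split_ifs <;> norm_num

omit [DecidableEq ι] [Fintype Ω] in
theorem ind_le (h : Finset α → ZMod 2) (T : Finset ι) (y : Ω) : ind π h T y ≤ 1 := by
  unfold ind; split_ifs <;> norm_num

omit [DecidableEq ι] [Fintype Ω] in
theorem ind_sq (h : Finset α → ZMod 2) (T : Finset ι) (y : Ω) :
    ind π h T y ^ 2 = ind π h T y := by
  unfold ind; split_ifs <;> norm_num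

omit [DecidableEq ι] [Fintype Ω] in
theorem ind_meas (h : Finset α → ZMod 2) (T : Finset ι) : Meas π T (ind π h T) := by
  intro x y e
  unfold ind
  rw [face_congr e]

omit [DecidableEq ι] [Fintype Ω] in
theorem cnt_cast (C : Finset Ω) (U : Finset ι) (k : ℕ) (h : Finset α → ZMod 2) :
    (cnt π C U k h : ℝ) = ∑ T ∈ U.powersetCard k, ∑ y ∈ C, ind π h T y := by
  unfold cnt ind
  push_cast
  refine sum_congr rfl fun T _ => ?_
  rw [card_filter]
  push_cast
  rfl

theorem mem_Up {J S T : Finset ι} {k : ℕ} : T ∈ Up J S k ↔ T ⊆ J ∧ T.card = k ∧ S ⊆ T := by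
  simp [Up, mem_powersetCard, and_assoc]

omit [DecidableEq ι] in
theorem card_pc (J : Finset ι) (k r : ℕ) (hJ : J.card ≤ r) :
    (J.powersetCard k).card ≤ 2 ^ r := by
  rw [card_powersetCard]
  exact (Nat.choose_le_two_pow _ _).trans (Nat.pow_le_pow_right (by norm_num) hJ)

theorem card_Up (J S : Finset ι) (k r : ℕ) (hJ : J.card ≤ r) : ((Up J S k).card : ℝ) ≤ 2 ^ r := by
  have := (card_filter_le _ (S ⊆ ·)).trans (card_pc J k r hJ)
  exact_mod_cast this

theorem sum_link {J S : Finset ι} (hS : S ⊆ J) (j : ℕ) (f : Finset ι → ℝ) :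
    ∑ T ∈ (J \ S).powersetCard j, f T = ∑ T ∈ Up J S (j + S.card), f (T \ S) := by
  symm
  refine sum_bij' (fun T _ => T \ S) (fun T _ => T ∪ S) ?_ ?_ ?_ ?_ ?_
  · intro T hT
    obtain ⟨h1, h2, h3⟩ := mem_Up.1 hT
    rw [mem_powersetCard, card_sdiff_of_subset h3, h2]
    exact ⟨sdiff_subset_sdiff h1 Subset.rfl, by omega⟩
  · intro T hT
    obtain ⟨h1, h2⟩ := mem_powersetCard.1 hT
    have hd : Disjoint T S := (subset_sdiff.1 h1).2
    rw [mem_Up, card_union_of_disjoint hd, h2]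
    exact ⟨union_subset (h1.trans sdiff_subset) hS, rfl, subset_union_right⟩
  · intro T hT
    exact sdiff_union_of_subset (mem_Up.1 hT).2.2
  · intro T hT
    have hd : Disjoint T S := (subset_sdiff.1 (mem_powersetCard.1 hT).1).2
    exact union_sdiff_cancel_right hd
  · intro T _; rfl

/-- lift of a cochain of the link of `ρ` -/
def lift (ρ : Finset α) (G : Finset α → ZMod 2) (τ : Finset α) : ZMod 2 :=
  if ρ ⊆ τ then G (τ \ ρ) else 0

theorem dl_lift (ρ : Finset α) (G : Finset α → ZMod 2) (τ : Finset α) :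
    dl (lift ρ G) τ = lift ρ (dl G) τ := by
  unfold lift dl
  split_ifs with h
  · rw [← sum_sdiff h, sum_eq_zero (s := ρ), add_zero]
    · refine sum_congr rfl fun v hv => ?_
      have hv' := (mem_sdiff.1 hv).2
      beta_reduce
      rw [if_pos (subset_erase.2 ⟨h, hv'⟩), erase_sdiff_comm]
    · intro v hv
      beta_reduce
      rw [if_neg]
      intro h'
      exact (subset_erase.1 h').2 hv
  · refine sum_eq_zero fun v _ => if_neg fun h' => h (h'.trans (erase_subset _ _))

theorem face_link {S T : Finset ι} {x y : Ω} (hy : y ∈ cl π S x) (hST : S ⊆ T) :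
    face π (T \ S) y ∪ face π S x = face π T y := by
  rw [← face_congr (mem_cl.1 hy), ← face_union, sdiff_union_of_subset hST]

theorem face_sdiff (hπ : Col π) {S T : Finset ι} {x y : Ω} (hy : y ∈ cl π S x) :
    face π T y \ face π S x = face π (T \ S) y := by
  rw [← face_congr (mem_cl.1 hy)]
  ext v
  simp only [mem_sdiff, mem_face]
  constructor
  · rintro ⟨⟨i, hi, rfl⟩, h⟩
    exact ⟨i, ⟨hi, fun hs => h ⟨i, hs, rfl⟩⟩, rfl⟩
  · rintro ⟨i, ⟨hi, hs⟩, rfl⟩
    refine ⟨⟨i, hi, rfl⟩, ?_⟩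
    rintro ⟨j, hj, e⟩
    exact hs (hπ _ _ _ _ e ▸ hj)

omit [DecidableEq ι] in
theorem sub_iff (hπ : Col π) {S T : Finset ι} {x y : Ω} :
    face π S x ⊆ face π T y ↔ S ⊆ T ∧ y ∈ cl π S x := by
  rw [face_subset_iff hπ, mem_cl]
  exact and_congr_right fun _ => forall₂_congr fun _ _ => eq_comm

omit [DecidableEq ι] [Fintype Ω] in
theorem cnt_add_le (C : Finset Ω) (U : Finset ι) (k : ℕ) (f g : Finset α → ZMod 2) :
    cnt π C U k (fun σ => f σ + g σ) ≤ cnt π C U k f + cnt π C U k g := by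
  unfold cnt
  rw [← sum_add_distrib]
  refine sum_le_sum fun T _ => ?_
  classical
  refine le_trans (card_le_card ?_) (card_union_le _ _)
  intro y hy
  simp only [mem_filter, mem_union] at hy ⊢
  by_contra hc
  push Not at hc
  exact hy.2 (by rw [hc.1 hy.1, hc.2 hy.1, add_zero])

omit [DecidableEq ι] in
theorem cnt_lift (hπ : Col π) {J S : Finset ι} {r Q : ℕ} (hJ : J.card ≤ r) (hS : S ⊆ J)
    (hne : S.Nonempty) (hQ : ∀ i ∈ J, ∀ x, (cl π {i} x).card ≤ Q) (x : Ω) (k : ℕ)
    (G : Finset α → ZMod 2) : cnt π univ J k (lift (face π S x) G) ≤ 2 ^ r * Q := by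
  obtain ⟨i, hi⟩ := hne
  unfold cnt
  refine le_trans (sum_le_card_nsmul _ _ Q fun T _ => ?_) ?_
  · refine le_trans (card_le_card ?_) (hQ i (hS hi) x)
    intro y hy
    have h1 := (mem_filter.1 hy).2
    unfold lift at h1
    by_cases h2 : face π S x ⊆ face π T y
    · exact cl_anti (singleton_subset_iff.2 hi) x ((sub_iff hπ).1 h2).2
    · exact absurd (if_neg h2) h1
  · exact Nat.mul_le_mul_right _ (card_pc J k r hJ)

open Classical in
/-- splitting the global count into the part seen by the face `face S x` and the rest -/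
theorem cnt_split (J S : Finset ι) (x : Ω) (k : ℕ) (h : Finset α → ZMod 2) :
    (cnt π univ J k h : ℝ) = ∑ T ∈ Up J S k, ∑ y ∈ cl π S x, ind π h T y +
      ∑ T ∈ J.powersetCard k, ∑ y, if S ⊆ T ∧ y ∈ cl π S x then 0 else ind π h T y := by
  classical
  rw [cnt_cast, Up, sum_filter, ← sum_add_distrib]
  refine sum_congr rfl fun T _ => ?_
  by_cases hT : S ⊆ T
  · rw [if_pos hT]
    have : ∑ y ∈ cl π S x, ind π h T y = ∑ y, if y ∈ cl π S x then ind π h T y else 0 := by
      rw [← sum_filter, filter_mem_eq_inter, univ_inter]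
    rw [this, ← sum_add_distrib]
    refine sum_congr rfl fun y _ => ?_
    by_cases hy : y ∈ cl π S x <;> simp [hT, hy]
  · simp [hT]

open Classical in
theorem local_bound (hπ : Col π) {J S : Finset ι} {K m : ℕ} (hS : S ⊆ J) (hSm : S.card ≤ m + 1)
    (hm : m + 2 ≤ J.card) (x : Ω) (hC : CobExp π (cl π S x) (J \ S) K) {h : Finset α → ZMod 2}
    (hd : ∀ τ, dl h τ = 0)
    (hmin : ∀ G, cnt π univ J (m + 1) h ≤
      cnt π univ J (m + 1) (fun σ => h σ + lift (face π S x) (dl G) σ)) :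
    ∑ T ∈ Up J S (m + 1), ∑ y ∈ cl π S x, ind π h T y ≤
      K * ∑ T ∈ Up J S (m + 2), ∑ j ∈ S, ∑ y ∈ cl π S x, ind π h (T.erase j) y := by
  obtain ⟨G, hG⟩ := hC (m + 1 - S.card) (by rw [card_sdiff_of_subset hS]; omega)
    (fun σ => h (σ ∪ face π S x))
  have hG' := (Nat.cast_le (α := ℝ)).2 hG
  have h1 := (Nat.cast_le (α := ℝ)).2 (hmin G)
  rw [cnt_split J S x, cnt_split J S x] at h1
  have e1 : m + 1 - S.card + S.card = m + 1 := by omega
  have e2 : m + 1 - S.card + 1 + S.card = m + 2 := by omega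
  push_cast at hG'
  rw [cnt_cast, cnt_cast, sum_link hS, sum_link hS, e1, e2] at hG'
  have h2 : ∑ T ∈ J.powersetCard (m + 1), ∑ y, (if S ⊆ T ∧ y ∈ cl π S x then 0 else
      ind π (fun σ => h σ + lift (face π S x) (dl G) σ) T y) =
      ∑ T ∈ J.powersetCard (m + 1), ∑ y, if S ⊆ T ∧ y ∈ cl π S x then 0 else ind π h T y := by
    refine sum_congr rfl fun T _ => sum_congr rfl fun y _ => ?_
    split_ifs with hc
    · rfl
    · unfold ind lift
      beta_reduce
      rw [if_neg (fun h' => hc ((sub_iff hπ).1 h')), add_zero]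
  have h3 : ∑ T ∈ Up J S (m + 1), ∑ y ∈ cl π S x,
      ind π (fun σ => h σ + lift (face π S x) (dl G) σ) T y =
      ∑ T ∈ Up J S (m + 1), ∑ y ∈ cl π S x,
        ind π (fun σ => h (σ ∪ face π S x) + dl G σ) (T \ S) y := by
    refine sum_congr rfl fun T hT => sum_congr rfl fun y hy => ?_
    have hST := (mem_Up.1 hT).2.2
    unfold ind lift
    beta_reduce
    rw [if_pos ((sub_iff hπ).2 ⟨hST, hy⟩), face_link hy hST, face_sdiff hπ hy]
  rw [h2, h3] at h1
  refine le_trans (by linarith) (hG'.trans (mul_le_mul_of_nonneg_left ?_ (Nat.cast_nonneg K)))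
  refine sum_le_sum fun T hT => ?_
  rw [sum_comm]
  refine sum_le_sum fun y hy => ?_
  have hST := (mem_Up.1 hT).2.2
  have h4 : dl (fun σ => h (σ ∪ face π S x)) (face π (T \ S) y) =
      ∑ j ∈ S, h (face π (T.erase j) y) := by
    have h5 := hd (face π T y)
    rw [dl_face hπ, ← sum_sdiff hST, z2_add_eq_zero] at h5
    rw [dl_face hπ, ← h5]
    refine sum_congr rfl fun i hi => ?_
    rw [← erase_sdiff_comm, face_link hy (subset_erase.2 ⟨hST, (mem_sdiff.1 hi).2⟩)]
  by_cases h6 : ∀ j ∈ S, h (face π (T.erase j) y) = 0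
  · have : ind π (dl fun σ => h (σ ∪ face π S x)) (T \ S) y = 0 := by
      unfold ind
      rw [h4, sum_eq_zero h6]
      simp
    rw [this]
    exact sum_nonneg fun j _ => ind_nn _ _ _
  · push Not at h6
    obtain ⟨j, hj, h7⟩ := h6
    refine (ind_le _ _ _).trans (le_trans (le_of_eq ?_)
      (single_le_sum (fun j _ => ind_nn h (T.erase j) y) hj))
    unfold ind
    rw [if_pos h7]

theorem spec_ineq {S A B : Finset ι} {δ : ℝ} (hδ : 0 < δ) (hs : Spec π S A B (δ ^ 2))
    {φ ψ : Ω → ℝ} (hφ : Meas π (S ∪ A) φ) (hψ : Meas π (S ∪ B) ψ) :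
    ∑ x, φ x * ψ x ≤ ∑ x, av π S φ x * av π S ψ x + δ / 2 * (∑ x, φ x ^ 2 + ∑ x, ψ x ^ 2) := by
  set φ0 : Ω → ℝ := fun x => φ x - av π S φ x with hφ0
  have h1 := hs φ0 (hφ.sub ((meas_av S φ).mono subset_union_left)) (av_sub_av S φ)
  have h2 := sum_sq_sub_av_le (π := π) S φ
  have h3 : ∑ x, φ x * ψ x = ∑ x, av π S φ x * av π S ψ x + ∑ x, ψ x * av π (S ∪ B) φ0 x := by
    rw [sum_mul_av_of_meas (meas_av S φ), sum_mul_av_of_meas hψ, ← sum_add_distrib]
    exact sum_congr rfl fun x _ => by simp only [hφ0]; ring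
  have h4 : δ * ∑ x, ψ x * av π (S ∪ B) φ0 x ≤
      (δ ^ 2 * ∑ x, ψ x ^ 2 + ∑ x, av π (S ∪ B) φ0 x ^ 2) / 2 := by
    rw [mul_sum, mul_sum, ← sum_add_distrib, sum_div]
    exact sum_le_sum fun x _ => by nlinarith [sq_nonneg (δ * ψ x - av π (S ∪ B) φ0 x)]
  have h5 := mul_le_mul_of_nonneg_left h2 (sq_nonneg δ)
  rw [h3]
  have h6 : ∑ x, ψ x * av π (S ∪ B) φ0 x ≤ δ / 2 * (∑ x, φ x ^ 2 + ∑ x, ψ x ^ 2) := by
    refine le_of_mul_le_mul_left ?_ hδ
    nlinarith
  linarith

/-- local density -/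
noncomputable def AA (π : ι → Ω → α) (h : Finset α → ZMod 2) (J : Finset ι) (k : ℕ)
    (S : Finset ι) (x : Ω) : ℝ := ∑ T ∈ Up J S k, av π S (ind π h T) x

theorem AA_nn (h : Finset α → ZMod 2) (J : Finset ι) (k : ℕ) (S : Finset ι) (x : Ω) :
    0 ≤ AA π h J k S x := sum_nonneg fun T _ => av_nonneg S (ind_nn h T) x

theorem AA_meas (h : Finset α → ZMod 2) (J : Finset ι) (k : ℕ) (S : Finset ι) :
    Meas π S (AA π h J k S) := meas_sum _ fun _ _ => meas_av _ _

theorem AA_sq (h : Finset α → ZMod 2) {J : Finset ι} {r : ℕ} (hJ : J.card ≤ r) (k : ℕ)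
    (S : Finset ι) : ∑ x, AA π h J k S x ^ 2 ≤ 2 ^ r * cnt π univ J k h := by
  have h1 : ∀ x, AA π h J k S x ≤ 2 ^ r := by
    intro x
    refine le_trans (sum_le_card_nsmul _ _ 1 fun T _ => ?_) ?_
    · simpa [av_const] using av_mono (π := π) S (ind_le h T) x
    · simpa using card_Up J S k r hJ
  have h2 : ∑ x, AA π h J k S x ≤ cnt π univ J k h := by
    unfold AA
    rw [sum_comm, cnt_cast]
    simp only [sum_av]
    exact sum_le_sum_of_subset_of_nonneg (filter_subset _ _)
      fun T _ _ => sum_nonneg fun y _ => ind_nn h T y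
  refine le_trans ?_ (mul_le_mul_of_nonneg_left h2 (by positivity))
  rw [mul_sum]
  exact sum_le_sum fun x _ => by
    rw [sq]; exact mul_le_mul_of_nonneg_right (h1 x) (AA_nn _ _ _ _ _)

theorem step_bound {J S : Finset ι} {K m r : ℕ} {δ : ℝ} (hδ : 0 < δ) (hJ : J.card ≤ r)
    (hS : S ⊆ J) {h : Finset α → ZMod 2}
    (hs : ∀ S ⊆ J, ∀ a ∈ J, ∀ B ⊆ J, a ∉ S → a ∉ B → Disjoint S B → Spec π S {a} B (δ ^ 2))
    (hl : ∀ x, ∑ T ∈ Up J S (m + 1), ∑ y ∈ cl π S x, ind π h T y ≤
      K * ∑ T ∈ Up J S (m + 2), ∑ j ∈ S, ∑ y ∈ cl π S x, ind π h (T.erase j) y) :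
    ∑ x, AA π h J (m + 1) S x ^ 2 ≤ K * ∑ j ∈ S, (∑ x, AA π h J (m + 1) (S.erase j) x ^ 2 +
      2 ^ r * (2 ^ r + 1) * (δ * cnt π univ J (m + 1) h)) := by
  have h1 : ∀ x, AA π h J (m + 1) S x ≤
      K * ∑ T ∈ Up J S (m + 2), ∑ j ∈ S, av π S (ind π h (T.erase j)) x := by
    intro x
    have := div_le_div_of_nonneg_right (hl x) (card_cl_pos' (π := π) S x).le
    simpa only [AA, av, sum_div, mul_div_assoc] using this
  have ha : (0 : ℝ) ≤ cnt π univ J (m + 1) h := Nat.cast_nonneg _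
  calc ∑ x, AA π h J (m + 1) S x ^ 2
      ≤ ∑ x, AA π h J (m + 1) S x *
        (K * ∑ T ∈ Up J S (m + 2), ∑ j ∈ S, av π S (ind π h (T.erase j)) x) :=
        sum_le_sum fun x _ => by
          rw [sq]; exact mul_le_mul_of_nonneg_left (h1 x) (AA_nn _ _ _ _ _)
    _ = K * ∑ j ∈ S, ∑ T ∈ Up J S (m + 2),
          ∑ x, AA π h J (m + 1) S x * ind π h (T.erase j) x := by
        have e : ∀ j T, ∑ x, AA π h J (m + 1) S x * ind π h (Finset.erase T j) x =
            ∑ x, AA π h J (m + 1) S x * av π S (ind π h (Finset.erase T j)) x :=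
          fun j T => (sum_mul_av_of_meas (AA_meas h J (m + 1) S) _).symm
        rw [sum_congr rfl fun j _ => sum_congr rfl fun T _ => e j T, sum_comm (s := S)]
        simp only [mul_sum]
        rw [sum_comm]
        refine sum_congr rfl fun T _ => ?_
        rw [sum_comm]
        exact sum_congr rfl fun j _ => sum_congr rfl fun x _ => by ring
    _ ≤ _ := by
        refine mul_le_mul_of_nonneg_left (sum_le_sum fun j hj => ?_) (Nat.cast_nonneg K)
        have a1 : ∀ T ∈ Up J S (m + 2), ∑ x, AA π h J (m + 1) S x * ind π h (T.erase j) x ≤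
            ∑ x, AA π h J (m + 1) (S.erase j) x * av π (S.erase j) (ind π h (T.erase j)) x +
              (2 ^ r + 1) * (δ * cnt π univ J (m + 1) h) := by
          intro T hT
          obtain ⟨t1, t2, t3⟩ := mem_Up.1 hT
          have e1 : S.erase j ∪ {j} = S := by
            rw [union_comm, ← insert_eq, insert_erase hj]
          have e2 : S.erase j ∪ (T \ S) = T.erase j := by
            ext i
            simp only [mem_union, mem_erase, mem_sdiff]
            constructor
            · rintro (⟨a, b⟩ | ⟨a, b⟩)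
              · exact ⟨a, t3 b⟩
              · exact ⟨fun e => b (e ▸ hj), a⟩
            · rintro ⟨a, b⟩
              by_cases c : i ∈ S
              · exact Or.inl ⟨a, c⟩
              · exact Or.inr ⟨b, c⟩
          have b1 := spec_ineq hδ (hs (S.erase j) ((erase_subset _ _).trans hS) j (hS hj) (T \ S)
            (sdiff_subset.trans t1) (notMem_erase _ _) (fun h' => (mem_sdiff.1 h').2 hj)
            (disjoint_of_subset_left (erase_subset _ _) disjoint_sdiff))
            (φ := AA π h J (m + 1) S) (ψ := ind π h (T.erase j))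
            (by rw [e1]; exact AA_meas _ _ _ _) (by rw [e2]; exact ind_meas _ _)
          have b2 := AA_sq (π := π) h hJ (m + 1) S
          have b3 : ∑ x, ind π h (T.erase j) x ^ 2 ≤ cnt π univ J (m + 1) h := by
            simp only [ind_sq]
            rw [cnt_cast]
            refine single_le_sum (f := fun T => ∑ y, ind π h T y)
              (fun T _ => sum_nonneg fun y _ => ind_nn h T y) ?_
            rw [mem_powersetCard, card_erase_of_mem (t3 hj), t2]
            exact ⟨(erase_subset _ _).trans t1, rfl⟩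
          have b4 : ∑ x, av π (S.erase j) (AA π h J (m + 1) S) x *
              av π (S.erase j) (ind π h (T.erase j)) x ≤
              ∑ x, AA π h J (m + 1) (S.erase j) x * av π (S.erase j) (ind π h (T.erase j)) x := by
            refine sum_le_sum fun x _ => mul_le_mul_of_nonneg_right ?_
              (av_nonneg _ (ind_nn h _) x)
            unfold AA
            rw [av_sum]
            simp only [av_av_of_subset (erase_subset j S)]
            refine sum_le_sum_of_subset_of_nonneg ?_ fun T _ _ => av_nonneg _ (ind_nn h T) x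
            intro T' hT'
            rw [mem_Up] at hT' ⊢
            exact ⟨hT'.1, hT'.2.1, (erase_subset _ _).trans hT'.2.2⟩
          have b5 : (0 : ℝ) ≤ 2 ^ r * (δ * cnt π univ J (m + 1) h) := by positivity
          have b6 : (0 : ℝ) ≤ δ * cnt π univ J (m + 1) h := by positivity
          have b7 := mul_le_mul_of_nonneg_left (add_le_add b2 b3) (by positivity : 0 ≤ δ / 2)
          nlinarith
        refine (sum_le_sum a1).trans ?_
        rw [sum_add_distrib]
        refine add_le_add ?_ ?_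
        · rw [sum_comm]
          refine sum_le_sum fun x _ => ?_
          rw [← mul_sum, sq]
          refine mul_le_mul_of_nonneg_left ?_ (AA_nn _ _ _ _ _)
          rw [← sum_image (s := Up J S (m + 2)) (g := fun T => T.erase j)
            (f := fun T => av π (S.erase j) (ind π h T) x)]
          · refine sum_le_sum_of_subset_of_nonneg ?_ fun T _ _ => av_nonneg _ (ind_nn h T) x
            intro T' hT'
            obtain ⟨T, hT, rfl⟩ := mem_image.1 hT'
            obtain ⟨t1, t2, t3⟩ := mem_Up.1 hT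
            rw [mem_Up, card_erase_of_mem (t3 hj), t2]
            exact ⟨(erase_subset _ _).trans t1, rfl, erase_subset_erase _ t3⟩
          · intro T hT T' hT' e
            have c1 := insert_erase ((mem_Up.1 hT).2.2 hj)
            have c2 := insert_erase ((mem_Up.1 hT').2.2 hj)
            rw [← c1, ← c2]
            exact congrArg _ e
        · rw [sum_const, nsmul_eq_mul, mul_assoc]
          exact mul_le_mul_of_nonneg_right (card_Up J S _ r hJ) (by positivity)

theorem global_bound {J : Finset ι} {K m r : ℕ} {δ : ℝ} (hδ : 0 < δ) (hJ : J.card ≤ r)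
    {h : Finset α → ZMod 2}
    (hs : ∀ S ⊆ J, ∀ a ∈ J, ∀ B ⊆ J, a ∉ S → a ∉ B → Disjoint S B → Spec π S {a} B (δ ^ 2))
    (hl : ∀ S ⊆ J, S.Nonempty → S.card ≤ m + 1 → ∀ x,
      ∑ T ∈ Up J S (m + 1), ∑ y ∈ cl π S x, ind π h T y ≤
      K * ∑ T ∈ Up J S (m + 2), ∑ j ∈ S, ∑ y ∈ cl π S x, ind π h (T.erase j) y) :
    (cnt π univ J (m + 1) h : ℝ) ≤ 2 ^ r * (K * r * (1 + 2 ^ r * (2 ^ r + 1)) + 1) ^ r *
      ((cnt π univ J (m + 1) h : ℝ) ^ 2 / Fintype.card Ω + δ * cnt π univ J (m + 1) h) := by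
  set a : ℝ := ((cnt π univ J (m + 1) h : ℕ) : ℝ) with ha
  have ha0 : 0 ≤ a := Nat.cast_nonneg _
  set β := a ^ 2 / Fintype.card Ω + δ * a with hβ
  set D : ℝ := 2 ^ r * (2 ^ r + 1) with hD
  set B : ℝ := K * r * (1 + D) + 1 with hB
  have hD0 : 0 ≤ D := by positivity
  have hB1 : 1 ≤ B := by
    have : (0 : ℝ) ≤ K * r * (1 + D) := by positivity
    linarith
  have hβ0 : 0 ≤ β := by positivity
  have hβ1 : δ * a ≤ β := by
    have : 0 ≤ a ^ 2 / Fintype.card Ω := by positivity
    linarith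
  have key : ∀ s ≤ m + 1, ∀ S ⊆ J, S.card = s → ∑ x, AA π h J (m + 1) S x ^ 2 ≤ B ^ s * β := by
    intro s
    induction s with
    | zero =>
      intro _ S _ hS
      rw [card_eq_zero.1 hS]
      have e : ∀ x, AA π h J (m + 1) ∅ x = a / Fintype.card Ω := by
        intro x
        rw [ha, cnt_cast, sum_div]
        simp [AA, Up, av]
      simp only [e, sum_const, card_univ, nsmul_eq_mul, pow_zero, one_mul]
      have : (Fintype.card Ω : ℝ) * (a / Fintype.card Ω) ^ 2 = a ^ 2 / Fintype.card Ω := by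
        by_cases h0 : (Fintype.card Ω : ℝ) = 0
        · simp [h0]
        · field_simp
      rw [this]
      have : 0 ≤ δ * a := by positivity
      linarith
    | succ s ih =>
      intro hs' S hS hc
      refine (step_bound hδ hJ hS hs (hl S hS (card_pos.1 (by omega)) (by omega))).trans ?_
      have h1 : ∑ j ∈ S, (∑ x, AA π h J (m + 1) (S.erase j) x ^ 2 + D * (δ * a)) ≤
          r * ((1 + D) * (B ^ s * β)) := by
        refine le_trans (sum_le_card_nsmul _ _ ((1 + D) * (B ^ s * β)) fun j hj => ?_) ?_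
        · have b1 := ih (by omega) (S.erase j) ((erase_subset _ _).trans hS)
            (by rw [card_erase_of_mem hj, hc]; rfl)
          have b2 : β ≤ B ^ s * β := le_mul_of_one_le_left hβ0 (one_le_pow₀ hB1)
          have b3 := mul_le_mul_of_nonneg_left (hβ1.trans b2) hD0
          linarith
        · rw [nsmul_eq_mul]
          refine mul_le_mul_of_nonneg_right ?_ (by positivity)
          exact_mod_cast (card_le_card hS).trans hJ
      refine (mul_le_mul_of_nonneg_left h1 (Nat.cast_nonneg K)).trans ?_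
      have : 0 ≤ B ^ s * β := by positivity
      rw [pow_succ]
      nlinarith
  calc a = ∑ S ∈ J.powersetCard (m + 1), ∑ x, AA π h J (m + 1) S x ^ 2 := by
        rw [ha, cnt_cast]
        refine sum_congr rfl fun S hS => sum_congr rfl fun x _ => ?_
        obtain ⟨s1, s2⟩ := mem_powersetCard.1 hS
        have : Up J S (m + 1) = {S} := by
          ext T
          rw [mem_Up, mem_singleton]
          constructor
          · rintro ⟨_, t2, t3⟩
            exact (eq_of_subset_of_card_le t3 (by omega)).symm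
          · rintro rfl
            exact ⟨s1, s2, Subset.rfl⟩
        rw [AA, this, sum_singleton, av_of_meas (ind_meas h S), ind_sq]
    _ ≤ (J.powersetCard (m + 1)).card • (B ^ r * β) := by
        refine sum_le_card_nsmul _ _ _ fun S hS => ?_
        obtain ⟨s1, s2⟩ := mem_powersetCard.1 hS
        refine (key (m + 1) le_rfl S s1 s2).trans (mul_le_mul_of_nonneg_right ?_ hβ0)
        exact pow_le_pow_right₀ hB1 (s2 ▸ (card_le_card s1).trans hJ)
    _ ≤ _ := by
        rw [nsmul_eq_mul, mul_assoc]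
        refine mul_le_mul_of_nonneg_right ?_ (by positivity)
        exact_mod_cast card_pc J _ r hJ

end LG

/-- Let `g` minimise `(2^r Q + 1) · cnt (m+1) (dl F + dl g) + cnt m g`, `h = dl F + dl g`.
Then `cnt m g ≤ (2^r Q+1) cnt (dl F)`, `cnt h ≤ cnt (dl F)`, and `h` is locally minimal: for
`S ≠ ∅`, `ρ = face S x`, `h_ρ σ = h (σ ∪ ρ)`: `cnt (cl S x) (J \ S) (m+1-|S|) (h_ρ + dl G)` is
never smaller than `cnt … h_ρ` (lift `G` to `G' τ = if ρ ⊆ τ then G (τ \ ρ) else 0`, which has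
`cnt m G' ≤ 2^r Q`, and `dl G'` lives on faces containing `ρ`, `face_subset_iff`).
Put `1_T = [h (face T ·) ≠ 0]`, `A_S = ∑_{T ⊇ S, T ⊆ J, |T| = m+1} av S 1_T`, `M_S = ∑_x A_S²`,
`α = cnt (m+1) h`.  `CobExp` + minimality + `dl h = 0` (so `dl h_ρ (face (T \ S) y) =
∑_{j ∈ S} h (face (T.erase j) y)`) give `A_S ≤ K ∑_{T ⊇ S, |T| = m+2} ∑_{j∈S} av S 1_{T-j}`.
Multiply by `A_S`, sum, and use `Spec π (S-j) {j} (T \ S) ε` through
`⟨φ, ψ⟩ ≤ ⟨E φ, E ψ⟩ + √ε (‖φ‖² + ‖ψ‖²)/2`, `E = av (S-j)`, `E A_S ≤ A_{S-j}`,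
`∑_T E 1_{T-j} ≤ A_{S-j}`, `M_S ≤ 2^r α`:  `M_S ≤ K (∑_{j∈S} M_{S-j} + C √ε α)`.
With `M_∅ = α²/|Ω|` and `∑_{|S| = m+1} M_S = α` we get `α ≤ C' (α²/|Ω| + √ε α)`, so `α = 0` as soon
as `cnt (dl F) < |Ω| / (2C')` and `C' √ε < 1/2`.  Then `F + g` is a cocycle, `= dl G` on faces.
If `cnt (dl F) ≥ |Ω|/(2C')` take `G = 0` (`cnt m ≤ 2^r |Ω|`). -/
theorem l2g (r K : ℕ) : ∃ ε : ℝ, 0 < ε ∧ ∀ Q : ℕ, ∃ K' : ℕ, ∀ (ι Ω α : Type) [DecidableEq ι]
    [DecidableEq α] [Fintype Ω] (π : ι → Ω → α) (J : Finset ι), Col π → J.card ≤ r →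
    (∀ i ∈ J, ∀ x, (cl π {i} x).card ≤ Q) →
    (∀ S ⊆ J, S.Nonempty → ∀ x, CobExp π (cl π S x) (J \ S) K) →
    (∀ S ⊆ J, ∀ a ∈ J, ∀ B ⊆ J, a ∉ S → a ∉ B → Disjoint S B → Spec π S {a} B ε) →
    ∀ m, m + 2 ≤ J.card → Acyc (cx π univ J) m → ∀ F : Finset α → ZMod 2,
      ∃ G : Finset α → ZMod 2,
        cnt π univ J m (fun σ => F σ + dl G σ) ≤ K' * cnt π univ J (m + 1) (dl F) := by
  classical
  set C : ℕ := 2 ^ r * (K * r * (1 + 2 ^ r * (2 ^ r + 1)) + 1) ^ r with hC
  have hC0 : (0 : ℝ) < C := by rw [hC]; positivity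
  refine ⟨(1 / (2 * C)) ^ 2, by positivity, fun Q => ⟨(2 ^ r * Q + 1) + 2 ^ r * (2 * C), ?_⟩⟩
  intro ι Ω α _ _ _ π J hπ hJ hQ hCob hSp m hm hA F
  obtain ⟨g, hg⟩ : ∃ g : Finset α → ZMod 2, ∀ g' : Finset α → ZMod 2,
      (2 ^ r * Q + 1) * cnt π univ J (m + 1) (dl fun σ => F σ + g σ) + cnt π univ J m g ≤
      (2 ^ r * Q + 1) * cnt π univ J (m + 1) (dl fun σ => F σ + g' σ) + cnt π univ J m g' :=
    ⟨Function.argmin (fun g : Finset α → ZMod 2 =>
      (2 ^ r * Q + 1) * cnt π univ J (m + 1) (dl fun σ => F σ + g σ) + cnt π univ J m g),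
      fun g' => Function.argmin_le (fun g : Finset α → ZMod 2 =>
      (2 ^ r * Q + 1) * cnt π univ J (m + 1) (dl fun σ => F σ + g σ) + cnt π univ J m g) g'⟩
  set h : Finset α → ZMod 2 := dl fun σ => F σ + g σ with hh
  have h0 := hg fun _ => 0
  have e0 : cnt π univ J m (fun _ : Finset α => (0 : ZMod 2)) = 0 := by simp [cnt]
  simp only [add_zero, e0] at h0
  have h1 : cnt π univ J (m + 1) h ≤ cnt π univ J (m + 1) (dl F) :=
    Nat.le_of_mul_le_mul_left (le_trans (Nat.le_add_right _ _) h0) (Nat.succ_pos _)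
  have h2 : cnt π univ J m g ≤ (2 ^ r * Q + 1) * cnt π univ J (m + 1) (dl F) :=
    le_trans (Nat.le_add_left _ _) h0
  have hb := LG.global_bound (π := π) (K := K) (m := m) (h := h)
    (by positivity : (0 : ℝ) < 1 / (2 * C)) hJ hSp (fun S hS hne hc x =>
      LG.local_bound hπ hS hc hm x (hCob S hS hne x) (fun τ => dl_dl _ τ) (fun G => by
        have b1 := hg fun σ => g σ + LG.lift (face π S x) G σ
        have b2 := LG.cnt_add_le (π := π) univ J m g (LG.lift (face π S x) G)
        have b3 := LG.cnt_lift hπ hJ hS hne hQ x m G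
        have b4 : (dl fun σ => F σ + (g σ + LG.lift (face π S x) G σ)) =
            fun σ => h σ + LG.lift (face π S x) (dl G) σ := by
          funext σ
          simp only [← add_assoc]
          rw [dl_add (fun σ => F σ + g σ), LG.dl_lift]
        rw [b4] at b1
        by_contra hc
        have b5 := Nat.mul_le_mul_left (2 ^ r * Q + 1) (Nat.succ_le_of_lt (not_le.1 hc))
        rw [Nat.mul_succ] at b5
        omega))
  have hC' : (2 : ℝ) ^ r * (K * r * (1 + 2 ^ r * (2 ^ r + 1)) + 1) ^ r = C := by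
    rw [hC]; push_cast; ring
  rw [hC'] at hb
  rcases Nat.eq_zero_or_pos (cnt π univ J (m + 1) h) with hz | hz
  · obtain ⟨G, hG⟩ := hA (fun σ => F σ + g σ) (by
      rintro _ ⟨T, hT, x, -, rfl⟩ hc
      rw [card_face hπ] at hc
      by_contra hne
      have := sum_eq_zero_iff.1 hz T (mem_powersetCard.2 ⟨hT, hc⟩)
      rw [card_eq_zero, filter_eq_empty_iff] at this
      exact this (mem_univ x) hne)
    refine ⟨G, le_trans (le_of_eq ?_) (h2.trans (Nat.mul_le_mul_right _ (Nat.le_add_right _ _)))⟩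
    refine sum_congr rfl fun T hT => ?_
    obtain ⟨t1, t2⟩ := mem_powersetCard.1 hT
    congr 1
    refine filter_congr fun x _ => ?_
    have b1 := hG _ (face_mem_cx t1 (mem_univ x)) (by rw [card_face hπ, t2])
    beta_reduce at b1 ⊢
    rw [← b1, ← add_assoc, z2_add_self, zero_add]
  · have ha : (0 : ℝ) < cnt π univ J (m + 1) h := by exact_mod_cast hz
    have h3 : Fintype.card Ω ≤ 2 * C * cnt π univ J (m + 1) h := by
      rcases Nat.eq_zero_or_pos (Fintype.card Ω) with h4 | h4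
      · omega
      have h5 : (0 : ℝ) < Fintype.card Ω := by exact_mod_cast h4
      set a : ℝ := ((cnt π univ J (m + 1) h : ℕ) : ℝ) with ha'
      have e : (C : ℝ) * (a ^ 2 / Fintype.card Ω + 1 / (2 * C) * a) =
          C * a ^ 2 / Fintype.card Ω + a / 2 := by field_simp
      rw [e] at hb
      have h6 : a / 2 ≤ C * a ^ 2 / Fintype.card Ω := by linarith
      rw [le_div_iff₀ h5] at h6
      have h7 : (Fintype.card Ω : ℝ) ≤ 2 * C * a := by
        refine le_of_mul_le_mul_left ?_ ha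
        nlinarith
      rw [ha'] at h7
      exact_mod_cast h7
    refine ⟨fun _ => 0, ?_⟩
    have h8 : cnt π univ J m (fun σ => F σ + dl (fun _ => 0) σ) ≤ 2 ^ r * Fintype.card Ω := by
      refine le_trans (sum_le_card_nsmul _ _ (Fintype.card Ω) fun T _ => card_le_univ _) ?_
      exact Nat.mul_le_mul_right _ (LG.card_pc J m r hJ)
    calc _ ≤ 2 ^ r * (2 * C * cnt π univ J (m + 1) (dl F)) :=
          h8.trans (Nat.mul_le_mul_left _ (h3.trans (Nat.mul_le_mul_left _ h1)))
      _ = 2 ^ r * (2 * C) * cnt π univ J (m + 1) (dl F) := by ring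
      _ ≤ _ := Nat.mul_le_mul_right _ (Nat.le_add_left _ _)

end Crest.Agent.R66
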