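import Crest.Agent.R66.Chain

/-! # Row 66: transfer along isomorphisms, Morse lemma, staircase lemma (task TR) -/

set_option autoImplicit false

namespace Crest.Agent.R66

open Finset

variable {α β : Type*} [DecidableEq α] [DecidableEq β]

namespace Tr

theorem image_image_eq {f : α → β} {g : β → α} {σ : Finset α} (h : ∀ v ∈ σ, g (f v) = v) :
    (σ.image f).image g = σ := by
  rw [image_image]
  exact (image_congr (g := id) fun v hv => h v hv).trans image_id

theorem image_erase {f : α → β} {σ : Finset α} (hf : Set.InjOn f σ) {v : α} (hv : v ∈ σ) :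
    (σ.erase v).image f = (σ.image f).erase (f v) := by
  ext b
  simp only [mem_image, mem_erase]
  constructor
  · rintro ⟨a, ⟨hav, ha⟩, rfl⟩
    exact ⟨fun h => hav (hf ha hv h), a, ha, rfl⟩
  · rintro ⟨hb, a, ha, rfl⟩
    exact ⟨a, ⟨fun h => hb (by rw [h]), ha⟩, rfl⟩

omit [DecidableEq β] in
theorem acyc_triv {K : Set (Finset α)} (h : ∀ σ ∈ K, σ = ∅) {m : ℕ} :
    Acyc K m ↔ (m ≠ 0 ∨ ∅ ∉ K) := by
  constructor
  · intro hK
    by_contra hn
    push Not at hn
    obtain ⟨rfl, h0⟩ := hn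
    obtain ⟨G, hG⟩ := hK (fun _ => 1) (fun τ hτ hc => by rw [h τ hτ, dl_empty])
    have := hG ∅ h0 rfl
    rw [dl_empty] at this
    exact one_ne_zero this
  · intro hm F _
    refine ⟨fun _ => 0, fun σ hσ hc => ?_⟩
    obtain rfl := h σ hσ
    rcases hm with hm | hm
    · exact absurd hc.symm hm
    · exact absurd hσ hm

theorem acyc_of_iso {K : Set (Finset α)} {K' : Set (Finset β)} {f : α → β} {g : β → α}
    (h : Iso K K' f) (hg : Iso K' K g) (hl : ∀ σ ∈ K, ∀ v ∈ σ, g (f v) = v) {m : ℕ}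
    (h' : Acyc K' m) : Acyc K m := by
  intro F hF
  have h1 := h' _ (hF.comap (fun σ hσ v hv w hw e => hg.1 ⟨σ, hσ, hv⟩ ⟨σ, hσ, hw⟩ e) hg.2.1)
  refine (h1.comap (fun σ hσ v hv w hw e => h.1 ⟨σ, hσ, hv⟩ ⟨σ, hσ, hw⟩ e) h.2.1).congr ?_
  intro σ hσ _
  rw [image_image_eq (hl σ hσ)]

theorem bd_mapDomain {g : α → β} (z : Ch α) (hz : ∀ τ ∈ z.support, Set.InjOn g τ) :
    bd (Finsupp.mapDomain (image g) z) = Finsupp.mapDomain (image g) (bd z) := by
  conv_lhs => rw [← z.sum_single]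
  conv_rhs => rw [← z.sum_single]
  rw [Finsupp.sum, Finsupp.mapDomain_finsetSum, map_sum, map_sum, Finsupp.mapDomain_finsetSum]
  refine sum_congr rfl fun τ hτ => ?_
  rw [Finsupp.mapDomain_single]
  simp only [bd, Finsupp.linearCombination_single]
  rw [Finsupp.mapDomain_smul, Finsupp.mapDomain_finsetSum, sum_image (hz τ hτ)]
  congr 1
  exact sum_congr rfl fun v hv => by rw [Finsupp.mapDomain_single, image_erase (hz τ hτ) hv]

theorem dl_comm (G : Finset α → Finset β → ZMod 2) (σ : Finset α) (S : Finset β) :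
    dl (fun σ' => dl (G σ') S) σ = dl (fun S' => dl (fun σ' => G σ' S') σ) S := by
  simp only [dl]; rw [sum_comm]

theorem stair_aux (D : Finset α → Finset β → Prop)
    (hD : ∀ σ S σ' S', D σ S → σ' ⊆ σ → S' ⊆ S → D σ' S') (m : ℕ)
    (hrow : ∀ σ, D σ ∅ → ∀ r ≤ m, Acyc {S | D σ S} r)
    (hcol : ∀ S i, 2 ≤ S.card → i + S.card = m + 1 → Acyc {σ | D σ S} i) (i : ℕ) :
    ∀ r, 1 ≤ r → i + r = m + 1 → ∀ G : Finset α → Finset β → ZMod 2,
      (∀ σ S, D σ S → σ.card = i → S.card = r + 1 →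
        dl (fun S' => dl (fun σ' => G σ' S') σ) S = 0) →
      ∃ G' : Finset α → Finset β → ZMod 2,
        (∀ σ S, D σ S → σ.card = i → S.card = r →
          dl (fun σ' => G' σ' S) σ = dl (fun σ' => G σ' S) σ) ∧
        ∀ σ S, D σ S → σ.card + 1 = i → S.card = r + 1 → dl (G' σ) S = 0 := by
  induction i with
  | zero =>
    intro r _ _ G _
    refine ⟨fun _ _ => 0, fun σ S _ hc _ => ?_, fun σ S _ hc _ => by omega⟩
    rw [card_eq_zero.1 hc, dl_empty, dl_empty]
  | succ i ih =>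
    intro r hr hi G hG
    have h1 : ∀ S : Finset β, S.card = r + 1 → ∃ B : Finset α → ZMod 2,
        ∀ σ, D σ S → σ.card = i → dl (G σ) S = dl B σ := by
      intro S hS
      exact hcol S i (by omega) (by omega) (fun σ => dl (G σ) S) fun τ hτ hc => by
        rw [dl_comm]; exact hG τ S hτ hc hS
    choose! B hB using h1
    obtain ⟨G'', h2, h3⟩ := ih (r + 1) (by omega) (by omega) (fun σ S => B S σ) (by
      intro σ S hσ hc hS
      rw [← dl_dl (G σ) S]
      refine dl_congr fun w hw => (hB _ ?_ σ (hD σ S _ _ hσ Subset.rfl (erase_subset _ _)) hc).symm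
      rw [card_erase_of_mem hw, hS]; rfl)
    have h4 : ∀ σ : Finset α, D σ ∅ → σ.card + 1 = i → ∃ X : Finset β → ZMod 2,
        ∀ S, D σ S → S.card = r + 1 → G'' σ S = dl X S := by
      intro σ hσ hc
      exact hrow σ hσ (r + 1) (by omega) (G'' σ) fun S hS hS' => h3 σ S hS hc hS'
    choose! X hX using h4
    refine ⟨fun σ S => G σ S + dl (fun σ' => X σ' S) σ, fun σ S _ _ _ => ?_,
      fun σ S hσ hc hS => ?_⟩
    · rw [dl_add, dl_dl, add_zero]
    · have hc' : σ.card = i := by omega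
      rw [dl_add, ← dl_comm, hB S hS σ hσ hc', ← h2 σ S hσ hc' hS, z2_add_eq_zero]
      refine dl_congr fun w hw => hX _ (hD σ S _ _ hσ (erase_subset _ _) (empty_subset _)) ?_ S
        (hD σ S _ _ hσ (erase_subset _ _) Subset.rfl) hS
      rw [← hc']; exact card_erase_add_one hw

end Tr

theorem Iso.injOn_face {K : Set (Finset α)} {K' : Set (Finset β)} {f : α → β} (h : Iso K K' f)
    {σ : Finset α} (hσ : σ ∈ K) : Set.InjOn f σ := by
  exact fun v hv w hw e => h.1 ⟨σ, hσ, hv⟩ ⟨σ, hσ, hw⟩ e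

/-- an isomorphism has an inverse (`Function.invFunOn`) -/
theorem Iso.symm [Nonempty α] {K : Set (Finset α)} {K' : Set (Finset β)} {f : α → β}
    (h : Iso K K' f) : ∃ g : β → α, Iso K' K g ∧ (∀ σ ∈ K, ∀ v ∈ σ, g (f v) = v) ∧
      ∀ σ ∈ K', ∀ v ∈ σ, f (g v) = v := by
  have hl : ∀ σ ∈ K, ∀ v ∈ σ, Function.invFunOn f {v | ∃ σ ∈ K, v ∈ σ} (f v) = v :=
    fun σ hσ v hv => h.1.leftInvOn_invFunOn ⟨σ, hσ, hv⟩
  set g := Function.invFunOn f {v | ∃ σ ∈ K, v ∈ σ}
  have hr : ∀ σ ∈ K', ∀ v ∈ σ, f (g v) = v := by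
    intro σ' hσ' v' hv'
    obtain ⟨σ, hσ, rfl⟩ := h.2.2 σ' hσ'
    obtain ⟨v, hv, rfl⟩ := mem_image.1 hv'
    rw [hl σ hσ v hv]
  refine ⟨g, ⟨?_, ?_, ?_⟩, hl, hr⟩
  · rintro v ⟨σ, hσ, hv⟩ w ⟨σ', hσ', hw⟩ e
    rw [← hr σ hσ v hv, e, hr σ' hσ' w hw]
  · intro σ' hσ'
    obtain ⟨σ, hσ, rfl⟩ := h.2.2 σ' hσ'
    rw [Tr.image_image_eq (hl σ hσ)]
    exact hσ
  · intro σ hσ
    exact ⟨σ.image f, h.2.1 σ hσ, Tr.image_image_eq (hl σ hσ)⟩

/-- If `α` is empty treat separately (then all faces are `∅`), or avoid the inverse: transport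
cochains by `F' σ' = F (preimage of σ' among the vertices of K)`. -/
theorem Iso.acyc_iff {K : Set (Finset α)} {K' : Set (Finset β)} {f : α → β} (h : Iso K K' f)
    (m : ℕ) : Acyc K m ↔ Acyc K' m := by
  rcases isEmpty_or_nonempty α with hα | hα
  · have h1 : ∀ σ ∈ K, σ = ∅ := fun σ _ => eq_empty_of_isEmpty σ
    have h2 : ∀ σ ∈ K', σ = ∅ := by
      intro σ' hσ'
      obtain ⟨σ, hσ, rfl⟩ := h.2.2 σ' hσ'
      rw [h1 σ hσ, image_empty]
    rw [Tr.acyc_triv h1, Tr.acyc_triv h2]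
    refine or_congr Iff.rfl (not_congr ⟨fun h0 => by simpa using h.2.1 ∅ h0, fun h0 => ?_⟩)
    obtain ⟨σ, hσ, -⟩ := h.2.2 ∅ h0
    exact h1 σ hσ ▸ hσ
  · obtain ⟨g, hg, hl, hr⟩ := h.symm
    exact ⟨Tr.acyc_of_iso hg h hr, Tr.acyc_of_iso h hg hl⟩

theorem Iso.racyc {K : Set (Finset α)} {K' : Set (Finset β)} {f : α → β} (h : Iso K K' f)
    (hK : Down K) {good : α → Prop} {good' : β → Prop}
    (e : ∀ σ ∈ K, ∀ v ∈ σ, (good v ↔ good' (f v))) {m : ℕ} (h' : RAcyc K' good' m) :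
    RAcyc K good m := by
  classical
  intro F hF h0
  rcases isEmpty_or_nonempty α with hα | hα
  · refine ⟨fun _ => 0, fun _ _ => rfl, fun σ hσ hc => ?_⟩
    rw [dl_zero]
    exact h0 σ hσ hc fun v => isEmptyElim v
  obtain ⟨g, hg, hl, -⟩ := h.symm
  obtain ⟨G', hG0, hG'⟩ := h' _ (hF.comap (fun σ hσ => hg.injOn_face hσ) hg.2.1) (by
    intro σ' hσ' hc hb
    obtain ⟨σ, hσ, rfl⟩ := h.2.2 σ' hσ'
    rw [Tr.image_image_eq (hl σ hσ)]
    refine h0 σ hσ (by rw [← hc, card_image_of_injOn (h.injOn_face hσ)]) fun v hv => ?_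
    rw [e σ hσ v hv]
    exact hb _ (mem_image_of_mem _ hv))
  refine ⟨fun σ => if σ ∈ K then G' (σ.image f) else 0, fun σ hb => ?_, fun σ hσ hc => ?_⟩
  · beta_reduce
    split_ifs with hσ
    · refine hG0 _ fun v' hv' => ?_
      obtain ⟨v, hv, rfl⟩ := mem_image.1 hv'
      rw [← e σ hσ v hv]
      exact hb v hv
    · rfl
  · have := hG' _ (h.2.1 σ hσ) (by rw [card_image_of_injOn (h.injOn_face hσ), hc])
    beta_reduce at this
    rw [Tr.image_image_eq (hl σ hσ), ← dl_image (h.injOn_face hσ)] at this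
    rw [this]
    exact dl_congr fun v _ => by rw [if_pos (hK σ hσ _ (erase_subset _ _))]

/-- `c σ = Finsupp.mapDomain (image g) (c' (σ.image f))` with `g` the inverse. -/
theorem Iso.hasCone {K : Set (Finset α)} {K' : Set (Finset β)} {f : α → β} (h : Iso K K' f)
    (hK : Down K) {e Ψ : ℕ} (h' : HasCone K' e Ψ) : HasCone K e Ψ := by
  have _ := hK
  obtain ⟨c', hc'⟩ := h'
  rcases isEmpty_or_nonempty α with hα | hα
  · refine ⟨fun _ => 0, fun σ hσ hlt => ?_⟩
    exfalso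
    obtain rfl := eq_empty_of_isEmpty σ
    obtain ⟨h1, -, h3⟩ := hc' ∅ (by simpa using h.2.1 ∅ hσ) hlt
    have h4 : c' ∅ = 0 := by
      rw [← Finsupp.support_eq_empty, eq_empty_iff_forall_notMem]
      intro τ' hτ'
      obtain ⟨h5, h6⟩ := h1 τ' hτ'
      obtain ⟨τ, -, rfl⟩ := h.2.2 τ' h5
      rw [eq_empty_of_isEmpty τ] at h6
      simp at h6
    rw [h4] at h3
    have := congrArg (fun z : Ch β => z ∅) h3
    simp at this
  obtain ⟨g, hg, hl, -⟩ := h.symm
  refine ⟨fun σ => Finsupp.mapDomain (image g) (c' (σ.image f)), fun σ hσ hlt => ?_⟩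
  have hcard := card_image_of_injOn (h.injOn_face hσ)
  obtain ⟨h1, h2, h3⟩ := hc' _ (h.2.1 σ hσ) (by rw [hcard]; exact hlt)
  refine ⟨fun τ hτ => ?_, ?_, ?_⟩
  · obtain ⟨τ', hτ', rfl⟩ := mem_image.1 (Finsupp.mapDomain_support hτ)
    obtain ⟨h4, h5⟩ := h1 τ' hτ'
    exact ⟨hg.2.1 τ' h4, by rw [card_image_of_injOn (hg.injOn_face h4), h5, hcard]⟩
  · exact (card_le_card Finsupp.mapDomain_support).trans (card_image_le.trans h2)
  · beta_reduce
    rw [Tr.bd_mapDomain _ fun τ hτ => hg.injOn_face (h1 τ hτ).1]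
    have h6 := congrArg (Finsupp.mapDomain (image g)) h3
    rw [Finsupp.mapDomain_add, Finsupp.mapDomain_single, Tr.image_image_eq (hl σ hσ),
      Finsupp.mapDomain_finsetSum, sum_image (h.injOn_face hσ)] at h6
    rw [← h6]
    congr 1
    exact sum_congr rfl fun v hv => by rw [Tr.image_erase (h.injOn_face hσ) hv]

/-- Discrete Morse lemma.  Induction on `N ≥ h₀`: there is `G` vanishing on the sets without good
vertex with `F = dl G` on the faces of size `m+1` all of whose heights are `< N`.  Step: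
`F' = F + dl G` vanishes on these; for every vertex `v` of height `N`, `τ ↦ F' (insert v τ)` is a
cocycle on the descending link (`dl_insert`), `= dl G_v` there; add
`G' σ = ∑_{v ∈ σ, h v = N} G_v (σ.erase v)`. -/
theorem morse (K : Set (Finset α)) (hK : Down K) (h : α → ℕ) (h₀ H : ℕ)
    (hH : ∀ σ ∈ K, ∀ v ∈ σ, h v < H) (hinj : ∀ σ ∈ K, Set.InjOn h σ) (m : ℕ)
    (hlk : ∀ v, {v} ∈ K → h₀ ≤ h v →
      Acyc {τ | v ∉ τ ∧ insert v τ ∈ K ∧ ∀ w ∈ τ, h w < h v} m) :
    RAcyc K (fun v => h₀ ≤ h v) (m + 1) := by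
  classical
  intro F hF h0
  have key : ∀ N : ℕ, ∃ G : Finset α → ZMod 2, (∀ σ, (∀ v ∈ σ, ¬ h₀ ≤ h v) → G σ = 0) ∧
      ∀ σ ∈ K, σ.card = m + 1 → (∀ v ∈ σ, h v < h₀ + N) → F σ = dl G σ := by
    intro N
    induction N with
    | zero =>
      refine ⟨fun _ => 0, fun _ _ => rfl, fun σ hσ hc hlt => ?_⟩
      rw [dl_zero]
      exact h0 σ hσ hc fun v hv => by have := hlt v hv; omega
    | succ N ih =>
      obtain ⟨G, hG0, hG⟩ := ih
      have hF' : Cocyc K (m + 1) (fun σ => F σ + dl G σ) := hF.add (cocyc_dl G)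
      have hv : ∀ v, {v} ∈ K → h v = h₀ + N → ∃ A : Finset α → ZMod 2,
          ∀ τ, v ∉ τ → insert v τ ∈ K → (∀ w ∈ τ, h w < h v) → τ.card = m →
            F (insert v τ) + dl G (insert v τ) = dl A τ := by
        intro v hvK hvN
        obtain ⟨A, hA⟩ := hlk v hvK (by omega) (fun τ => F (insert v τ) + dl G (insert v τ)) (by
          rintro τ ⟨h1, h2, h3⟩ hc
          have h4 := hF' _ h2 (by rw [card_insert_of_notMem h1, hc])
          rw [dl_insert _ h1] at h4
          have h5 : F τ = dl G τ :=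
            hG τ (hK _ h2 _ (subset_insert _ _)) hc fun w hw => hvN ▸ h3 w hw
          rwa [h5, z2_add_self, zero_add] at h4)
        exact ⟨A, fun τ h1 h2 h3 hc => hA τ ⟨h1, h2, h3⟩ hc⟩
      choose! A hA using hv
      let G' : Finset α → ZMod 2 := fun σ =>
        ∑ v ∈ σ.filter (fun v => h v = h₀ + N), A v (σ.erase v)
      have hG'0 : ∀ σ, (∀ v ∈ σ, h v ≠ h₀ + N) → G' σ = 0 := by
        intro σ hσ
        simp only [G']
        rw [filter_eq_empty_iff.2 hσ, sum_empty]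
      refine ⟨fun σ => G σ + G' σ, fun σ hb => ?_, fun σ hσ hc hlt => ?_⟩
      · beta_reduce
        rw [hG0 σ hb, hG'0 σ fun v hv => by have := hb v hv; omega, add_zero]
      rw [dl_add]
      by_cases hex : ∃ v ∈ σ, h v = h₀ + N
      · obtain ⟨v, hv, hvN⟩ := hex
        have hlow : ∀ w ∈ σ.erase v, h w < h v := by
          intro w hw
          obtain ⟨hwv, hw⟩ := mem_erase.1 hw
          have h1 := hlt w hw
          have h2 : h w ≠ h v := fun e => hwv (hinj σ hσ hw hv e)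
          omega
        have hvn := notMem_erase v σ
        have hτc : (σ.erase v).card = m := by rw [card_erase_of_mem hv, hc]; rfl
        have e := insert_erase hv
        have h1 := hA v (hK σ hσ _ (singleton_subset_iff.2 hv)) hvN _ hvn (e.symm ▸ hσ) hlow hτc
        rw [e] at h1
        have h2 : dl G' σ = dl (A v) (σ.erase v) := by
          conv_lhs => rw [← e]
          rw [dl_insert _ hvn, hG'0 _ fun w hw => by have := hlow w hw; omega, zero_add]
          refine dl_congr fun w _ => ?_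
          have hn : v ∉ (σ.erase v).erase w := fun hh => hvn (mem_of_mem_erase hh)
          have h3 : (insert v ((σ.erase v).erase w)).filter (fun u => h u = h₀ + N) = {v} := by
            ext u
            simp only [mem_filter, mem_insert, mem_singleton]
            constructor
            · rintro ⟨rfl | hu, h4⟩
              · rfl
              · have := hlow u (mem_of_mem_erase hu); omega
            · rintro rfl; exact ⟨Or.inl rfl, hvN⟩
          simp only [G']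
          rw [h3, sum_singleton, erase_insert hn]
        rw [h2, ← h1, add_comm (F σ), ← add_assoc, z2_add_self, zero_add]
      · push Not at hex
        have h1 : dl G' σ = 0 :=
          sum_eq_zero fun w _ => hG'0 _ fun v hv => hex v (mem_of_mem_erase hv)
        rw [h1, add_zero]
        exact hG σ hσ hc fun v hv => by have := hlt v hv; have := hex v hv; omega
  obtain ⟨G, hG0, hG⟩ := key H
  exact ⟨G, hG0, fun σ hσ hc => hG σ hσ hc fun v hv => by have := hH σ hσ v hv; omega⟩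

/-- Staircase lemma in the double complex of pairs `(σ, S)` (`d₁` = `dl` in `σ`, `d₂` = `dl` in `S`,
they commute by `dl_sum`).  Claim `P(i)`: for `r ≥ 1`, `i + r = m + 1`, if `X` (on `|σ| = i`,
`|S| = r`) has `d₂ X = 0` and `X = d₁ G`, then `X = d₁ G'` with `d₂ G' = 0` (on `|σ| + 1 = i`,
`|S| = r + 1`).  `P(0)`: `G' = 0`.  Step: `Y = d₂ G` is `d₁`-closed, so `d₁`-exact by `hcol`
(`|S| = r+1 ≥ 2`), `P(i-1)` gives `Y = d₁ G''` with `d₂ G'' = 0`, `hrow` gives `G'' = d₂ X'`,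
`G' = G + d₁ X'`.  Finally apply `P(m)` to `X (σ, S) = d₂ (F) `, `r = 1`, then `hrow` in sizes
`1` and `0`. -/
theorem stair (D : Finset α → Finset β → Prop)
    (hD : ∀ σ S σ' S', D σ S → σ' ⊆ σ → S' ⊆ S → D σ' S') (m : ℕ)
    (hrow : ∀ σ, D σ ∅ → ∀ r ≤ m, Acyc {S | D σ S} r)
    (hcol : ∀ S i, 2 ≤ S.card → i + S.card = m + 1 → Acyc {σ | D σ S} i)
    (F : Finset α → ZMod 2) (hF : Cocyc {σ | D σ ∅} m F) (hv : ∀ v, Cob {σ | D σ {v}} m F) :
    Cob {σ | D σ ∅} m F := by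
  have _ := hF
  choose A hA using hv
  obtain ⟨G', h1, h2⟩ := Tr.stair_aux D hD m hrow hcol m 1 le_rfl rfl
    (fun σ S => ∑ v ∈ S, A v σ) (by
      intro σ S hDσ hc hS
      have : ∀ w ∈ S, dl (fun σ' => ∑ v ∈ S.erase w, A v σ') σ = F σ := by
        intro w hw
        obtain ⟨v, hv⟩ := card_eq_one.1 (show (S.erase w).card = 1 by
          rw [card_erase_of_mem hw, hS])
        simp only [hv, sum_singleton]
        exact (hA v σ (hD σ S _ _ hDσ Subset.rfl (hv ▸ erase_subset _ _)) hc).symm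
      rw [dl, sum_congr rfl this, sum_const, hS, two_nsmul, z2_add_self])
  have h3 : ∀ σ, D σ ∅ → σ.card + 1 = m → ∃ c : ZMod 2, ∀ v, D σ {v} → G' σ {v} = c := by
    intro σ hσ hc
    obtain ⟨B, hB⟩ := hrow σ hσ 1 (by omega) (G' σ) fun S hS hS' => h2 σ S hS hc hS'
    exact ⟨B ∅, fun v hv => by rw [hB {v} hv (card_singleton v)]; simp [dl]⟩
  choose! c hc using h3
  refine ⟨c, fun σ hσ hm => ?_⟩
  obtain ⟨B, hB⟩ := hrow σ hσ 0 (Nat.zero_le _) (fun _ => F σ + dl c σ) (by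
    intro S hS hS'
    obtain ⟨v, rfl⟩ := card_eq_one.1 hS'
    have h4 := h1 σ {v} hS hm (card_singleton v)
    simp only [sum_singleton] at h4
    have h5 : dl c σ = dl (fun σ' => G' σ' {v}) σ := by
      refine dl_congr fun w hw => (hc _ (hD σ ∅ _ _ hσ (erase_subset _ _) Subset.rfl) ?_ v
        (hD σ {v} _ _ hS (erase_subset _ _) Subset.rfl)).symm
      rw [← hm]; exact card_erase_add_one hw
    rw [dl, sum_singleton, h5, h4, hA v σ hS hm]
    exact z2_add_self _)
  have := hB ∅ hσ rfl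
  rw [dl_empty] at this
  exact z2_add_eq_zero.1 this

end Crest.Agent.R66
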