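import Crest.Agent.R66.Bar
import Crest.Agent.R66.Transfer
import Crest.Agent.R66.CobExp

/-! # Row 66: links are flag complexes (task LK) -/

set_option autoImplicit false

namespace Crest.Agent.R66

open Finset Module Matrix

variable {k R : Type} [Field k] [CommRing R] [Algebra k R] (τ : Trunc k R)
variable {n : Type} [Fintype n] [DecidableEq n]
variable [Finite R]

/-- `full_flag` (with `goodFam_Tr`), `adapted` for `𝓛 = insert I (𝓘.image (LL I))`,
`exists_bar_eq`. -/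
theorem link_surj [Fintype k] (hq : 3 < Fintype.card k) {𝓘 : Finset (Finset n)} (hc : ChainOK 𝓘)
    {I : Finset n} (hI : I ∈ 𝓘) (σ : Finset (Submodule k (n → k)))
    (hσ : ∀ W ∈ σ, W ∈ Tr (coord k Iᶜ))
    (hch : IsChain (· ≤ ·) (σ : Set (Submodule k (n → k)))) :
    ∃ p ∈ PP τ I, ∀ I' ∈ 𝓘, ∀ W ∈ σ, finrank k W = (LL I I').card → Wsp τ I p (LL I I') = W := by
  obtain ⟨W, hW, hm, hX⟩ := full_flag (goodFam_Tr (coord k Iᶜ)) hq σ hσ hch
  rw [Module.finrank_fintype_fun_eq_card] at hW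
  have hchain : IsChain (· ⊆ ·) ((insert I (𝓘.image (LL I)) : Finset (Finset n)) :
      Set (Finset n)) := by
    intro A hA B hB _
    simp only [coe_insert, coe_image, Set.mem_insert_iff, Set.mem_image, mem_coe] at hA hB
    rcases hA with rfl | ⟨A', hA', rfl⟩ <;> rcases hB with rfl | ⟨B', hB', rfl⟩
    · exact Or.inl Subset.rfl
    · exact (LL_comp _ _).symm
    · exact LL_comp _ _
    · exact LL_chain hc hI hA' hB'
  obtain ⟨M, hM, h0, hL⟩ := adapted I _ (mem_insert_self _ _) hchain W hW hm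
  obtain ⟨p, hp, e⟩ := exists_bar_eq τ I M hM h0
  refine ⟨p, hp, fun I' hI' X hXσ hr => ?_⟩
  rw [Wsp, e, hL _ (mem_insert_of_mem (mem_image_of_mem _ hI')), ← hr, hX X hXσ]

/-- the fixed flag of the link of type `S ∋ I` -/
noncomputable def phiS (k : Type) [Field k] {n : Type} [Fintype n] [DecidableEq n] (I : Finset n)
    (S : Finset (Finset n)) : Finset (Submodule k (n → k)) :=
  insert ⊤ (S.image fun I' => coord k (LL I I'))

/-- levels of the colours `U` in the link of `I` -/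
def lev {n : Type} [Fintype n] [DecidableEq n] (I : Finset n) (U : Finset (Finset n)) : Finset ℕ :=
  U.image fun I' => (LL I I').card

omit [Finite R] in
theorem card_lev {𝓘 : Finset (Finset n)} (hc : ChainOK 𝓘) {I : Finset n} (hI : I ∈ 𝓘)
    {U : Finset (Finset n)} (hU : U ⊆ 𝓘) : (lev I U).card = U.card := by
  exact card_image_of_injOn fun A hA B hB e => card_LL_inj hc hI (hU hA) (hU hB) e

omit [Finite R] in
theorem lk_coord_Tr {I L : Finset n} (h : L ⊆ I ∨ I ⊆ L) : coord k L ∈ Tr (coord k Iᶜ) := by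
  rcases h with h | h
  · left
    rw [eq_bot_iff]
    rintro w ⟨h1, h2⟩
    refine (Submodule.mem_bot k).2 (funext fun i => ?_)
    by_cases hi : i ∈ L
    · exact mem_coord.1 h2 i (by simpa using h hi)
    · exact mem_coord.1 h1 i hi
  · right
    rw [eq_top_iff]
    intro w _
    refine Submodule.mem_sup.2 ⟨fun i => if i ∈ L then w i else 0,
      mem_coord.2 fun i hi => if_neg hi, fun i => if i ∈ L then 0 else w i,
      mem_coord.2 fun i hi => if_pos (h (by simpa using hi)), funext fun i => ?_⟩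
    by_cases hi : i ∈ L <;> simp [hi]

omit [Finite R] in
theorem link_flagOK {𝓘 : Finset (Finset n)} (hc : ChainOK 𝓘) {S U : Finset (Finset n)}
    (hS : S ⊆ 𝓘) (hU : U ⊆ 𝓘) (hd : Disjoint S U) {I : Finset n} (hI : I ∈ S) :
    FlagOK (Tr (coord k Iᶜ)) (phiS k I S) (lev I U) := by
  have hfin : finrank k (n → k) = Fintype.card n := Module.finrank_fintype_fun_eq_card k
  have hlev : ∀ r ∈ lev I U, r < Fintype.card n := by
    intro r hr
    obtain ⟨A, hA, rfl⟩ := mem_image.1 hr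
    exact card_LL_lt hc (hS hI) (hU hA)
  refine ⟨?_, mem_insert_self _ _, ?_, ?_, fun r hr => hfin ▸ (hlev r hr).le⟩
  · refine mem_insert_of_mem (mem_image.2 ⟨I, hI, ?_⟩)
    rw [LL_self, eq_bot_iff]
    intro w hw
    rw [mem_coord] at hw
    exact (Submodule.mem_bot k).2 (funext fun i => hw i (notMem_empty i))
  · intro W hW
    rcases mem_insert.1 hW with rfl | hW
    · refine ⟨top_mem_Tr _, fun h => ?_⟩
      have := hlev _ h
      rw [finrank_top, hfin] at this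
      exact lt_irrefl _ this
    · obtain ⟨A, hA, rfl⟩ := mem_image.1 hW
      refine ⟨lk_coord_Tr (LL_comp I A), fun h => ?_⟩
      obtain ⟨B, hB, e⟩ := mem_image.1 h
      rw [finrank_coord] at e
      obtain rfl := card_LL_inj hc (hS hI) (hU hB) (hS hA) e
      exact disjoint_left.1 hd hA hB
  · intro A hA B hB _
    rcases mem_insert.1 (mem_coe.1 hA) with rfl | hA
    · exact Or.inr le_top
    rcases mem_insert.1 (mem_coe.1 hB) with rfl | hB
    · exact Or.inl le_top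
    obtain ⟨A', hA', rfl⟩ := mem_image.1 hA
    obtain ⟨B', hB', rfl⟩ := mem_image.1 hB
    exact (LL_chain hc (hS hI) (hS hA') (hS hB')).imp coord_mono coord_mono

/-- chambers of `cl S x` are `x * p` with `p ∈ P_{I'}` for all `I' ∈ S` (`mem_cl_vert`);
`lam_vert`, `vert_eq_of_Wsp`, `link_surj` applied to `σ ∪ phiS`, `mem_PP_iff_Wsp`. -/
theorem link_iso [Fintype k] (hq : 3 < Fintype.card k) {𝓘 : Finset (Finset n)} (hc : ChainOK 𝓘)
    {S U : Finset (Finset n)} (hS : S ⊆ 𝓘) (hU : U ⊆ 𝓘) (hd : Disjoint S U) {I : Finset n}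
    (hI : I ∈ S) (x : SL n R) :
    Iso (cx (vert τ) (cl (vert τ) S x) U) (FlagCx (Tr (coord k Iᶜ)) (phiS k I S) (lev I U))
      (lam τ I x) := by
  have hI' := hS hI
  have hcmp : ∀ A ∈ 𝓘, A ⊆ I ∨ I ⊆ A := fun A hA => hc.total hA hI'
  have hcl : ∀ y ∈ cl (vert τ) S x, ∃ p, (∀ A ∈ S, p ∈ PP τ A) ∧ y = x * p := fun y hy =>
    ⟨x⁻¹ * y, (mem_cl_vert τ).1 hy, by simp⟩
  refine ⟨?_, ?_, ?_⟩
  · rintro v ⟨_, ⟨T, hT, y, hy, rfl⟩, hv⟩ w ⟨_, ⟨T', hT', y', hy', rfl⟩, hw⟩ e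
    obtain ⟨A, hA, rfl⟩ := mem_face.1 hv
    obtain ⟨B, hB, rfl⟩ := mem_face.1 hw
    obtain ⟨p, hp, rfl⟩ := hcl y hy
    obtain ⟨p', hp', rfl⟩ := hcl y' hy'
    rw [lam_vert τ x (hp I hI) (hcmp A (hU (hT hA))),
      lam_vert τ x (hp' I hI) (hcmp B (hU (hT' hB)))] at e
    exact vert_eq_of_Wsp τ hc hI' (hU (hT hA)) (hU (hT' hB)) x (hp I hI) (hp' I hI) e
  · rintro _ ⟨T, hT, y, hy, rfl⟩
    obtain ⟨p, hp, rfl⟩ := hcl y hy
    have hmem : ∀ W ∈ (face (vert τ) T (x * p)).image (lam τ I x),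
        ∃ A ∈ U, W = Wsp τ I p (LL I A) := by
      intro W hW
      obtain ⟨v, hv, rfl⟩ := mem_image.1 hW
      obtain ⟨A, hA, rfl⟩ := mem_face.1 hv
      exact ⟨A, hT hA, lam_vert τ x (hp I hI) (hcmp A (hU (hT hA)))⟩
    refine ⟨fun W hW => ?_, ?_⟩
    · obtain ⟨A, hA, rfl⟩ := hmem W hW
      refine ⟨Wsp_Tr τ (hp I hI) (LL_comp I A), ?_⟩
      rw [finrank_Wsp τ (hp I hI)]
      exact mem_image_of_mem _ hA
    · have key : ∀ W ∈ (((face (vert τ) T (x * p)).image (lam τ I x) :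
          Finset (Submodule k (n → k))) : Set (Submodule k (n → k))) ∪ (phiS k I S),
          W = ⊤ ∨ ∃ A ∈ 𝓘, W = Wsp τ I p (LL I A) := by
        rintro W (hW | hW)
        · obtain ⟨A, hA, e⟩ := hmem W hW
          exact Or.inr ⟨A, hU hA, e⟩
        · rcases mem_insert.1 (mem_coe.1 hW) with rfl | hW
          · exact Or.inl rfl
          · obtain ⟨A, hA, rfl⟩ := mem_image.1 hW
            exact Or.inr ⟨A, hS hA,
              ((mem_PP_iff_Wsp τ (hp I hI) (hcmp A (hS hA))).1 (hp A hA)).symm⟩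
      intro A hA B hB _
      rcases key A hA with rfl | ⟨A', hA', rfl⟩
      · exact Or.inr le_top
      rcases key B hB with rfl | ⟨B', hB', rfl⟩
      · exact Or.inl le_top
      exact (LL_chain hc hI' hA' hB').imp (Wsp_mono τ I p) (Wsp_mono τ I p)
  · rintro σ' ⟨h1, h2⟩
    have hφ := link_flagOK (k := k) hc hS hU hd hI
    obtain ⟨p, hp, hW⟩ := link_surj τ hq hc hI' (σ' ∪ phiS k I S) (fun W hW => by
      rcases mem_union.1 hW with hW | hW
      · exact (h1 W hW).1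
      · exact (hφ.2.2.1 W hW).1) (by rw [coe_union]; exact h2)
    have hpS : ∀ A ∈ S, p ∈ PP τ A := fun A hA =>
      (mem_PP_iff_Wsp τ hp (hcmp A (hS hA))).2 (hW A (hS hA) _
        (mem_union_right _ (mem_insert_of_mem (mem_image_of_mem _ hA))) (finrank_coord _))
    classical
    refine ⟨face (vert τ) (U.filter fun A => ∃ W ∈ σ', finrank k W = (LL I A).card) (x * p),
      face_mem_cx (filter_subset _ _) ((mem_cl_vert τ).2 (by simpa using hpS)), ?_⟩
    ext W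
    constructor
    · intro h
      obtain ⟨v, hv, rfl⟩ := mem_image.1 h
      obtain ⟨A, hA, rfl⟩ := mem_face.1 hv
      obtain ⟨hAU, W, hWσ, e⟩ := mem_filter.1 hA
      rw [lam_vert τ x hp (hcmp A (hU hAU)), hW A (hU hAU) W (mem_union_left _ hWσ) e]
      exact hWσ
    · intro h
      obtain ⟨A, hA, e⟩ := mem_image.1 (h1 W h).2
      refine mem_image.2 ⟨vert τ A (x * p),
        mem_face.2 ⟨A, mem_filter.2 ⟨hA, W, h, e.symm⟩, rfl⟩, ?_⟩
      rw [lam_vert τ x hp (hcmp A (hU hA)), hW A (hU hA) W (mem_union_left _ h) e.symm]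

theorem link_cone (N : ℕ) : ∃ Ψ q₀ : ℕ, ∀ (k R n : Type) [Field k] [Fintype k] [CommRing R] [Algebra k R] [Finite R]
    [Fintype n] [DecidableEq n] (τ : Trunc k R) (𝓘 : Finset (Finset n)),
    q₀ ≤ Fintype.card k → Fintype.card n ≤ N → ChainOK 𝓘 → ∀ S ⊆ 𝓘, S.Nonempty → ∀ U ⊆ 𝓘,
    Disjoint S U → ∀ x : SL n R, HasCone (cx (vert τ) (cl (vert τ) S x) U) U.card Ψ := by
  obtain ⟨Ψ, q₀, h⟩ := flag_cone N 3
  refine ⟨Ψ, max q₀ 4, ?_⟩
  intro k R n _ _ _ _ _ _ _ τ 𝓘 hq hN hc S hS hne U hU hd x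
  obtain ⟨I, hI⟩ := hne
  refine (link_iso τ (lt_of_lt_of_le (by norm_num) ((le_max_right _ _).trans hq)) hc hS hU hd hI
    x).hasCone (down_cx _ _) ?_
  rw [← card_lev hc (hS hI) hU]
  exact h k (n → k) ((le_max_left _ _).trans hq)
    (by rw [Module.finrank_fintype_fun_eq_card]; exact hN) _ _ _ (goodFam_Tr _)
    (link_flagOK hc hS hU hd hI)

/-- `cobExp_of_cone` with `Γ = {g | ∀ I ∈ S, x⁻¹ g x ∈ P_I}` (a subgroup of `SL n R`);
`𝓘.card ≤ N` by `card_lev`/`card_LL_lt`. -/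
theorem link_cobExp (N : ℕ) : ∃ K q₀ : ℕ, ∀ (k R n : Type) [Field k] [Fintype k] [CommRing R] [Algebra k R] [Finite R]
    [Fintype n] [DecidableEq n] (τ : Trunc k R) (𝓘 : Finset (Finset n)),
    q₀ ≤ Fintype.card k → Fintype.card n ≤ N → ChainOK 𝓘 → ∀ S ⊆ 𝓘, S.Nonempty →
    ∀ x : SL n R, CobExp (vert τ) (cl (vert τ) S x) (𝓘 \ S) K := by
  obtain ⟨Ψ, q₀, h⟩ := link_cone N
  refine ⟨2 ^ N * Ψ, q₀, ?_⟩
  intro k R n _ _ _ _ _ _ _ τ 𝓘 hq hN hc S hS hne x
  let Γ : Subgroup (SL n R) :=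
    { carrier := {g | ∀ I ∈ S, x⁻¹ * g * x ∈ PP τ I}
      mul_mem' := fun {g g'} hg hg' I hI => by
        simpa [mul_assoc] using (PP τ I).mul_mem (hg I hI) (hg' I hI)
      one_mem' := fun I _ => by simp
      inv_mem' := fun {g} hg I hI => by
        simpa [mul_assoc] using (PP τ I).inv_mem (hg I hI) }
  have h1 := cobExp_of_cone (Γ := Γ) (vert τ) (col_vert τ) (cl (vert τ) S x) (𝓘 \ S)
    (fun g I y => (smul_vert τ (g : SL n R) I y).symm)
    (fun g y hy => (mem_cl_vert τ).2 fun I hI => by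
      have := (PP τ I).mul_mem (g.2 I hI) ((mem_cl_vert τ).1 hy I hI)
      show x⁻¹ * ((g : SL n R) * y) ∈ PP τ I
      simpa [mul_assoc] using this)
    (fun y hy z hz => ⟨⟨z * y⁻¹, fun I hI => by
      have := (PP τ I).mul_mem ((mem_cl_vert τ).1 hz I hI)
        ((PP τ I).inv_mem ((mem_cl_vert τ).1 hy I hI))
      simpa [mul_assoc] using this⟩, by
      show z * y⁻¹ * y = z
      simp⟩)
    (h k R n τ 𝓘 hq hN hc S hS hne (𝓘 \ S) sdiff_subset disjoint_sdiff x)
  have h2 : (𝓘 \ S).card ≤ N := by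
    obtain ⟨I, hI⟩ := hne
    rw [← card_lev hc (hS hI) sdiff_subset]
    refine le_trans (card_le_card (t := range (Fintype.card n)) ?_) (by simpa using hN)
    intro r hr
    obtain ⟨A, hA, rfl⟩ := mem_image.1 hr
    exact mem_range.2 (card_LL_lt hc (hS hI) (sdiff_subset hA))
  intro m hm F
  obtain ⟨G, hG⟩ := h1 m hm F
  exact ⟨G, hG.trans (Nat.mul_le_mul_right _
    (Nat.mul_le_mul_right _ (Nat.pow_le_pow_right (by norm_num) h2)))⟩

end Crest.Agent.R66
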