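import Crest.Agent.R66.Chi
import Crest.Agent.R66.Fourier
import Crest.Agent.R66.Gen

/-! # Row 66: unipotent radicals (task UP) -/

set_option autoImplicit false

namespace Crest.Agent.R66

open Finset Module Matrix

variable {k R : Type} [Field k] [CommRing R] [Algebra k R] (τ : Trunc k R)
variable {n : Type} [Fintype n] [DecidableEq n]
variable [Finite R] {ρ : Type} [Fintype ρ] [DecidableEq ρ]

namespace Up

omit [Fintype n] [Fintype ρ] in
theorem ee_inl (I : Finset n) (a : ρ) : ee (extc ρ I) (Sum.inl a) = 0 := by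
  simp [ee, extc]

omit [Fintype n] [Fintype ρ] in
theorem ee_inr (I : Finset n) (i : n) : ee (extc ρ I) (Sum.inr i) = ee I i := by
  simp [ee, extc]

theorem ee_compl (I : Finset n) (i : n) : ee Iᶜ i = 1 - ee I i := by
  unfold ee; by_cases h : i ∈ I <;> simp [h]

omit [Fintype n] in
theorem ee_mono {I I' : Finset n} (h : I' ⊆ I) (i : n) : ee I' i ≤ ee I i := by
  unfold ee
  by_cases h1 : i ∈ I'
  · simp [h1, h h1]
  · simp [h1]

omit [Fintype n] [Fintype ρ] [DecidableEq n] [DecidableEq ρ] in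
theorem extc_inj {I I' : Finset n} (h : extc ρ I = extc ρ I') : I = I' :=
  Finset.map_injective _ h

omit [Finite R] in
theorem one_mem_FF : (1 : R) ∈ FF τ 1 := by
  simpa using pow_mem_FF τ (i := 0) (m := 1) one_pos

omit [Finite R] in
theorem algebraMap_mem_FF (c : k) : algebraMap k R c ∈ FF τ 1 := by
  rw [Algebra.algebraMap_eq_smul_one]
  exact Submodule.smul_mem _ _ (one_mem_FF τ)

theorem mem_PP_blocks {I : Finset n} {g : SL (ρ ⊕ n) R} {h : SL n R} {B : Matrix ρ n R}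
    {C : Matrix n ρ R} (e : mt g = fromBlocks 1 B C (mt h)) :
    g ∈ PP τ (extc ρ I) ↔ (∀ a j, B a j ∈ FF τ (1 + ee I j)) ∧
      (∀ i a, C i a ∈ FF τ (1 - ee I i)) ∧ h ∈ PP τ I := by
  rw [mem_PP, e]
  constructor
  · intro H
    refine ⟨fun a j => ?_, fun i a => ?_, fun i j => ?_⟩
    · simpa [ee_inl, ee_inr] using H (Sum.inl a) (Sum.inr j)
    · simpa [ee_inl, ee_inr] using H (Sum.inr i) (Sum.inl a)
    · simpa [ee_inl, ee_inr] using H (Sum.inr i) (Sum.inr j)
  · rintro ⟨h1, h2, h3⟩ (a | i) (b | j)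
    · simp only [fromBlocks_apply₁₁, ee_inl, Nat.add_zero, Nat.sub_zero]
      by_cases hab : a = b
      · subst hab; rw [Matrix.one_apply_eq]; exact one_mem_FF τ
      · rw [Matrix.one_apply_ne hab]; exact zero_mem _
    · simpa [ee_inl, ee_inr] using h1 a j
    · simpa [ee_inl, ee_inr] using h2 i b
    · simpa [ee_inl, ee_inr] using h3 i j

end Up

open Up

theorem sG_mem_PP_iff {I : Finset n} {g : SL n R} : sG ρ g ∈ PP τ (extc ρ I) ↔ g ∈ PP τ I := by
  rw [mem_PP_blocks τ (mt_sG g)]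
  simp

theorem sV_vert (I : Finset n) (x : SL n R) : sV τ ρ (vert τ I x) = vert τ (extc ρ I) (sG ρ x) :=
  vmap_vert τ _ _ (fun _ hg => (sG_mem_PP_iff τ).2 hg) x

theorem thG_mem_PP_iff {I : Finset n} {g : SL n R} : thG g ∈ PP τ Iᶜ ↔ g ∈ PP τ I := by
  rw [← (PP τ I).inv_mem_iff, mem_PP, mem_PP]
  have key : ∀ i j, 1 + ee Iᶜ j - ee Iᶜ i = 1 + ee I i - ee I j := by
    intro i j
    have := ee_le I i; have := ee_le I j
    rw [ee_compl, ee_compl]; omega
  simp only [mt_thG, transpose_apply, key]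
  exact forall_comm

/-- union of the `uG`-translates of the section -/
def UK (ρ : Type) [Fintype ρ] [DecidableEq ρ] (𝓘 : Finset (Finset n)) :
    Set (Finset (Vx (ρ ⊕ n) R)) :=
  {σ | ∃ u : Matrix ρ n R, ∃ σ' ∈ Zc τ 𝓘, σ = σ'.image (fun v => uG u • sV τ ρ v)}

/-- union of the `lG`-translates of the section -/
def LK (ρ : Type) [Fintype ρ] [DecidableEq ρ] (𝓘 : Finset (Finset n)) :
    Set (Finset (Vx (ρ ⊕ n) R)) :=
  {σ | ∃ u : Matrix n ρ R, ∃ σ' ∈ Zc τ 𝓘, σ = σ'.image (fun v => lG u • sV τ ρ v)}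

namespace Up

theorem image_face (g : SL (ρ ⊕ n) R) (T : Finset (Finset n)) (x : SL n R) :
    (face (vert τ) T x).image (fun v => g • sV τ ρ v) =
      face (vert τ) (T.image (extc ρ)) (g * sG ρ x) := by
  simp only [face, image_image]
  refine image_congr fun I _ => ?_
  simp only [Function.comp, sV_vert, smul_vert]

theorem mem_Zc {𝓘 : Finset (Finset n)} {σ : Finset (Vx n R)} :
    σ ∈ Zc τ 𝓘 ↔ ∃ T ⊆ 𝓘, ∃ x, σ = face (vert τ) T x := by
  simp [Zc, cx]

theorem vert_of_mem {𝓘 : Finset (Finset n)} {σ : Finset (Vx n R)} (h : σ ∈ Zc τ 𝓘) {v : Vx n R}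
    (hv : v ∈ σ) : ∃ I ∈ 𝓘, ∃ x, v = vert τ I x := by
  obtain ⟨T, hT, x, rfl⟩ := (mem_Zc τ).1 h
  obtain ⟨I, hI, rfl⟩ := mem_face.1 hv
  exact ⟨I, hT hI, x, rfl⟩

omit [Fintype n] [DecidableEq n] in
theorem exists_max {𝓘 T : Finset (Finset n)} (hc : IsChain (· ⊆ ·) (𝓘 : Set (Finset n)))
    (hT : T ⊆ 𝓘) (hne : T.Nonempty) : ∃ I ∈ T, ∀ I' ∈ T, I' ⊆ I := by
  obtain ⟨I, hI, hmax⟩ := T.exists_max_image Finset.card hne
  refine ⟨I, hI, fun I' hI' => ?_⟩
  by_cases e : I' = I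
  · exact e ▸ Subset.refl _
  rcases hc (hT hI') (hT hI) e with h | h
  · exact h
  · exact (eq_of_subset_of_card_le h (hmax I' hI')).symm ▸ Subset.refl _

omit [Fintype n] [DecidableEq n] in
theorem exists_min {𝓘 T : Finset (Finset n)} (hc : IsChain (· ⊆ ·) (𝓘 : Set (Finset n)))
    (hT : T ⊆ 𝓘) (hne : T.Nonempty) : ∃ I ∈ T, ∀ I' ∈ T, I ⊆ I' := by
  obtain ⟨I, hI, hmin⟩ := T.exists_min_image Finset.card hne
  refine ⟨I, hI, fun I' hI' => ?_⟩
  by_cases e : I' = I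
  · exact e ▸ Subset.refl _
  rcases hc (hT hI') (hT hI) e with h | h
  · exact (eq_of_subset_of_card_le h (hmin I' hI')) ▸ Subset.refl _
  · exact h

theorem self_mem_cos (I : Finset n) (x : SL n R) : x ∈ (vert τ I x).cos := by
  rw [mem_vert_cos]; simp

omit [Finite R] in
theorem mulVec_inv_mulVec (x : SL n R) (w : n → R) : mt x *ᵥ (mt x⁻¹ *ᵥ w) = w := by
  rw [mulVec_mulVec, mt_mul_inv, one_mulVec]

omit [Finite R] in
theorem inv_mulVec_mulVec (x : SL n R) (w : n → R) : mt x⁻¹ *ᵥ (mt x *ᵥ w) = w := by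
  rw [mulVec_mulVec, mt_inv_mul, one_mulVec]

/-- sections in terms of the chosen representative -/
theorem inv_mulVec_mem {I : Finset n} {x y : SL n R} (hy : y ∈ (vert τ I x).cos) {m : ℕ}
    {w : n → R} (hw : w ∈ HH τ I m) : mt x⁻¹ *ᵥ (mt y *ᵥ w) ∈ HH τ I m := by
  rw [mulVec_mulVec, ← mt_mul]
  exact mulVec_mem_HH τ ((mem_vert_cos τ).1 hy) hw

omit [Finite R] in
theorem lG_zero : lG (0 : Matrix n ρ R) = 1 := by
  apply mt_ext; simp

omit [Finite R] in
theorem uG_zero : uG (0 : Matrix ρ n R) = 1 := by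
  apply mt_ext; simp

omit [Finite R] in
theorem lG_add (u u' : Matrix n ρ R) : lG (u + u') = lG u * lG u' := by
  apply mt_ext; simp [fromBlocks_multiply]

omit [Finite R] in
theorem uG_add (u u' : Matrix ρ n R) : uG (u + u') = uG u * uG u' := by
  apply mt_ext; simp [fromBlocks_multiply, add_comm]

omit [Finite R] in
theorem lG_inv (u : Matrix n ρ R) : (lG u)⁻¹ = lG (-u) := by
  apply inv_eq_of_mul_eq_one_right; rw [← lG_add, add_neg_cancel, lG_zero]

omit [Finite R] in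
theorem uG_inv (u : Matrix ρ n R) : (uG u)⁻¹ = uG (-u) := by
  apply inv_eq_of_mul_eq_one_right; rw [← uG_add, add_neg_cancel, uG_zero]

theorem lG_smul_eq_iff (u : Matrix n ρ R) (I I' : Finset n) (x x' : SL n R) :
    lG u • sV τ ρ (vert τ I x) = sV τ ρ (vert τ I' x') ↔
      I = I' ∧ (∀ i a, (mt x⁻¹ * u) i a ∈ FF τ (1 - ee I i)) ∧ x⁻¹ * x' ∈ PP τ I := by
  rw [sV_vert, sV_vert, smul_vert, vert_eq_iff]
  have e : mt ((lG u * sG ρ x)⁻¹ * sG ρ x') =
      fromBlocks 1 0 (-(mt x⁻¹ * u)) (mt (x⁻¹ * x')) := by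
    rw [_root_.mul_inv_rev, ← map_inv, lG_inv, mt_mul, mt_mul, mt_sG, mt_sG]
    simp [fromBlocks_multiply]
  rw [mem_PP_blocks τ e]
  constructor
  · rintro ⟨h1, -, h2, h3⟩
    exact ⟨extc_inj h1, fun i a => by simpa using h2 i a, h3⟩
  · rintro ⟨rfl, h2, h3⟩
    exact ⟨rfl, fun a j => by simp, fun i a => by simpa using h2 i a, h3⟩

theorem uG_smul_eq_iff (u : Matrix ρ n R) (I I' : Finset n) (x x' : SL n R) :
    uG u • sV τ ρ (vert τ I x) = sV τ ρ (vert τ I' x') ↔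
      I = I' ∧ (∀ a j, (u * mt x') a j ∈ FF τ (1 + ee I j)) ∧ x⁻¹ * x' ∈ PP τ I := by
  rw [sV_vert, sV_vert, smul_vert, vert_eq_iff]
  have e : mt ((uG u * sG ρ x)⁻¹ * sG ρ x') =
      fromBlocks 1 (-(u * mt x')) 0 (mt (x⁻¹ * x')) := by
    rw [_root_.mul_inv_rev, ← map_inv, uG_inv, mt_mul, mt_mul, mt_sG, mt_sG]
    simp [fromBlocks_multiply]
  rw [mem_PP_blocks τ e]
  constructor
  · rintro ⟨h1, h2, -, h3⟩
    exact ⟨extc_inj h1, fun i a => by simpa using h2 i a, h3⟩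
  · rintro ⟨rfl, h2, h3⟩
    exact ⟨rfl, fun i a => by simpa using h2 i a, fun a j => by simp, h3⟩

theorem lG_fix_iff (u : Matrix n ρ R) (I : Finset n) (x : SL n R) :
    lG u • sV τ ρ (vert τ I x) = sV τ ρ (vert τ I x) ↔
      ∀ a, mt x⁻¹ *ᵥ (fun i => u i a) ∈ HH τ I 0 := by
  rw [lG_smul_eq_iff]
  simp only [true_and, inv_mul_cancel, one_mem, and_true, mem_HH, Nat.zero_add]
  exact forall_comm

theorem uG_fix_iff (u : Matrix ρ n R) (I : Finset n) (x : SL n R) :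
    uG u • sV τ ρ (vert τ I x) = sV τ ρ (vert τ I x) ↔
      ∀ a, mt (thG x)⁻¹ *ᵥ (u a) ∈ HH τ Iᶜ 1 := by
  rw [uG_smul_eq_iff]
  simp only [true_and, inv_mul_cancel, one_mem, and_true, mem_HH]
  refine forall₂_congr fun a j => ?_
  have h1 : 1 + 1 - ee Iᶜ j = 1 + ee I j := by
    have := ee_le I j
    rw [ee_compl]; omega
  have h2 : (mt (thG x)⁻¹ *ᵥ u a) j = (u * mt x) a j := by
    rw [← map_inv, mt_thG, inv_inv, mulVec_transpose]
    rfl
  rw [h1, h2]

omit [Finite R] [Fintype n] in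
theorem HH_anti {I I' : Finset n} (h : I' ⊆ I) (m : ℕ) : HH τ I m ≤ HH τ I' m := by
  intro w hw
  rw [mem_HH] at hw ⊢
  intro i
  have := ee_mono h i
  exact FF_mono τ (by omega) (hw i)

end Up

theorem UK_subset (𝓘 : Finset (Finset n)) : UK τ ρ 𝓘 ⊆ Zc τ (𝓘.image (extc ρ)) := by
  rintro _ ⟨u, σ', hσ', rfl⟩
  obtain ⟨T, hT, x, rfl⟩ := (mem_Zc τ).1 hσ'
  rw [image_face]
  exact (mem_Zc τ).2 ⟨_, image_subset_image hT, _, rfl⟩

theorem LK_subset (𝓘 : Finset (Finset n)) : LK τ ρ 𝓘 ⊆ Zc τ (𝓘.image (extc ρ)) := by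
  rintro _ ⟨u, σ', hσ', rfl⟩
  obtain ⟨T, hT, x, rfl⟩ := (mem_Zc τ).1 hσ'
  rw [image_face]
  exact (mem_Zc τ).2 ⟨_, image_subset_image hT, _, rfl⟩

namespace Up

omit [Finite R] in
/-- a matrix fixing the vectors `e_{inl a}` is `uG u * sG x̄` -/
theorem exists_eq_uG (z : SL (ρ ⊕ n) R)
    (hz : ∀ a i, mt z i (Sum.inl a) = (Pi.single (Sum.inl a) (1 : R) : ρ ⊕ n → R) i) :
    ∃ (u : Matrix ρ n R) (x : SL n R), z = uG u * sG ρ x := by
  have e : mt z = fromBlocks 1 (mt z).toBlocks₁₂ 0 (mt z).toBlocks₂₂ := by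
    ext (a | i) (b | j)
    · rw [hz]; simp [Pi.single_apply, Matrix.one_apply]
    · rfl
    · rw [hz]; simp
    · rfl
  have hd : ((mt z).toBlocks₂₂).det = 1 := by
    have := det_mt z
    rw [e, det_fromBlocks_zero₂₁] at this
    simpa using this
  refine ⟨(mt z).toBlocks₁₂ * mt (mkSL _ hd)⁻¹, mkSL _ hd, mt_ext ?_⟩
  have h2 := mt_inv_mul (mkSL _ hd)
  rw [mt_mkSL] at h2
  rw [mt_mul, mt_uG, mt_sG, fromBlocks_multiply, mt_mkSL]
  simp only [Matrix.mul_one, Matrix.mul_zero, add_zero, zero_add, Matrix.one_mul,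
    Matrix.zero_mul, Matrix.mul_assoc, h2]
  exact e

theorem exists_p {I : Finset n} (hI : I ≠ univ) (x : SL (ρ ⊕ n) R)
    (hw : ∀ a : ρ, mt x⁻¹ *ᵥ (Pi.single (Sum.inl a) (1 : R)) ∈ HH τ (extc ρ I) 0) :
    ∃ p : SL (ρ ⊕ n) R, (∀ I' ⊆ I, p ∈ PP τ (extc ρ I')) ∧
      ∀ a i, mt (x * p) i (Sum.inl a) = (Pi.single (Sum.inl a) (1 : R) : ρ ⊕ n → R) i := by
  set w : ρ → ρ ⊕ n → R := fun a => mt x⁻¹ *ᵥ (Pi.single (Sum.inl a) (1 : R)) with hwdef
  have hw1 : ∀ a i, w a i = algebraMap k R (τ.c0 (w a i)) := by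
    intro a i
    rw [← mem_FF_one]
    exact FF_mono τ (by omega) ((mem_HH τ).1 (hw a) i)
  have hw0 : ∀ a i, i ∈ extc ρ I → w a i = 0 := by
    intro a i hi
    have := (mem_HH τ).1 (hw a) i
    rw [ee, if_pos hi, FF_zero] at this
    exact (Submodule.mem_bot k).1 this
  let W : ρ ⊕ n → ρ ⊕ n → k := Sum.elim (fun a i => τ.c0 (w a i)) (fun _ _ => 0)
  let A : Finset (ρ ⊕ n) := univ.map Function.Embedding.inl
  have hA : ∀ s, s ∈ A ↔ ∃ a, s = Sum.inl a := by
    intro s; simp [A, eq_comm]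
  have hAJ : A ⊆ (extc ρ I)ᶜ := by
    intro s hs
    obtain ⟨a, rfl⟩ := (hA s).1 hs
    simp [extc]
  have hne : A ≠ (extc ρ I)ᶜ := by
    intro h
    obtain ⟨i, hi⟩ : ∃ i, i ∉ I := by
      by_contra h'
      push Not at h'
      exact hI (eq_univ_of_forall h')
    have : (Sum.inr i : ρ ⊕ n) ∈ A := by rw [h]; simpa [extc] using hi
    obtain ⟨a, ha⟩ := (hA _).1 this
    cases ha
  have hli : LinearIndepOn k W (A : Set (ρ ⊕ n)) := by
    have h1 : LinearIndependent k (fun a : ρ => fun i => τ.c0 (w a i)) := by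
      rw [Fintype.linearIndependent_iff]
      intro c hc a
      have h2 : ∑ b, algebraMap k R (c b) • w b = 0 := by
        funext i
        have := congrFun hc i
        simp only [Finset.sum_apply, Pi.smul_apply, smul_eq_mul, Pi.zero_apply] at this ⊢
        have h3 := congrArg (algebraMap k R) this
        rw [map_sum, map_zero] at h3
        rw [← h3]
        exact sum_congr rfl fun b _ => by rw [map_mul, ← hw1]
      have h4 := congrArg (fun v => (mt x *ᵥ v) (Sum.inl a)) h2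
      simp only [mulVec_sum, mulVec_smul, hwdef, mulVec_inv_mulVec, mulVec_zero, Finset.sum_apply,
        Pi.smul_apply, Pi.single_apply, Sum.inl.injEq, smul_eq_mul, mul_ite, mul_one, mul_zero,
        sum_ite_eq, mem_univ, if_true, Pi.zero_apply] at h4
      have h5 := congrArg τ.c0 h4
      simpa using h5
    have h6 : (A : Set (ρ ⊕ n)) = Sum.inl '' Set.univ := by
      ext s; simp [hA, eq_comm]
    rw [h6]
    refine LinearIndepOn.image_of_comp (R := k) Sum.inl W ?_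
    rw [linearIndepOn_univ_iff]
    exact h1
  have hJ : ∀ a ∈ A, W a ∈ coord k (extc ρ I)ᶜ := by
    intro s hs
    obtain ⟨a, rfl⟩ := (hA s).1 hs
    rw [mem_coord]
    intro i hi
    simp only [W, Sum.elim_inl]
    rw [hw0 a i (by simpa using hi), map_zero]
  obtain ⟨M, hM, hM1, hM2, hM3⟩ := ext_k _ A hAJ hne W hli hJ
  have hd : (M.map (algebraMap k R)).det = 1 := by
    have := (algebraMap k R).map_det M
    rw [hM, map_one] at this
    exact this.symm
  refine ⟨mkSL _ hd, fun I' hI' i j => ?_, fun a i => ?_⟩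
  · simp only [mt_mkSL, map_apply]
    by_cases hi : i ∈ extc ρ I' ∧ j ∉ extc ρ I'
    · have hiI : i ∈ extc ρ I := Finset.map_subset_map.2 hI' hi.1
      have : M i j = 0 := by
        by_cases hj : j ∈ (extc ρ I)ᶜ
        · exact hM2 j hj i (by simpa using hiI)
        · rw [hM3 j hj i, if_neg]
          rintro rfl; exact hi.2 hi.1
      rw [this, map_zero]; exact zero_mem _
    · refine FF_mono τ ?_ (algebraMap_mem_FF τ _)
      unfold ee
      by_cases h1 : i ∈ extc ρ I'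
      · have h2 : j ∈ extc ρ I' := by
          by_contra h2; exact hi ⟨h1, h2⟩
        rw [if_pos h1, if_pos h2]
      · rw [if_neg h1]; omega
  · have h7 : (fun l => mt (mkSL _ hd) l (Sum.inl a)) = w a := by
      funext l
      simp only [mt_mkSL, map_apply]
      rw [hM1 _ ((hA _).2 ⟨a, rfl⟩)]
      exact (hw1 a l).symm
    have h8 : mt (x * mkSL _ hd) i (Sum.inl a) = (mt x *ᵥ w a) i := by
      rw [← h7]; rfl
    rw [h8, hwdef]
    simp only [mulVec_inv_mulVec]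

end Up

/-- `⊇`: `uG u * sG x` fixes the vectors `e_{inl a} ∈ HH (extc I) 0`.  `⊆`: for a face `T`, `x` with
largest colour `extc I`: `x⁻¹ e_{inl a} =: w_a ∈ HH (extc I) 0` are independent vectors over `k`
supported outside `extc I`; `ext_k` (with `J = (extc I)ᶜ`, `A = range inl`) gives
`p ∈ P_{extc I'}` for all `I' ⊆ I` with columns `w_a`, and `x p = uG u * sG x̄`. -/
theorem KS_eq_UK [DecidableEq R] {𝓘 : Finset (Finset n)}
    (hc : IsChain (· ⊆ ·) (𝓘 : Set (Finset n))) (hne : ∀ I ∈ 𝓘, I ≠ univ) :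
    KS τ (𝓘.image (extc ρ)) (stdS ρ n R) = UK τ ρ 𝓘 := by
  apply Set.Subset.antisymm
  · rintro σ ⟨hσ, hS⟩
    obtain ⟨T', hT', x, rfl⟩ := (mem_Zc τ).1 hσ
    obtain ⟨T, hT, rfl⟩ := subset_image_iff.1 hT'
    rcases T.eq_empty_or_nonempty with rfl | hTne
    · exact ⟨0, ∅, (mem_Zc τ).2 ⟨∅, empty_subset _, 1, by simp⟩, by simp⟩
    obtain ⟨I, hI, hmax⟩ := exists_max hc hT hTne
    have hw : ∀ a : ρ, mt x⁻¹ *ᵥ (Pi.single (Sum.inl a) (1 : R)) ∈ HH τ (extc ρ I) 0 := by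
      intro a
      obtain ⟨y, hy, w₀, hw₀, e⟩ := hS (vert τ (extc ρ I) x)
        (mem_face.2 ⟨_, mem_image_of_mem _ hI, rfl⟩) (Pi.single (Sum.inl a) (1 : R))
        (mem_image_of_mem _ (mem_univ a))
      rw [e]
      exact inv_mulVec_mem τ hy hw₀
    obtain ⟨p, hp, hz⟩ := exists_p τ (hne I (hT hI)) x hw
    obtain ⟨u, x', e⟩ := exists_eq_uG _ hz
    refine ⟨u, face (vert τ) T x', (mem_Zc τ).2 ⟨T, hT, x', rfl⟩, ?_⟩
    rw [image_face, ← e]
    refine face_congr fun J hJ => ?_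
    obtain ⟨I', hI', rfl⟩ := mem_image.1 hJ
    exact (vert_mul_of_mem τ x (hp I' (hmax I' hI'))).symm
  · intro σ hσ
    refine ⟨UK_subset τ 𝓘 hσ, ?_⟩
    obtain ⟨u, σ', hσ', rfl⟩ := hσ
    intro v hv w hw
    obtain ⟨v', hv', rfl⟩ := mem_image.1 hv
    obtain ⟨I, -, x, rfl⟩ := vert_of_mem τ hσ' hv'
    obtain ⟨a, -, rfl⟩ := mem_image.1 hw
    rw [sV_vert, smul_vert]
    refine ⟨_, self_mem_cos τ _ _, Pi.single (Sum.inl a) 1, ?_, ?_⟩
    · rw [mem_HH]
      rintro (b | i)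
      · rw [vert_col, ee_inl]
        by_cases hb : b = a
        · subst hb; simpa using one_mem_FF τ
        · rw [Pi.single_eq_of_ne (by simpa using hb)]; exact zero_mem _
      · rw [Pi.single_eq_of_ne (by simp)]; exact zero_mem _
    · rw [mulVec_single_one]
      funext s
      rcases s with b | i
      · simp [fromBlocks_multiply, Pi.single_apply, Matrix.one_apply]
      · simp [fromBlocks_multiply]

namespace Up

/-- the matrix with column `a` equal to `w` -/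
def colL (k : Type) [Field k] [Algebra k R] (a : ρ) : (n → R) →ₗ[k] Matrix n ρ R where
  toFun w := Matrix.of fun i b => if b = a then w i else 0
  map_add' w w' := by ext i b; by_cases h : b = a <;> simp [h]
  map_smul' c w := by ext i b; by_cases h : b = a <;> simp [h]

/-- the matrix with row `a` equal to `w` -/
def rowL (k : Type) [Field k] [Algebra k R] (a : ρ) : (n → R) →ₗ[k] Matrix ρ n R where
  toFun w := Matrix.of fun b i => if b = a then w i else 0
  map_add' w w' := by ext b i; by_cases h : b = a <;> simp [h]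
  map_smul' c w := by ext b i; by_cases h : b = a <;> simp [h]

omit [Finite R] [Fintype n] [DecidableEq n] in
theorem sum_colL (u : Matrix n ρ R) : ∑ a, colL k a (fun i => u i a) = u := by
  ext i b
  simp [colL, Matrix.sum_apply]

omit [Finite R] [Fintype n] [DecidableEq n] in
theorem sum_rowL (u : Matrix ρ n R) : ∑ a, rowL k a (u a) = u := by
  ext b i
  simp [rowL, Matrix.sum_apply]

omit [Finite R] [Fintype n] [DecidableEq n] [Fintype ρ] in
theorem colL_col (a b : ρ) (w : n → R) :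
    (fun i => colL k a w i b) = if b = a then w else 0 := by
  funext i; by_cases h : b = a <;> simp [colL, h]

omit [Finite R] [Fintype n] [DecidableEq n] [Fintype ρ] in
theorem rowL_row (a b : ρ) (w : n → R) : rowL k a w b = if b = a then w else 0 := by
  funext i; by_cases h : b = a <;> simp [rowL, h]

omit [Finite R] in
theorem thG_thG (x : SL n R) : thG (thG x) = x := by
  apply mt_ext
  rw [mt_thG, ← map_inv, mt_thG, inv_inv, transpose_transpose]

theorem th_vert (I : Finset n) (x : SL n R) :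
    vmap τ thG compl (vert τ I x) = vert τ Iᶜ (thG x) :=
  vmap_vert τ thG compl (fun _ hg => (thG_mem_PP_iff τ).2 hg) x

theorem th_face (T : Finset (Finset n)) (x : SL n R) :
    (face (vert τ) T x).image (vmap τ thG compl) = face (vert τ) (T.image compl) (thG x) := by
  simp only [face, image_image]
  refine image_congr fun I _ => ?_
  simp only [Function.comp, th_vert]

theorem iso_th (𝓘 : Finset (Finset n)) :
    Iso (Zc τ 𝓘) (Zc τ (𝓘.image compl)) (vmap τ thG compl) := by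
  refine ⟨?_, ?_, ?_⟩
  · rintro v ⟨σ, hσ, hv⟩ v' ⟨σ', hσ', hv'⟩ e
    obtain ⟨I, -, x, rfl⟩ := vert_of_mem τ hσ hv
    obtain ⟨I', -, x', rfl⟩ := vert_of_mem τ hσ' hv'
    rw [th_vert, th_vert, vert_eq_iff, ← map_inv, ← map_mul, thG_mem_PP_iff] at e
    exact (vert_eq_iff τ).2 ⟨compl_injective e.1, e.2⟩
  · intro σ hσ
    obtain ⟨T, hT, x, rfl⟩ := (mem_Zc τ).1 hσ
    rw [th_face]
    exact (mem_Zc τ).2 ⟨_, image_subset_image hT, _, rfl⟩
  · intro σ hσ
    obtain ⟨T', hT', x, rfl⟩ := (mem_Zc τ).1 hσ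
    obtain ⟨T, hT, rfl⟩ := subset_image_iff.1 hT'
    exact ⟨face (vert τ) T (thG x), (mem_Zc τ).2 ⟨T, hT, _, rfl⟩, by rw [th_face, thG_thG]⟩

theorem chainOK_compl {𝓘 : Finset (Finset n)} (h : ChainOK 𝓘) : ChainOK (𝓘.image compl) := by
  refine ⟨?_, ?_⟩
  · intro J hJ J' hJ' hne
    obtain ⟨I, hI, rfl⟩ := mem_image.1 (mem_coe.1 hJ)
    obtain ⟨I', hI', rfl⟩ := mem_image.1 (mem_coe.1 hJ')
    rcases h.1 hI hI' (fun e => hne (by rw [e])) with h1 | h1
    · exact Or.inr (compl_subset_compl.2 h1)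
    · exact Or.inl (compl_subset_compl.2 h1)
  · rintro ⟨h1, h2⟩
    obtain ⟨I, hI, e⟩ := mem_image.1 h1
    obtain ⟨I', hI', e'⟩ := mem_image.1 h2
    have e1 : I = univ := by simpa using congrArg Compl.compl e
    have e2 : I' = ∅ := by simpa using congrArg Compl.compl e'
    exact h.2 ⟨e2 ▸ hI', e1 ▸ hI⟩

end Up

/-- `lG u` fixes `sV (vert I x)` iff the columns of `(mt x⁻¹) * u` lie in `HH I 0`; nested for the
largest colour; `racyc` is `chi` with `m₀ = 0`, `Y = ρ → k`,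
`w ↦ (a ↦ y (matrix with column a equal to w))`, and `RAcyc.congr`. -/
theorem fdata_lo (N : ℕ) : ∃ q₀ : ℕ, ∀ (k R n : Type) [Field k] [Fintype k] [CommRing R] [Algebra k R] [Finite R]
    [Fintype n] [DecidableEq n] (τ : Trunc k R) (𝓘 : Finset (Finset n)),
    q₀ ≤ Fintype.card k → Fintype.card n ≤ N → ChainOK 𝓘 →
    ∀ (ρ : Type) [Fintype ρ] [DecidableEq ρ], ∀ m < 𝓘.card,
    FData k (Matrix n ρ R) (LK τ ρ 𝓘) (Zc τ 𝓘) (fun u v => lG u • v) (sV τ ρ) m := by
  obtain ⟨q₀, hq₀⟩ := chi N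
  refine ⟨q₀, ?_⟩
  intro k R n _ _ _ _ _ _ _ τ 𝓘 hq hN hc ρ _ _ m hm
  refine ⟨fun v => by rw [lG_zero, one_smul], fun u u' v => by rw [lG_add, mul_smul],
    down_cx _ _, fun σ => Iff.rfl, ?_, ?_, ?_, ?_⟩
  · intro σ hσ σ' hσ' v hv w hw u e
    obtain ⟨I, -, x, rfl⟩ := vert_of_mem τ hσ hv
    obtain ⟨I', -, x', rfl⟩ := vert_of_mem τ hσ' hw
    have := (lG_smul_eq_iff τ u I I' x x').1 e
    exact (vert_eq_iff τ).2 ⟨this.1, this.2.2⟩
  · intro σ hσ v hv c u e
    obtain ⟨I, -, x, rfl⟩ := vert_of_mem τ hσ hv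
    rw [lG_fix_iff] at e ⊢
    intro a
    have : (fun i => (c • u) i a) = c • (fun i => u i a) := rfl
    rw [this, mulVec_smul]
    exact Submodule.smul_mem _ _ (e a)
  · intro σ hσ hne
    obtain ⟨T, hT, x, rfl⟩ := (mem_Zc τ).1 hσ
    obtain ⟨I, hI, hmax⟩ := exists_max hc.1 hT (by simpa [face] using hne)
    refine ⟨vert τ I x, mem_face.2 ⟨I, hI, rfl⟩, fun w hw u e => ?_⟩
    obtain ⟨I', hI', rfl⟩ := mem_face.1 hw
    rw [lG_fix_iff] at e ⊢
    exact fun a => HH_anti τ (hmax I' hI') 0 (e a)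
  · intro y hy
    let Y : (n → R) →ₗ[k] (ρ → k) := LinearMap.pi fun a => y ∘ₗ colL k a
    have hY : ∀ w a, Y w a = y (colL k a w) := fun _ _ => rfl
    have hY0 : Y ≠ 0 := by
      intro h0
      apply hy
      refine LinearMap.ext fun u => ?_
      rw [← sum_colL (k := k) u, map_sum]
      refine sum_eq_zero fun a _ => ?_
      rw [← hY, h0]; rfl
    refine (hq₀ k R n τ 𝓘 hq hN hc (ρ → k) Y hY0 0 m hm).congr (down_cx _ _) ?_
    intro σ hσ v hv
    obtain ⟨I, -, x, rfl⟩ := vert_of_mem τ hσ hv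
    constructor
    · intro h u e
      rw [lG_fix_iff] at e
      rw [← sum_colL (k := k) u, map_sum]
      refine sum_eq_zero fun a _ => ?_
      have := h x (self_mem_cos τ I x) _ (e a)
      rw [mulVec_inv_mulVec] at this
      rw [← hY, this]; rfl
    · intro h x' hx' w hw
      funext a
      rw [hY]
      refine h _ ?_
      rw [lG_fix_iff]
      intro b
      rw [colL_col]
      split_ifs
      · exact inv_mulVec_mem τ hx' hw
      · rw [mulVec_zero]; exact zero_mem _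

/-- `uG u` fixes `sV (vert I x)` iff the rows of `u * mt x` lie in `HH Iᶜ 1`, i.e. the rows of `u`
lie in `mt (thG x) *ᵥ HH Iᶜ 1`; nested for the smallest colour; `racyc` is `chi` for
`𝓘.image compl` with `m₀ = 1`, transported by `Iso.racyc` along `vmap τ thG compl`. -/
theorem fdata_up (N : ℕ) : ∃ q₀ : ℕ, ∀ (k R n : Type) [Field k] [Fintype k] [CommRing R] [Algebra k R] [Finite R]
    [Fintype n] [DecidableEq n] (τ : Trunc k R) (𝓘 : Finset (Finset n)),
    q₀ ≤ Fintype.card k → Fintype.card n ≤ N → ChainOK 𝓘 →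
    ∀ (ρ : Type) [Fintype ρ] [DecidableEq ρ], ∀ m < 𝓘.card,
    FData k (Matrix ρ n R) (UK τ ρ 𝓘) (Zc τ 𝓘) (fun u v => uG u • v) (sV τ ρ) m := by
  obtain ⟨q₀, hq₀⟩ := chi N
  refine ⟨q₀, ?_⟩
  intro k R n _ _ _ _ _ _ _ τ 𝓘 hq hN hc ρ _ _ m hm
  refine ⟨fun v => by rw [uG_zero, one_smul], fun u u' v => by rw [uG_add, mul_smul],
    down_cx _ _, fun σ => Iff.rfl, ?_, ?_, ?_, ?_⟩
  · intro σ hσ σ' hσ' v hv w hw u e
    obtain ⟨I, -, x, rfl⟩ := vert_of_mem τ hσ hv
    obtain ⟨I', -, x', rfl⟩ := vert_of_mem τ hσ' hw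
    have := (uG_smul_eq_iff τ u I I' x x').1 e
    exact (vert_eq_iff τ).2 ⟨this.1, this.2.2⟩
  · intro σ hσ v hv c u e
    obtain ⟨I, -, x, rfl⟩ := vert_of_mem τ hσ hv
    rw [uG_fix_iff] at e ⊢
    intro a
    have : (c • u) a = c • u a := rfl
    rw [this, mulVec_smul]
    exact Submodule.smul_mem _ _ (e a)
  · intro σ hσ hne
    obtain ⟨T, hT, x, rfl⟩ := (mem_Zc τ).1 hσ
    obtain ⟨I, hI, hmin⟩ := exists_min hc.1 hT (by simpa [face] using hne)
    refine ⟨vert τ I x, mem_face.2 ⟨I, hI, rfl⟩, fun w hw u e => ?_⟩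
    obtain ⟨I', hI', rfl⟩ := mem_face.1 hw
    rw [uG_fix_iff] at e ⊢
    exact fun a => HH_anti τ (compl_subset_compl.2 (hmin I' hI')) 1 (e a)
  · intro y hy
    let Y : (n → R) →ₗ[k] (ρ → k) := LinearMap.pi fun a => y ∘ₗ rowL k a
    have hY : ∀ w a, Y w a = y (rowL k a w) := fun _ _ => rfl
    have hY0 : Y ≠ 0 := by
      intro h0
      apply hy
      refine LinearMap.ext fun u => ?_
      rw [← sum_rowL (k := k) u, map_sum]
      refine sum_eq_zero fun a _ => ?_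
      rw [← hY, h0]; rfl
    have hm' : m < (𝓘.image Compl.compl).card := by
      rw [card_image_of_injective _ compl_injective]; exact hm
    refine (iso_th τ 𝓘).racyc (down_cx _ _) ?_
      (hq₀ k R n τ _ hq hN (chainOK_compl hc) (ρ → k) Y hY0 1 m hm')
    intro σ hσ v hv
    obtain ⟨I, -, x, rfl⟩ := vert_of_mem τ hσ hv
    rw [th_vert]
    constructor
    · intro h x' hx' w hw
      funext a
      rw [hY]
      refine h _ ?_
      rw [uG_fix_iff]
      intro b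
      rw [rowL_row]
      split_ifs
      · exact inv_mulVec_mem τ hx' hw
      · rw [mulVec_zero]; exact zero_mem _
    · intro h u e
      rw [uG_fix_iff] at e
      rw [← sum_rowL (k := k) u, map_sum]
      refine sum_eq_zero fun a _ => ?_
      have := h _ (self_mem_cos τ _ _) _ (e a)
      rw [mulVec_inv_mulVec] at this
      rw [← hY, this]; rfl

end Crest.Agent.R66
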