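import Crest.Agent.R66.Cols

/-! # Row 66: vanishing of cohomology (task VN, helper24) -/

set_option autoImplicit false

namespace Crest.Agent.R66

open Finset Module Matrix

section
variable {k R : Type} [Field k] [CommRing R] [Algebra k R] (τ : Trunc k R) [Finite R]
  [DecidableEq R] {n : Type} [Fintype n] [DecidableEq n]

omit [DecidableEq R] in
theorem down_KS (𝓘 : Finset (Finset n)) (S : Finset (n → R)) : Down (KS τ 𝓘 S) :=
  fun σ hσ σ' h => ⟨down_cx _ _ σ hσ.1 σ' h, fun v hv => hσ.2 v (h hv)⟩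

theorem detect {𝓘 : Finset (Finset n)} {m : ℕ}
    (hrow : ∀ σ ∈ Zc τ 𝓘, ∀ r < m + 1,
      Acyc {S : Finset (n → R) | σ ∈ KS τ 𝓘 S ∧ Unimod τ S} r)
    (hcol : ∀ S : Finset (n → R), Unimod τ S → ∀ i, 2 ≤ S.card → i + S.card = m + 1 →
      Acyc (KS τ 𝓘 S) i)
    {F : Finset (Vx n R) → ZMod 2} (hF : Cocyc (Zc τ 𝓘) m F)
    (hv : ∀ v, Unimod τ {v} → Cob (KS τ 𝓘 {v}) m F) : Cob (Zc τ 𝓘) m F := by
  have hu0 : Unimod τ (∅ : Finset (n → R)) := by simp [Unimod]
  have e0 : {σ | σ ∈ KS τ 𝓘 ∅ ∧ Unimod τ (∅ : Finset (n → R))} = Zc τ 𝓘 := by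
    ext σ; simp [hu0, KS_empty]
  have key := stair (fun σ S => σ ∈ KS τ 𝓘 S ∧ Unimod τ S) ?_ m ?_ ?_ F (e0 ▸ hF) ?_
  · rwa [e0] at key
  · rintro σ S σ' S' ⟨h1, h2⟩ hσ hS
    refine ⟨⟨(down_KS τ 𝓘 S σ h1 σ' hσ).1, fun v hv w hw => h1.2 v (hσ hv) w (hS hw)⟩, ?_⟩
    exact LinearIndepOn.mono h2 (by exact_mod_cast hS)
  · intro σ hσ r hr
    exact hrow σ hσ.1.1 r (by omega)
  · intro S i h2 hi
    by_cases hS : Unimod τ S
    · simpa [hS] using hcol S hS i h2 hi
    · intro G _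
      exact ⟨fun _ => 0, fun σ hσ => absurd hσ.2 hS⟩
  · intro v
    by_cases hS : Unimod τ {v}
    · simpa [hS] using hv v hS
    · exact ⟨fun _ => 0, fun σ hσ => absurd hσ.2 hS⟩

omit [DecidableEq R] in
theorem cocyc_smul {𝓘 : Finset (Finset n)} {m : ℕ} {F : Finset (Vx n R) → ZMod 2}
    (hF : Cocyc (Zc τ 𝓘) m F) (g : SL n R) :
    Cocyc (Zc τ 𝓘) m (fun σ => F (σ.image (g • ·))) :=
  hF.comap (fun _ _ => (MulAction.injective g).injOn) (fun _ hσ => smul_mem_Zc τ g hσ)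

variable {ρ : Type} [Fintype ρ] [DecidableEq ρ]

/-- elements acting trivially after restriction along the section -/
def invGrp (ρ : Type) [Fintype ρ] [DecidableEq ρ] (𝓘 : Finset (Finset n)) (m : ℕ) :
    Subgroup (SL (ρ ⊕ n) R) where
  carrier := {g | ∀ F, Cocyc (Zc τ (𝓘.image (extc ρ))) m F → Cob (Zc τ 𝓘) m
    (fun σ => F (σ.image (fun v => g • sV τ ρ v)) + F (σ.image (sV τ ρ)))}
  one_mem' := fun F _ => cob_zero.congr fun σ _ _ => by simp [z2_add_self]
  mul_mem' := by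
    intro g h hg hh F hF
    refine ((hh _ (cocyc_smul τ hF g)).add (hg F hF)).congr fun σ _ _ => ?_
    simp only [image_image, Function.comp_def, mul_smul]
    rw [add_assoc, ← add_assoc (F (image (fun v => g • sV τ ρ v) σ)), z2_add_self, zero_add]
  inv_mem' := by
    intro g hg F hF
    refine (hg _ (cocyc_smul τ hF g⁻¹)).congr fun σ _ _ => ?_
    simp only [image_image, Function.comp_def, inv_smul_smul]
    rw [add_comm]

theorem van_sum [Fintype k] [Unique ρ] (hk : Odd (Fintype.card k)) {𝓘 : Finset (Finset n)}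
    (hc : IsChain (· ⊆ ·) (𝓘 : Set (Finset n))) (h0 : ∅ ∈ 𝓘) (hne : ∀ I ∈ 𝓘, I ≠ univ) {m : ℕ}
    (hup : FData k (Matrix ρ n R) (UK τ ρ 𝓘) (Zc τ 𝓘) (fun u v => uG u • v) (sV τ ρ) m)
    (hlo : FData k (Matrix n ρ R) (LK τ ρ 𝓘) (Zc τ 𝓘) (fun u v => lG u • v) (sV τ ρ) m)
    (hdet : ∀ F, Cocyc (Zc τ (𝓘.image (extc ρ))) m F →
      (∀ v, Unimod τ {v} → Cob (KS τ (𝓘.image (extc ρ)) {v}) m F) →
      Cob (Zc τ (𝓘.image (extc ρ))) m F) :
    Acyc (Zc τ (𝓘.image (extc ρ))) m := by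
  have := trunc_local τ
  have : Fintype (Matrix ρ n R) := Fintype.ofFinite _
  have : Fintype (Matrix n ρ R) := Fintype.ofFinite _
  have htop : invGrp τ ρ 𝓘 m = ⊤ := gen_top _
    (fun u F hF => hup.cob_translate hk (hF.mono (UK_subset τ 𝓘)) u)
    (fun u F hF => hlo.cob_translate hk (hF.mono (LK_subset τ 𝓘)) u)
  have hall : ∀ g : SL (ρ ⊕ n) R, g ∈ invGrp τ ρ 𝓘 m := fun g => htop ▸ Subgroup.mem_top g
  have hinj : ∀ F, Cocyc (Zc τ (𝓘.image (extc ρ))) m F →
      Cob (Zc τ 𝓘) m (fun σ => F (σ.image (sV τ ρ))) → Cob (Zc τ (𝓘.image (extc ρ))) m F := by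
    intro F hF hs
    refine hdet F hF fun v hv => ?_
    obtain ⟨j, -⟩ : (univ : Finset n).Nonempty :=
      nonempty_iff_ne_empty.2 fun e => hne ∅ h0 e.symm
    obtain ⟨g, hg⟩ := ext_R τ ({Sum.inl default} : Finset (ρ ⊕ n))
      (fun e => by have := mem_univ (Sum.inr j : ρ ⊕ n); rw [← e] at this; simp at this)
      (fun _ => v) (by
        simp only [Unimod, coe_singleton, linearIndepOn_singleton_iff] at hv ⊢
        exact hv)
    have hgv : mt g *ᵥ Pi.single (Sum.inl default) 1 = v := by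
      ext i
      rw [mulVec_single_one]
      exact hg _ (mem_singleton_self _) i
    have h1 : Cob (Zc τ 𝓘) m (fun σ => F ((σ.image (sV τ ρ)).image (g • ·))) := by
      refine ((hall g F hF).of_add hs).congr fun σ _ _ => ?_
      simp only [image_image, Function.comp_def]
    have h2 := hup.cob_of_comap hk ((cocyc_smul τ hF g).mono (UK_subset τ 𝓘)) h1
    rw [← KS_eq_UK τ hc hne] at h2
    have hiso := iso_smul τ g⁻¹ (𝓘.image (extc ρ)) {v}
    have e : ({v} : Finset (ρ ⊕ n → R)).image (fun w => mt g⁻¹ *ᵥ w) = stdS ρ n R := by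
      rw [image_singleton, ← hgv, mulVec_mulVec, mt_inv_mul, one_mulVec, stdS, univ_unique,
        image_singleton]
    rw [e] at hiso
    refine (h2.comap (fun σ hσ => hiso.injOn_face hσ) hiso.2.1).congr fun σ _ _ => ?_
    simp only [image_image, Function.comp_def, smul_inv_smul, image_id']
  intro F hF
  refine contr τ hk (mem_image.2 ⟨∅, h0, by simp [extc]⟩) hF fun g => ?_
  refine hinj _ ((cocyc_smul τ hF g).add hF) ((hall g F hF).congr fun σ _ _ => ?_)
  simp only [image_image, Function.comp_def]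

end

/-- Strong induction on `m`.  Reindex `n = Unit ⊕ n'`, `𝓘 = 𝓘'.image extc`.  The `g` such that
`F (g · sV ·) + F (sV ·)` is a coboundary for all cocycles `F` form a subgroup containing all
`uG`, `lG` (`FData.cob_translate`), hence everything (`gen_top`).  If `F ∘ sV` is a coboundary then
so is `F` on every `KS {v}` (`ext_R`, `FData.cob_of_comap`), hence on `Zc` (`stair`, `row_acyc`,
`ks_acyc`).  Apply to `F (g ·) + F` and use `contr`. -/
theorem van (m : ℕ) : ∃ f : ℕ, ∀ N : ℕ, ∃ q₀ : ℕ, ∀ (k R n : Type) [Field k] [Fintype k] [CommRing R] [Algebra k R] [Finite R]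
    [Fintype n] [DecidableEq n] (τ : Trunc k R) (𝓘 : Finset (Finset n)),
    Odd (Fintype.card k) → q₀ ≤ Fintype.card k → Fintype.card n ≤ N →
    IsChain (· ⊆ ·) (𝓘 : Set (Finset n)) → ∅ ∈ 𝓘 → (∀ I ∈ 𝓘, I.card + f ≤ Fintype.card n) →
    m < 𝓘.card → Acyc (Zc τ 𝓘) m := by
  induction m using Nat.strong_induction_on with
  | _ m ih =>
  classical
  choose! f' hf' using ih
  refine ⟨(range m).sup f' + m + 3, fun N => ?_⟩
  choose! q' hq' using fun i (hi : i < m) => hf' i hi N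
  obtain ⟨q1, h1⟩ := ks_acyc N
  obtain ⟨q2, h2⟩ := row_acyc (m + 1)
  obtain ⟨q3, h3⟩ := fdata_up N
  obtain ⟨q4, h4⟩ := fdata_lo N
  refine ⟨(range m).sup q' + q1 + q2 + q3 + q4, ?_⟩
  intro k R n _ _ _ _ _ _ _ τ 𝓘 hk hq hN hc h0 hf hm
  -- detection holds for every index type of the same size
  have hdet : ∀ (n₁ : Type) [Fintype n₁] [DecidableEq n₁] (𝓙 : Finset (Finset n₁)),
      Fintype.card n₁ = Fintype.card n → IsChain (· ⊆ ·) (𝓙 : Set (Finset n₁)) → ∅ ∈ 𝓙 →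
      𝓙.card = 𝓘.card → (∀ I' ∈ 𝓙, ∃ I ∈ 𝓘, I'.card = I.card) →
      ∀ F, Cocyc (Zc τ 𝓙) m F → (∀ v, Unimod τ {v} → Cob (KS τ 𝓙 {v}) m F) →
      Cob (Zc τ 𝓙) m F := by
    intro n₁ _ _ 𝓙 hn hc₁ h0₁ hcard hI F hF hv
    have hf₁ : ∀ I' ∈ 𝓙, I'.card + ((range m).sup f' + m + 3) ≤ Fintype.card n₁ := by
      intro I' hI'
      obtain ⟨I, hI, e⟩ := hI I' hI'
      rw [e, hn]; exact hf I hI
    refine detect τ (h2 k R n₁ τ 𝓙 (by omega) hc₁ h0₁ fun I hI => ?_) ?_ hF hv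
    · have := hf₁ I hI; omega
    · intro S hS i hS2 hi
      refine h1 k R n₁ τ 𝓙 hk (by omega) (by omega) hc₁ h0₁ S hS (fun I hI => ?_) i (by omega) ?_
      · have := hf₁ I hI; omega
      · intro n' _ _ 𝓘' hn' hc' h0' hcard' hI'
        have hi' : i < m := by omega
        have e1 : q' i ≤ (range m).sup q' := le_sup (mem_range.2 hi')
        have e2 : f' i ≤ (range m).sup f' := le_sup (mem_range.2 hi')
        refine hq' i hi' k R n' τ 𝓘' hk (by omega) (by omega) hc' h0' (fun I' hI'' => ?_)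
          (by omega)
        obtain ⟨I, hI, e⟩ := hI' I' hI''
        have := hf₁ I hI
        omega
  -- an index outside all colours
  obtain ⟨I₀, hI₀, hmax⟩ := exists_max_image 𝓘 card ⟨∅, h0⟩
  obtain ⟨a, ha⟩ : ∃ a, a ∉ I₀ := by
    by_contra! h
    have : I₀ = univ := eq_univ_iff_forall.2 h
    have h' := hf I₀ hI₀
    rw [this, card_univ] at h'
    omega
  have hA : ∀ I ∈ 𝓘, Disjoint I {a} := by
    intro I hI
    rw [disjoint_singleton_right]
    intro haI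
    by_cases e : I = I₀
    · exact ha (e ▸ haI)
    rcases hc hI hI₀ e with h | h
    · exact ha (h haI)
    · exact e (eq_of_subset_of_card_le h (hmax I hI)).symm
  obtain ⟨𝓘', e𝓘, hcard, h0', hI', hc'⟩ := exists_restrict 𝓘 {a} hA
  have : Unique {i // i ∈ ({a} : Finset n)} :=
    ⟨⟨⟨a, mem_singleton_self a⟩⟩, fun x => Subtype.ext (mem_singleton.1 x.2)⟩
  have hcn : Fintype.card {i // i ∉ ({a} : Finset n)} + 1 = Fintype.card n := by
    rw [← Fintype.card_congr (Equiv.sumCompl (· ∈ ({a} : Finset n))), Fintype.card_sum,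
      Fintype.card_unique (α := {i // i ∈ ({a} : Finset n)}), add_comm]
  have hne : ∀ I ∈ 𝓘', I ≠ univ := by
    intro I hI e
    obtain ⟨I₁, hI₁, e₁⟩ := hI' I hI
    have := hf I₁ hI₁
    rw [e, card_univ] at e₁
    omega
  have hok : ChainOK 𝓘' := ⟨hc' hc, fun h => hne _ h.2 rfl⟩
  have hiso := iso_reindex τ (Equiv.sumCompl (· ∈ ({a} : Finset n)))
    (𝓘'.image (extc {i // i ∈ ({a} : Finset n)})) ∅
  rw [e𝓘, image_empty, KS_empty, KS_empty] at hiso
  rw [← hiso.acyc_iff]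
  have hinj : Function.Injective
      (extc {i // i ∈ ({a} : Finset n)} : Finset {i // i ∉ ({a} : Finset n)} → _) :=
    map_injective _
  refine van_sum τ hk (hc' hc) (h0' h0) hne
    (h3 k R _ τ 𝓘' (by omega) (by omega) hok _ m (by omega))
    (h4 k R _ τ 𝓘' (by omega) (by omega) hok _ m (by omega))
    (hdet _ _ (Fintype.card_congr (Equiv.sumCompl _)) ?_ (mem_image.2 ⟨∅, h0' h0, by simp [extc]⟩)
      (by rw [card_image_of_injective _ hinj, hcard]) ?_)
  · intro I hI J hJ hne'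
    simp only [coe_image, Set.mem_image] at hI hJ
    obtain ⟨I, hI, rfl⟩ := hI
    obtain ⟨J, hJ, rfl⟩ := hJ
    rcases hc' hc hI hJ (fun e => hne' (by rw [e])) with h | h
    · exact Or.inl (map_subset_map.2 h)
    · exact Or.inr (map_subset_map.2 h)
  · intro I hI
    obtain ⟨I, hI2, rfl⟩ := mem_image.1 hI
    obtain ⟨I₁, hI₁, e⟩ := hI' I hI2
    exact ⟨I₁, hI₁, by rw [← e, extc, card_map]⟩

end Crest.Agent.R66
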